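import Vale.Agent.P284Y.P.PshA
import Vale.Agent.P284Y.Lib.GL

/-!
# P284Y, block P, PSH: means over four points
-/

set_option maxSynthPendingDepth 3
set_option linter.all false

open scoped Topology ComplexOrder ComplexConjugate
open Filter Set Metric Function Matrix

noncomputable section

namespace Vale.Agent.P284Y.Ps

open Vale.Agent.P272.K Vale.Agent.P284.H650 Vale.Agent.P284Z Vale.Agent.P284Z.J

/-- the fourth roots of unity -/
def e4 : Fin 4 → ℂ := ![1, Complex.I, -1, -Complex.I]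

theorem norm_e4 (k : Fin 4) : ‖e4 k‖ = 1 := by fin_cases k <;> simp [e4]

section gen
variable {W : Type} [NormedAddCommGroup W] [NormedSpace ℂ W]

theorem norm_e4_smul (k : Fin 4) (w : W) : ‖e4 k • w‖ = ‖w‖ := by rw [norm_smul, norm_e4, one_mul]

theorem avg_rot (f : ℂ → ℝ) (r : ℝ) {e : ℂ} (he : ‖e‖ = 1) :
    Real.circleAverage (fun ζ => f (e * ζ)) 0 r = Real.circleAverage f 0 r := by
  rw [Real.circleAverage_eq_integral_add (f := f) e.arg, Real.circleAverage]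
  congr 2
  funext θ
  conv_lhs => rw [← Complex.norm_mul_exp_arg_mul_I e, he]
  simp only [circleMap, zero_add, Complex.ofReal_add, add_mul, Complex.exp_add, Complex.ofReal_one]
  ring_nf

theorem four_psh {H : W → ℝ} {O : Set W} (hO : IsOpen O) (hc : ContinuousOn H O)
    (h : ∀ x ∈ O, ∀ η > (0 : ℝ), ∀ᶠ w in 𝓝 (0 : W),
      H x ≤ (∑ k, H (x + e4 k • w)) / 4 + η * ‖w‖ ^ 2) : Psh H O := by
  refine psh_of_locSub hc.upperSemicontinuousOn (.of_cont hc) fun x hx w η hη => ?_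
  have h1 := h x hx (η / (‖w‖ ^ 2 + 1)) (by positivity)
  filter_upwards [ev_disc (z := 0) h1 w, ev_disc (hO.mem_nhds hx) w] with r h2 h3
  have hi : ∀ k, CircleIntegrable (fun ζ : ℂ => H (x + (e4 k * ζ) • w)) 0 r := fun k => by
    simp only [mul_comm (e4 k), mul_smul]
    refine line_int hc.upperSemicontinuousOn (.of_cont hc) fun ζ hζ => ?_
    rw [← mul_smul]
    exact h3 _ (by rwa [norm_mul, norm_e4, mul_one])
  have h4 : Real.circleAverage (fun ζ : ℂ => (1 / 4 : ℝ) • ∑ k, H (x + (e4 k * ζ) • w)) 0 r =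
      Real.circleAverage (fun ζ : ℂ => H (x + ζ • w)) 0 r := by
    rw [Real.circleAverage_fun_smul, Real.circleAverage_fun_sum fun k _ => hi k]
    simp only [fun k => avg_rot (fun ζ : ℂ => H (x + ζ • w)) r (norm_e4 k)]
    simp
  have h5 := Real.circleAverage_mono (c := 0) (R := r) (f₁ := fun _ => H x - η * r ^ 2)
    (f₂ := fun ζ : ℂ => (1 / 4 : ℝ) • ∑ k, H (x + (e4 k * ζ) • w)) (circleIntegrable_const _ _ _)
    (CircleIntegrable.const_fun_smul (CircleIntegrable.fun_sum _ fun k _ => hi k)) fun ζ hζ => by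
      have a := mem_sphere_zero_iff_norm.1 hζ
      have b := h2 ζ a.le
      simp only [zero_add, mem_setOf_eq, smul_smul] at b
      rw [norm_smul, a, mul_pow, sq_abs] at b
      have c : η / (‖w‖ ^ 2 + 1) * (r ^ 2 * ‖w‖ ^ 2) ≤ η * r ^ 2 := by
        rw [mul_comm (r ^ 2), ← mul_assoc, div_mul_eq_mul_div, mul_div_assoc]
        exact mul_le_mul_of_nonneg_right (mul_le_of_le_one_right hη.le
          (div_le_one_of_le₀ (by linarith) (by positivity))) (sq_nonneg r)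
      rw [smul_eq_mul]
      linarith
  rw [h4, Real.circleAverage_const] at h5
  linarith

variable [NormedSpace ℝ W] [IsScalarTower ℝ ℂ W]

theorem four_unif {F : W → ℝ} {K : Set W} (hK : IsCompact K) (h : ∀ x ∈ K, ContDiffAt ℝ 2 F x)
    {η : ℝ} (hη : 0 < η) : ∃ δ > 0, ∀ x ∈ K, ∀ w, ‖w‖ < δ →
      F x + levi F x w / 4 - η * ‖w‖ ^ 2 ≤ (∑ k, F (x + e4 k • w)) / 4 := by
  obtain ⟨δ, h1, h2⟩ := taylor_unif hK h hη
  refine ⟨δ, h1, fun x hx w hw => ?_⟩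
  have h3 := fun k => (abs_le.1 (h2 x hx (e4 k • w) (by rwa [norm_e4_smul]))).1
  have a0 := h3 0
  have a1 := h3 1
  have a2 := h3 2
  have a3 := h3 3
  simp only [norm_e4_smul] at a0 a1 a2 a3
  simp only [Fin.sum_univ_four, levi, e4, cons_val_zero, cons_val_one, cons_val, one_smul,
    neg_smul, map_neg, ContinuousLinearMap.neg_apply, neg_neg, smul_eq_mul] at a0 a1 a2 a3 ⊢
  linarith

theorem levi_re {h : W → ℂ} {x : W} (hh : AnalyticAt ℂ h x) (w : W) :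
    levi (fun y => (h y).re) x w = 0 := by
  rw [levi_hol (f := Complex.re) Complex.reCLM.contDiff.contDiffAt hh]
  have : fderiv ℝ Complex.re = fun _ => Complex.reCLM := funext fun z => Complex.reCLM.fderiv
  simp [levi, this]

theorem levi_nsq {h : W → ℂ} {x : W} (hh : AnalyticAt ℂ h x) (w : W) :
    levi (fun y => ‖h y‖ ^ 2) x w = 4 * ‖fderiv ℂ h x w‖ ^ 2 := by
  rw [levi_hol (f := fun z : ℂ => ‖z‖ ^ 2) (contDiff_norm_sq ℝ).contDiffAt hh]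
  have h1 : fderiv ℝ (fun z : ℂ => ‖z‖ ^ 2) = fun z => (2 : ℕ) • innerSL ℝ z := fderiv_norm_sq
  have h2 : ∀ z a : ℂ, fderiv ℝ (fderiv ℝ fun z : ℂ => ‖z‖ ^ 2) z a a = 2 * ‖a‖ ^ 2 := fun z a => by
    rw [h1, ((innerSL ℝ (E := ℂ)).hasFDerivAt.fun_const_smul (2 : ℕ)).fderiv]
    have : innerSL ℝ a a = ‖a‖ ^ 2 := real_inner_self_eq_norm_sq a
    simp [this]
  rw [levi, h2, h2, norm_smul, Complex.norm_I]
  ring

theorem d_bd {V : Type} [NormedAddCommGroup V] [NormedSpace ℝ V] {F : W → V} {K : Set W}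
    (hK : IsCompact K) (h : ∀ x ∈ K, ContDiffAt ℝ 2 F x) : ∃ B ≥ (0 : ℝ), ∀ x ∈ K,
      ‖fderiv ℝ F x‖ ≤ B ∧ ‖fderiv ℝ (fderiv ℝ F) x‖ ≤ B := by
  obtain ⟨B, hB⟩ := hK.exists_bound_of_continuousOn (f := fderiv ℝ F) fun x hx =>
    (dfd (h x hx)).continuousAt.continuousWithinAt
  obtain ⟨B', hB'⟩ := hK.exists_bound_of_continuousOn (f := fderiv ℝ (fderiv ℝ F)) fun x hx =>
    (((h x hx).fderiv_right (m := 1) (by norm_num)).fderiv_right (m := 0)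
      (by norm_num)).continuousAt.continuousWithinAt
  exact ⟨max 0 (max B B'), le_max_left _ _, fun x hx =>
    ⟨(hB x hx).trans (le_max_of_le_right (le_max_left _ _)),
      (hB' x hx).trans (le_max_of_le_right (le_max_right _ _))⟩⟩

theorem levi_le {F : W → ℝ} {x : W} {B : ℝ} (h : ‖fderiv ℝ (fderiv ℝ F) x‖ ≤ B) (w : W) :
    |levi F x w| ≤ 2 * B * ‖w‖ ^ 2 := by
  have h1 : ∀ a : W, ‖a‖ = ‖w‖ → |fderiv ℝ (fderiv ℝ F) x a a| ≤ B * ‖w‖ ^ 2 := fun a ha => by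
    refine ((fderiv ℝ (fderiv ℝ F) x).le_opNorm₂ a a).trans ?_
    rw [ha, mul_assoc, ← sq]
    exact mul_le_mul_of_nonneg_right h (sq_nonneg _)
  have h2 := h1 (Complex.I • w) (by rw [norm_smul, Complex.norm_I, one_mul])
  exact (abs_add_le _ _).trans (by linarith [h1 w rfl])

variable {n : ℕ}

/-- the first Fourier coefficient of the differentials -/
def xi4 (g : Fin 4 → Cm n → ℝ) (z : Cm n) : Cm n := (1 / 4 : ℂ) • ∑ k, e4 k • dzv (g k) z

theorem pt_one {T : W × Cm n → Cm n} {h : W → ℂ} {f : Cm n → ℝ} {x : W} {K : Set (Cm n)}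
    (hK : IsCompact K) (hT : ∀ u ∈ K, AnalyticAt ℂ T (x, u)) (hh : AnalyticAt ℂ h x)
    (hf : ∀ u ∈ K, ContDiffAt ℝ 2 f (T (x, u))) {δ₀ η : ℝ} (h0 : 0 < δ₀) (hη : 0 < η) :
    ∃ ε > (0 : ℝ), ∃ δ > (0 : ℝ), ∀ w : W, ‖w‖ < δ → ∀ u ∈ K, ∀ g : Fin 4 → Cm n → ℝ,
      (∀ k, ∀ y ∈ ball (T (x, u)) δ₀, ContDiffAt ℝ 2 (g k) y ∧ ‖fderiv ℝ (g k) y‖ ≤ ε ∧
        ‖fderiv ℝ (fderiv ℝ (g k)) y‖ ≤ ε) →
      f (T (x, u)) + 2 * (h x).re + qf (cHess f (T (x, u))) (fderiv ℂ T (x, u) (w, 0)) +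
        2 * (fderiv ℂ T (x, u) (w, 0) ⬝ᵥ xi4 g (T (x, u))).re - η * ‖w‖ ^ 2 ≤
      (∑ k, (f (T (x + e4 k • w, u)) + 2 * (h (x + e4 k • w)).re +
        (g k (T (x + e4 k • w, u)) - g k (T (x, u))))) / 4 := by
  have hK' : IsCompact ((fun u => (x, u)) '' K) := hK.image (by fun_prop)
  have a1 : ∀ u, AnalyticAt ℂ (fun p : W × Cm n => 2 * h p.1) (x, u) := fun u =>
    analyticAt_const.mul (AnalyticAt.comp (g := h) hh analyticAt_fst)
  have a2 : ∀ u, ContDiffAt ℝ 2 (fun p : W × Cm n => (2 * h p.1).re) (x, u) := fun u =>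
    Complex.reCLM.contDiff.contDiffAt.comp _ (an_two (a1 u))
  have a3 : ∀ u ∈ K, ContDiffAt ℝ 2 (fun p => f (T p)) (x, u) := fun u hu =>
    (hf u hu).comp _ (an_two (hT u hu))
  have a4 : ∀ p ∈ (fun u => (x, u)) '' K, ContDiffAt ℝ 2 T p := by
    rintro _ ⟨u, hu, rfl⟩
    exact an_two (hT u hu)
  obtain ⟨δ₁, h1, h2⟩ := four_unif (F := fun p => f (T p) + (2 * h p.1).re) hK'
    (by rintro _ ⟨u, hu, rfl⟩; exact (a3 u hu).add (a2 u)) (half_pos hη)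
  obtain ⟨δ₂, h3, h4⟩ := taylor_unif hK' a4 one_pos
  obtain ⟨B, hB, h5⟩ := d_bd hK' a4
  set ε := η / 2 / ((2 * B + 1) ^ 2 + (B + 1)) with hε
  have hε0 : 0 < ε := by positivity
  refine ⟨ε, hε0, min (min δ₁ δ₂) (min 1 (δ₀ / (2 * B + 1))), by positivity,
    fun w hw u hu g hg => ?_⟩
  simp only [lt_min_iff] at hw
  obtain ⟨⟨w1, w2⟩, w3, w4⟩ := hw
  have n1 : ‖((w, 0) : W × Cm n)‖ = ‖w‖ := by simp
  have b1 := h2 _ ⟨u, hu, rfl⟩ (w, 0) (by rwa [n1])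
  rw [Lib.levi_add (a3 u hu) (a2 u), levi_re (a1 u), levi_hol (hf u hu) (hT u hu), add_zero,
    ← qf_cHess (hf u hu), n1] at b1
  set v := fderiv ℂ T (x, u) (w, 0) with hv
  set z := T (x, u) with hz
  have b2 : ∀ k, 2 * ((e4 k • v) ⬝ᵥ dzv (g k) z).re - η / 2 * ‖w‖ ^ 2 ≤
      g k (T (x + e4 k • w, u)) - g k z := fun k => by
    have c1 := h4 _ ⟨u, hu, rfl⟩ (e4 k • (w, 0)) (by rwa [norm_e4_smul, n1])
    have c2 := (fderiv ℝ (fderiv ℝ T) (x, u)).le_opNorm₂ (e4 k • (w, 0)) (e4 k • (w, 0))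
    have c3 := (fderiv ℝ T (x, u)).le_opNorm (e4 k • (w, 0))
    obtain ⟨c4, c5⟩ := h5 _ ⟨u, hu, rfl⟩
    rw [norm_e4_smul, n1] at c1 c2 c3
    rw [fderiv_cx (hT u hu), map_smul, ← hv] at c1 c3
    have e : (x, u) + e4 k • ((w, 0) : W × Cm n) = (x + e4 k • w, u) := by simp
    rw [e, ← hz] at c1
    set y := T (x + e4 k • w, u) - z with hy
    have w0 := norm_nonneg w
    have c6 : ‖y - e4 k • v‖ ≤ (B + 1) * ‖w‖ ^ 2 := by
      have := norm_add_le (y - e4 k • v - (1 / 2 : ℝ) • fderiv ℝ (fderiv ℝ T) (x, u)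
        (e4 k • (w, 0)) (e4 k • (w, 0))) ((1 / 2 : ℝ) • fderiv ℝ (fderiv ℝ T) (x, u)
        (e4 k • (w, 0)) (e4 k • (w, 0)))
      rw [sub_add_cancel, norm_smul, Real.norm_of_nonneg (by norm_num)] at this
      nlinarith [mul_le_mul_of_nonneg_right c5 (sq_nonneg ‖w‖), mul_nonneg hB (sq_nonneg ‖w‖)]
    have c7 : ‖y‖ ≤ (2 * B + 1) * ‖w‖ := by
      have := norm_add_le (y - e4 k • v) (e4 k • v)
      rw [sub_add_cancel] at this
      nlinarith [mul_le_mul_of_nonneg_right c4 w0, mul_nonneg (mul_nonneg hB w0) (sub_pos.2 w3).le,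
        mul_nonneg w0 (sub_pos.2 w3).le]
    have c8 : ‖y‖ < δ₀ := c7.trans_lt ((lt_div_iff₀' (by positivity)).1 w4)
    have c9 := taylor_ball (F := g k) (x := z) (B := 0) (η := ε) (fun _ _ => rfl)
      (fun y hy => ⟨(hg k y hy).1, by rw [sub_zero]; exact (hg k y hy).2.2⟩) c8
    obtain ⟨d1, d2, -⟩ := hg k z (mem_ball_self h0)
    have d3 := (fderiv ℝ (g k) z).le_of_opNorm_le_of_le d2 c6
    rw [map_sub, fderiv_eq_dz (d1.differentiableAt two_ne_zero) (e4 k • v)] at d3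
    rw [hy, add_sub_cancel, ← hy] at c9
    simp only [ContinuousLinearMap.zero_apply, smul_zero, sub_zero] at c9
    have d4 : ε * ‖y‖ ^ 2 ≤ ε * ((2 * B + 1) * ‖w‖) ^ 2 :=
      mul_le_mul_of_nonneg_left (pow_le_pow_left₀ (norm_nonneg _) c7 2) hε0.le
    have d5 : ε * ((2 * B + 1) * ‖w‖) ^ 2 + ε * ((B + 1) * ‖w‖ ^ 2) = η / 2 * ‖w‖ ^ 2 := by
      rw [hε]
      field_simp
    linarith [(abs_le.1 c9).1, (abs_le.1 d3).1]
  have b3 : ∑ k, 2 * ((e4 k • v) ⬝ᵥ dzv (g k) z).re = 4 * (2 * (v ⬝ᵥ xi4 g z).re) := by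
    simp only [xi4, dotProduct_smul, dotProduct_sum, smul_dotProduct, smul_eq_mul,
      ← Finset.mul_sum, ← Complex.re_sum]
    rw [show (1 / 4 : ℂ) = ((1 / 4 : ℝ) : ℂ) by norm_num, Complex.re_ofReal_mul]
    ring
  have b4 := Finset.sum_le_sum fun k (_ : k ∈ Finset.univ) => b2 k
  rw [Finset.sum_sub_distrib, b3] at b4
  simp only [Prod.smul_mk, smul_zero, Prod.mk_add_mk, add_zero, Complex.mul_re, Complex.re_ofNat,
    Complex.im_ofNat, zero_mul, sub_zero] at b1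
  simp only [Finset.sum_const, Finset.card_univ, Fintype.card_fin, nsmul_eq_mul, Nat.cast_ofNat]
    at b4
  rw [Finset.sum_add_distrib]
  linarith

theorem pt_two {T : W × Cm n → Cm n} {h : W → ℂ} {ρ f : Cm n → ℝ} {x : W} {K : Set (Cm n)}
    (hK : IsCompact K) (hT : ∀ u ∈ K, AnalyticAt ℂ T (x, u)) (hh : AnalyticAt ℂ h x)
    (hf : ∀ u ∈ K, ContDiffAt ℝ 2 ρ (T (x, u)) ∧ ContDiffAt ℝ 2 f (T (x, u)) ∧
      (cHess (fun y => ρ y + f y) (T (x, u))).PosDef) (k₀ : Fin n) {δ₀ η : ℝ} (h0 : 0 < δ₀)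
    (hη : 0 < η) :
    ∃ c ∈ Ioo (0 : ℝ) 1, ∃ ε > (0 : ℝ), ∃ δ > (0 : ℝ), ∀ w : W, ‖w‖ < δ → ∀ u ∈ K,
      ∀ g : Fin 4 → Cm n → ℝ,
      (∀ k, ∀ y ∈ ball (T (x, u)) δ₀, ContDiffAt ℝ 2 (g k) y ∧ ‖fderiv ℝ (g k) y‖ ≤ ε ∧
        ‖fderiv ℝ (fderiv ℝ (g k)) y‖ ≤ ε) →
      f (T (x, u)) + 2 * (h x).re - qf (cHess ρ (T (x, u))) (fderiv ℂ T (x, u) (w, 0)) -
        η * ‖w‖ ^ 2 - c * (n / n.factorial) *
          (sl (fun _ => cHess (fun y => ρ y + f y) (T (x, u))) k₀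
            (rk1 (xi4 g (T (x, u))) (star (xi4 g (T (x, u))))) /
            (cHess (fun y => ρ y + f y) (T (x, u))).det.re) ≤
      (∑ k, (f (T (x + e4 k • w, u)) + 2 * (h (x + e4 k • w)).re +
        (g k (T (x + e4 k • w, u)) - g k (T (x, u))))) / 4 := by
  obtain ⟨ε, h1, δ, h2, h3⟩ := pt_one hK hT hh (fun u hu => (hf u hu).2.1) h0 (half_pos hη)
  obtain ⟨B, hB, h4⟩ := d_bd (F := fun p => ρ (T p) + f (T p)) (hK.image
    (f := fun u => (x, u)) (by fun_prop)) (by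
      rintro _ ⟨u, hu, rfl⟩
      exact ((hf u hu).1.add (hf u hu).2.1).comp _ (an_two (hT u hu)))
  set c := (B + 1) / (B + 1 + η) with hc
  have c0 : 0 < c := by positivity
  refine ⟨c, ⟨c0, (div_lt_one (by positivity)).2 (by linarith)⟩, ε, h1, δ, h2,
    fun w hw u hu g hg => le_trans ?_ (h3 w hw u hu g hg)⟩
  obtain ⟨a1, a2, a3⟩ := hf u hu
  have b1 := levi_le (h4 _ ⟨u, hu, rfl⟩).2 (w, 0)
  rw [levi_hol (f := fun y => ρ y + f y) (a1.add a2) (hT u hu)] at b1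
  have b2 := qf_cHess (a1.add a2) (fderiv ℂ T (x, u) (w, 0))
  have b3 := sq_slot a3 k₀ (xi4 g (T (x, u))) (fderiv ℂ T (x, u) (w, 0)) c 1
  have b4 := qf_add (cHess ρ (T (x, u))) (cHess f (T (x, u))) (fderiv ℂ T (x, u) (w, 0))
  rw [← C2.cHess_add a1 a2] at b4
  have b5 : 0 < (cHess (fun y => ρ y + f y) (T (x, u))).det.re := (Complex.lt_def.1 a3.det_pos).1
  have b6 : (0 : ℝ) < n.factorial := by exact_mod_cast n.factorial_pos
  have n1 : ‖((w, 0) : W × Cm n)‖ = ‖w‖ := by simp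
  rw [n1] at b1
  rw [one_mul, norm_one, one_pow, one_mul] at b3
  set G := qf (cHess (fun y => ρ y + f y) (T (x, u))) (fderiv ℂ T (x, u) (w, 0))
  set D := (cHess (fun y => ρ y + f y) (T (x, u))).det.re
  set S := sl (fun _ => cHess (fun y => ρ y + f y) (T (x, u))) k₀
    (rk1 (xi4 g (T (x, u))) (star (xi4 g (T (x, u)))))
  set R := (fderiv ℂ T (x, u) (w, 0) ⬝ᵥ xi4 g (T (x, u))).re
  have d1 : 0 ≤ c * (n / n.factorial) * (S / D) + 2 * R + G / c := by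
    refine (div_nonneg b3 (mul_pos c0 (mul_pos b6 b5)).le).trans_eq ?_
    field_simp
    ring
  have d2 : G / c = G + η * (G / (B + 1)) := by
    rw [hc]
    field_simp
  have d3 : G / (B + 1) ≤ ‖w‖ ^ 2 / 2 := by
    rw [div_le_iff₀ (by positivity)]
    nlinarith [(abs_le.1 b1).2, sq_nonneg ‖w‖]
  nlinarith [mul_le_mul_of_nonneg_left d3 hη.le]

end gen

end Vale.Agent.P284Y.Ps
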