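import Vale.Agent.P284Z.F0.Levi

/-!
# P284Y, block P, PSH: uniform Taylor expansions, the Levi form of a composition
-/

set_option maxSynthPendingDepth 3
set_option linter.all false

open scoped Topology
open Filter Set Metric

noncomputable section

namespace Vale.Agent.P284Y.Ps

open Vale.Agent.P284Z

section real
variable {W V : Type} [NormedAddCommGroup W] [NormedSpace ℝ W] [NormedAddCommGroup V]
  [NormedSpace ℝ V] {F : W → V} {x : W}

theorem dfd (h : ContDiffAt ℝ 2 F x) : DifferentiableAt ℝ (fderiv ℝ F) x :=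
  (h.fderiv_right (m := 1) (by norm_num)).differentiableAt one_ne_zero

theorem taylor_ball {δ η : ℝ} {B : W →L[ℝ] W →L[ℝ] V} (hB : ∀ v w, B v w = B w v)
    (h : ∀ y ∈ ball x δ, ContDiffAt ℝ 2 F y ∧ ‖fderiv ℝ (fderiv ℝ F) y - B‖ ≤ η) {w : W}
    (hw : ‖w‖ < δ) : ‖F (x + w) - F x - fderiv ℝ F x w - (1 / 2 : ℝ) • B w w‖ ≤ η * ‖w‖ ^ 2 := by
  have hx : x ∈ ball x δ := mem_ball_self ((norm_nonneg w).trans_lt hw)
  have hη : 0 ≤ η := (norm_nonneg _).trans (h x hx).2
  have h1 : ∀ y ∈ ball x δ, ‖fderiv ℝ F y - fderiv ℝ F x - B (y - x)‖ ≤ η * ‖y - x‖ := by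
    intro y hy
    have := (convex_ball x δ).norm_image_sub_le_of_norm_hasFDerivWithin_le
      (f := fun y => fderiv ℝ F y - B (y - x)) (f' := fun y => fderiv ℝ (fderiv ℝ F) y - B)
      (fun y hy => ((dfd (h y hy).1).hasFDerivAt.sub
        (B.hasFDerivAt.comp y ((hasFDerivAt_id y).sub_const x))).hasFDerivWithinAt)
      (fun y hy => (h y hy).2) hx hy
    rw [sub_self, map_zero, sub_zero] at this
    rwa [sub_right_comm]
  have hs : closedBall x ‖w‖ ⊆ ball x δ := closedBall_subset_ball hw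
  have := (convex_closedBall x ‖w‖).norm_image_sub_le_of_norm_hasFDerivWithin_le
    (f := fun y => F y - fderiv ℝ F x (y - x) - (1 / 2 : ℝ) • B (y - x) (y - x))
    (f' := fun y => fderiv ℝ F y - fderiv ℝ F x - B (y - x)) (C := η * ‖w‖) (x := x) (y := x + w)
    (fun y hy => by
      have a := (hasFDerivAt_id (𝕜 := ℝ) y).sub_const x
      refine ((((((h y (hs hy)).1.differentiableAt two_ne_zero).hasFDerivAt.sub
        ((fderiv ℝ F x).hasFDerivAt.comp y a)).sub
        (((B.hasFDerivAt.comp y a).clm_apply a).const_smul (1 / 2 : ℝ))).congr_fderiv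
          ?_).hasFDerivWithinAt)
      ext v
      simp only [ContinuousLinearMap.sub_apply, ContinuousLinearMap.comp_apply,
        ContinuousLinearMap.id_apply, ContinuousLinearMap.smul_apply, ContinuousLinearMap.add_apply,
        Function.comp_apply, id, ContinuousLinearMap.flip_apply, hB v, ← two_smul ℝ, smul_smul]
      norm_num)
    (fun y hy => (h1 y (hs hy)).trans (mul_le_mul_of_nonneg_left
      (by simpa [dist_eq_norm] using hy) hη))
    (mem_closedBall_self (norm_nonneg w)) (by simp)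
  simp only [add_sub_cancel_left, sub_self, map_zero, smul_zero, sub_zero] at this
  calc _ = ‖F (x + w) - fderiv ℝ F x w - (1 / 2 : ℝ) • B w w - F x‖ := by congr 1; abel
    _ ≤ η * ‖w‖ * ‖w‖ := this
    _ = _ := by ring

theorem taylor_unif {K : Set W} (hK : IsCompact K) (h : ∀ x ∈ K, ContDiffAt ℝ 2 F x) {η : ℝ}
    (hη : 0 < η) : ∃ δ > 0, ∀ x ∈ K, ∀ w, ‖w‖ < δ → ‖F (x + w) - F x - fderiv ℝ F x w -
      (1 / 2 : ℝ) • fderiv ℝ (fderiv ℝ F) x w w‖ ≤ η * ‖w‖ ^ 2 := by
  have hO : IsOpen {y | ContDiffAt ℝ 2 F y} :=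
    isOpen_iff_mem_nhds.2 fun y hy => ContDiffAt.eventually hy (by simp)
  obtain ⟨δ₁, h1, h2⟩ := hK.exists_thickening_subset_open hO h
  have hc : ∀ x ∈ K, ContinuousAt (fderiv ℝ (fderiv ℝ F)) x := fun x hx =>
    (((h x hx).fderiv_right (m := 1) (by norm_num)).fderiv_right (m := 0) (by norm_num)).continuousAt
  obtain ⟨δ₂, h3, h4⟩ := Metric.mem_uniformity_dist.1
    (hK.uniformContinuousAt_of_continuousAt _ hc (Metric.dist_mem_uniformity hη))
  refine ⟨min δ₁ δ₂, lt_min h1 h3, fun x hx w hw => taylor_ball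
    ((h x hx).isSymmSndFDerivAt (by simp)) (fun y hy => ⟨h2 (mem_thickening_iff.2
      ⟨x, hx, hy.trans_le (min_le_left _ _)⟩), ?_⟩) hw⟩
  have := h4 (a := x) (b := y) (by rw [dist_comm]; exact hy.trans_le (min_le_right _ _)) hx
  rw [← dist_eq_norm, dist_comm]
  exact le_of_lt this

theorem hess_comp {f : V → ℝ} (hf : ContDiffAt ℝ 2 f (F x)) (hF : ContDiffAt ℝ 2 F x) (a : W) :
    fderiv ℝ (fderiv ℝ fun y => f (F y)) x a a =
      fderiv ℝ (fderiv ℝ f) (F x) (fderiv ℝ F x a) (fderiv ℝ F x a) +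
        fderiv ℝ f (F x) (fderiv ℝ (fderiv ℝ F) x a a) := by
  have h1 : (fderiv ℝ fun y => f (F y)) =ᶠ[𝓝 x] fun y => (fderiv ℝ f (F y)).comp (fderiv ℝ F y) := by
    filter_upwards [hF.eventually (by simp), hF.continuousAt.eventually (hf.eventually (by simp))]
      with y h1 h2
    exact fderiv_comp y (h2.differentiableAt two_ne_zero) (h1.differentiableAt two_ne_zero)
  have h2 := ((dfd hf).hasFDerivAt.comp x (hF.differentiableAt two_ne_zero).hasFDerivAt).clm_comp
    (dfd hF).hasFDerivAt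
  rw [h1.fderiv_eq, show (fderiv ℝ (fun y => (fderiv ℝ f (F y)).comp (fderiv ℝ F y)) x) = _ from
    h2.fderiv]
  simp [add_comm]

end real

section cx
variable {W V : Type} [NormedAddCommGroup W] [NormedSpace ℝ W] [NormedSpace ℂ W]
  [IsScalarTower ℝ ℂ W] [NormedAddCommGroup V] [NormedSpace ℝ V] [NormedSpace ℂ V]
  [IsScalarTower ℝ ℂ V] [CompleteSpace V] {T : W → V} {x : W}

theorem an_two (h : AnalyticAt ℂ T x) : ContDiffAt ℝ 2 T x :=
  (h.contDiffAt (n := 2)).restrict_scalars ℝ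

theorem fderiv_cx (h : AnalyticAt ℂ T x) (a : W) : fderiv ℝ T x a = fderiv ℂ T x a := by
  rw [h.differentiableAt.fderiv_restrictScalars ℝ]
  rfl

theorem hess_cx (h : AnalyticAt ℂ T x) (a b : W) :
    fderiv ℝ (fderiv ℝ T) x a b = fderiv ℂ (fderiv ℂ T) x a b := by
  have h1 : fderiv ℝ T =ᶠ[𝓝 x] fun y => (fderiv ℂ T y).restrictScalars ℝ :=
    h.eventually_analyticAt.mono fun y hy => hy.differentiableAt.fderiv_restrictScalars ℝ
  have h2 := (ContinuousLinearMap.restrictScalarsL ℂ W V ℝ ℝ).hasFDerivAt.comp x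
    (h.fderiv.differentiableAt.hasFDerivAt.restrictScalars ℝ)
  rw [h1.fderiv_eq]
  exact congrArg (fun L => L a b) h2.fderiv

theorem levi_hol {f : V → ℝ} (hf : ContDiffAt ℝ 2 f (T x)) (h : AnalyticAt ℂ T x) (a : W) :
    levi (fun y => f (T y)) x a = levi f (T x) (fderiv ℂ T x a) := by
  simp only [levi, hess_comp hf (an_two h), hess_cx h, fderiv_cx h, map_smul,
    ContinuousLinearMap.smul_apply, smul_smul, Complex.I_mul_I, neg_smul, one_smul, map_neg]
  ring

end cx

end Vale.Agent.P284Y.Ps
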