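import Vale.Agent.P284Y.P.Br1
import Vale.Agent.P284.H636.CY.Cl
import Vale.Agent.P284.H731.FBS
import Vale.Agent.P284.H731.Decay

/-!
# P284Y, block P, row E: existence of the solution and the uniform Hölder estimate
-/

open scoped ContDiff Topology ComplexOrder
open Filter Set Metric Real

noncomputable section

namespace Vale.Agent.P284Y.P

open Vale.Agent.P272.K Vale.Agent.P284 Vale.Agent.P284.H894 Vale.Agent.P284.H894.V
  Vale.Agent.P284.H409.K Vale.Agent.P284Z Vale.Agent.P284Z.A Vale.Agent.P284Z.J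
  Vale.Agent.P284Z.L

variable {N : ℕ} {Γ M : Type} [Group Γ] [TopologicalSpace M] [MulAction Γ M] {C : Cov N Γ M}
  {γ : Γ} {a : C.I} {z : Cm N} {ν φ : M → ℝ}

theorem om_w (hz : z ∈ C.B 4 a) (h : C.SmAt φ (C.pt γ a z)) :
    C.om 1 φ γ a z = cHess (C.ρ a) z + cHess (fun w => φ (C.pt γ a w)) z := by
  rw [om_eq 1 hz h, Complex.ofReal_one, one_smul]
  rfl

theorem om_o (γ : Γ) (a : C.I) (z : Cm N) : C.om 1 (fun _ => 0) γ a z = cHess (C.ρ a) z := by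
  simp only [Cov.om, one_mul, add_zero]

theorem Dens.pos (h : Dens C ν) (y : M) : 0 < 1 + ν y := by linarith [h.nonneg y]

theorem Dens.sm_log (h : Dens C ν) (y : M) : C.SmAt (fun y => log (1 + ν y)) y :=
  L.sm_log (sm_add (sm_const 1) (h.sm y)) (h.pos y).ne'

theorem nsm {F : Type} [NormedAddCommGroup F] [NormedSpace ℝ F] (t : ℝ) (x y : F) :
    ‖t • x - t • y‖ = |t| * ‖x - y‖ ∧ ‖t • x‖ = |t| * ‖x‖ := by
  rw [← smul_sub, norm_smul, norm_smul, Real.norm_eq_abs]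
  exact ⟨rfl, rfl⟩

variable [T2Space M] [ConnectedSpace M] [MeasurableSpace M] {μ : MeasureTheory.Measure M}

theorem hold (hN : 0 < N) (hB : Bdd C) (pa : PA C μ) (A : ℝ) : ∃ B : ℝ, ∀ ν φ, Dens C ν →
    (∀ y, C.SmAt φ y) → (∃ c > (0 : ℝ), Psd C (C.om 1 φ - (c : ℂ) • C.om 1 fun _ => 0) univ) →
    (∀ y, ma C φ y = exp (φ y) * (1 + ν y)) → (∀ y, φ y ≤ 0) →
    (∀ ε > (0 : ℝ), ∃ K, IsCompact K ∧ ∀ y ∉ K, -ε ≤ φ y) →
    (∀ γ a, ∀ z ∈ C.cB (15 / 4) a, ∀ k ≤ 3,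
      ‖iteratedFDeriv ℝ k (fun w => log (1 + ν (C.pt γ a w))) z‖ ≤ A) →
    (∀ y, |φ y| ≤ A) ∧ ∀ γ a, ∀ z ∈ C.cB (7 / 2) a, ∀ z' ∈ C.cB (7 / 2) a,
      ‖fderiv ℝ (fderiv ℝ fun w => φ (C.pt γ a w)) z -
        fderiv ℝ (fderiv ℝ fun w => φ (C.pt γ a w)) z'‖ ≤ B * ‖z - z'‖ ^ (1 / 2 : ℝ) := by
  have : NeZero N := ⟨hN.ne'⟩
  obtain ⟨K, hK⟩ := exists_km C hB
  obtain ⟨c, hc0, hc⟩ := H953.CY.exists_cHess_le N
  have hB0 : 0 ≤ |A| + c * |A| := by positivity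
  obtain ⟨L, hL, h2⟩ := c2_unif (coc C) K _ hB0
  have h4 : ∀ a, C.cB (15 / 4) a ⊆ C.B 4 a := C.cB_sub_B (by norm_num)
  choose m hm0 hm using fun a : C.I => H953.CY.loc_est (K.ku a) (C.c a) (R := 7 / 2 * C.r a)
    (R' := 15 / 4 * C.r a) (by linarith [C.r_pos a]) (by linarith [C.r_pos a]) (h4 a)
    (β := 1 / 2) (by norm_num) (by norm_num) (|A| + c * |A|) hL hB0
  refine ⟨∑ a, m a, fun ν φ hν hs ⟨e, he, hp⟩ hq h0 hd hA => ?_⟩
  have hF : ∀ y, |log (1 + ν y)| ≤ A := fun y => by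
    obtain ⟨γ, a, z, hz, rfl⟩ := C.exists_pt y
    simpa only [norm_iteratedFDeriv_zero, Real.norm_eq_abs] using
      hA γ a z (C.B_sub_cB _ a (C.B_mono (by norm_num) a hz)) 0 (by norm_num)
  have hφ : ∀ y, |φ y| ≤ A := fun y => by
    have hA0 : 0 ≤ A := (abs_nonneg _).trans (hF y)
    have := pa.mp univ (fun _ => -A) φ isOpen_univ
      (continuous_const.sub (continuous_iff_continuousAt.2 fun y =>
        JGx.sm_cont (hs y))).continuousOn.upperSemicontinuousOn (by simp)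
      (fun ε hε => (hd ε hε).imp fun K h => ⟨h.1, fun y _ hy => by linarith [h.2 y hy]⟩)
      (fun y _ hy => ⟨hs y, fun _ => -A, pa.op_const _ y, rfl, .of_forall fun _ => le_rfl, by
        rw [pa.ma_zero, hq, ← exp_log (hν.pos y), ← exp_add, exp_lt_one_iff]
        linarith [(abs_le.1 (hF y)).2]⟩) y (mem_univ y)
    exact abs_le.2 ⟨this, (h0 y).trans hA0⟩
  have hle : A ≤ |A| + c * |A| := (le_abs_self A).trans (le_add_of_nonneg_right (by positivity))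
  have hle' : c * A ≤ |A| + c * |A| := (mul_le_mul_of_nonneg_left (le_abs_self A) hc0).trans
    (le_add_of_nonneg_left (abs_nonneg A))
  have lo : ∀ γ a, ∀ z ∈ C.B 4 a, (K.w a z + cHess (fun w => φ (C.pt γ a w)) z -
      (e : ℂ) • K.w a z).PosSemidef := fun γ a z hz => by
    have := hp γ a z hz (mem_univ _)
    rwa [Pi.sub_apply, Pi.sub_apply, Pi.sub_apply, Pi.smul_apply, Pi.smul_apply, Pi.smul_apply,
      om_w hz (hs _), om_o, ← hK] at this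
  have po : ∀ γ a, ∀ z ∈ C.B 4 a, (K.w a z + cHess (fun w => φ (C.pt γ a w)) z).PosDef :=
    fun γ a z hz => by
      have := (((K.ku a).pos z hz).smul (a := (e : ℂ)) (by exact_mod_cast he)).add_posSemidef
        (lo γ a z hz)
      rwa [add_sub_cancel] at this
  have hM : MAF (coc C) K (fun γ a z => 1 * log (1 + ν (C.pt γ a z)))
      fun γ a z => φ (C.pt γ a z) := ⟨smF C hs, po, fun γ a z hz => by
    have h5 := hq (C.pt γ a z)
    have h6 := (JGx.det_re hz).1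
    rw [pa.ma_pt φ γ a z hz (hs _), div_eq_iff h6.ne', om_w hz (hs _)] at h5
    rw [hK, h5, log_mul (mul_pos (exp_pos _) (hν.pos _)).ne' h6.ne',
      log_mul (exp_pos _).ne' (hν.pos _).ne', log_exp]
    ring⟩
  have sF := smF C hν.sm_log
  have b2 : ∀ γ a, ∀ z ∈ C.cB (15 / 4) a, ∀ i j,
      ‖cHess (fun w => log (1 + ν (C.pt γ a w))) z i j‖ ≤ |A| + c * |A| := fun γ a z hz i j =>
    ((hc _ z (sF.smooth γ a z (h4 a hz))).1 i j).trans
      ((mul_le_mul_of_nonneg_left (hA γ a z hz 2 (by norm_num)) hc0).trans hle')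
  have c2 := h2 _ _ sF (fun γ a z _ => (hF _).trans hle)
    (fun γ a z hz => b2 γ a z (C.B_sub_cB _ a (C.B_mono (k := 3) (by norm_num) a hz))) hM
    (fun γ a z _ => (hφ _).trans hle) ⟨e, he, lo⟩
  refine ⟨hφ, fun γ a z hz z' hz' => (hm a 1 ⟨zero_le_one, le_rfl⟩ _ _ (sF.smooth γ a)
    (hM.smooth γ a) (fun z _ => (hφ _).trans hle) (po γ a) (hM.eq γ a)
    (fun z hz => (c2 γ a z hz).2) (fun z hz => (c2 γ a z hz).1) (b2 γ a) (fun z hz i j k =>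
      ((hc _ z (sF.smooth γ a z (h4 a hz))).2 i j k).trans
        ((mul_le_mul_of_nonneg_left (hA γ a z hz 3 le_rfl) hc0).trans hle')) z hz z' hz').trans
    (mul_le_mul_of_nonneg_right (Finset.single_le_sum (f := m) (fun i _ => hm0 i)
      (Finset.mem_univ a)) (by positivity))⟩

omit [ConnectedSpace M] [MeasurableSpace M] [T2Space M] in
/-- Hölder bound and sup bound give a `C²` bound -/
theorem b2_of (A B : ℝ) : ∃ D : ℝ, ∀ φ : M → ℝ, (∀ y, C.SmAt φ y) → (∀ y, |φ y| ≤ A) →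
    (∀ γ a, ∀ z ∈ C.cB (7 / 2) a, ∀ z' ∈ C.cB (7 / 2) a,
      ‖fderiv ℝ (fderiv ℝ fun w => φ (C.pt γ a w)) z -
        fderiv ℝ (fderiv ℝ fun w => φ (C.pt γ a w)) z'‖ ≤ B * ‖z - z'‖ ^ (1 / 2 : ℝ)) →
    B2 C 3 φ D := by
  choose ε hε h using fun a : C.I => H636.CY.iStmt N (C.c a) (3 * C.r a) (7 / 2 * C.r a) (1 / 4)
    (1 / 2) |B| (by linarith [C.r_pos a]) (by linarith [C.r_pos a]) (by norm_num) (by norm_num)
    (by norm_num) 1 one_pos
  have t0 : ∀ a, 0 < 1 + |A| / ε a := fun a => by have := hε a; positivity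
  refine ⟨∑ a, (1 + |A| / ε a), fun φ hs hA hH γ a z hz => ?_⟩
  set t := (1 + |A| / ε a)⁻¹ with ht
  have t1 : 0 < t := inv_pos.2 (t0 a)
  have t2 : t ≤ 1 := inv_le_one_of_one_le₀ (le_add_of_nonneg_right (div_nonneg (abs_nonneg _)
    (hε a).le))
  have h4 : C.cB (7 / 2) a ⊆ C.B 4 a := C.cB_sub_B (by norm_num) a
  have e : ∀ y, fderiv ℝ (fderiv ℝ fun w => t * φ (C.pt γ a w)) y =
      t • fderiv ℝ (fderiv ℝ fun w => φ (C.pt γ a w)) y := fun y =>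
    congrArg (fun q => q.2.2) (H730.CY.jet_smul (f := fun w => φ (C.pt γ a w)) (y := y) t)
  have h1 := (h a (fun w => t * φ (C.pt γ a w))
    (fun z hz => contDiffAt_const.mul ((hs _ γ a z (h4 hz) rfl).of_le two_le))
    (fun z _ => by
      rw [abs_mul, abs_of_pos t1, ht, inv_mul_le_iff₀ (t0 a), add_mul,
        div_mul_cancel₀ _ (hε a).ne']
      linarith [hA (C.pt γ a z), le_abs_self A, hε a])
    (fun z hz z' hz' => by
      rw [e, e]
      refine (nsm t (fderiv ℝ (fderiv ℝ fun w => φ (C.pt γ a w)) z)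
        (fderiv ℝ (fderiv ℝ fun w => φ (C.pt γ a w)) z')).1.trans_le ?_
      rw [abs_of_pos t1]
      exact (mul_le_of_le_one_left (ContinuousLinearMap.opNorm_nonneg _) t2).trans ((hH γ a z hz z' hz').trans
        (mul_le_mul_of_nonneg_right (le_abs_self B) (by positivity))))).1 z hz
  have h0 : ‖LIN.jet (fun w => φ (C.pt γ a w)) z‖ ≤ 1 + |A| / ε a := by
    have e' : LIN.jet (fun w => φ (C.pt γ a w)) z =
        (1 + |A| / ε a) • LIN.jet (fun w => t * φ (C.pt γ a w)) z := by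
      rw [← H730.CY.jet_smul]
      simp only [ht, mul_inv_cancel_left₀ (t0 a).ne']
    rw [e']
    refine (nsm _ (LIN.jet (fun w => t * φ (C.pt γ a w)) z) 0).2.trans_le ?_
    rw [abs_of_pos (t0 a)]
    exact mul_le_of_le_one_right (t0 a).le h1
  have h2 := h0.trans (Finset.single_le_sum (f := fun a => 1 + |A| / ε a) (fun i _ => (t0 i).le)
    (Finset.mem_univ a))
  exact ⟨(norm_fst_le (LIN.jet (fun w => φ (C.pt γ a w)) z)).trans h2,
    ((norm_fst_le _).trans (norm_snd_le (LIN.jet (fun w => φ (C.pt γ a w)) z))).trans h2,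
    ((norm_snd_le _).trans (norm_snd_le (LIN.jet (fun w => φ (C.pt γ a w)) z))).trans h2⟩

theorem exists_sol (hN : 0 < N) (hB : Bdd C) (pa : PA C μ) (hν : Dens C ν) :
    ∃ φ, Sol C ν φ := by
  obtain ⟨K, hK⟩ := exists_km C hB
  obtain ⟨Q, hQ, hQ0⟩ := hν.cpt
  obtain ⟨A₀, -, hA₀⟩ := (pa.dens_bd ν hν).2
  set F : Γ → C.I → Cm N → ℝ := fun γ a => (C.B 4 a).indicator fun z => log (1 + ν (C.pt γ a z))
  have e0 : ∀ γ a, ∀ z ∈ C.B 4 a, F γ a z = log (1 + ν (C.pt γ a z)) := fun γ a z hz =>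
    indicator_of_mem hz _
  have e1 : ∀ γ a, ∀ z ∈ C.B 4 a, F γ a =ᶠ[𝓝 z] fun z => log (1 + ν (C.pt γ a z)) :=
    fun γ a z hz => eventually_of_mem ((C.isOpen_B 4 a).mem_nhds hz) (e0 γ a)
  have sF := smF C hν.sm_log
  have c3 : ∀ γ, IsCompact (⋃ a, C.pt γ a '' C.cB 3 a) := fun γ => isCompact_iUnion fun a =>
    C.isCompact_image_pt γ (C.isCompact_cB 3 a) (C.cB_sub_B (by norm_num) a)
  have hT : IsTst (coc C) F := ⟨fun γ a z hz => (sF.smooth γ a z hz).congr_of_eventuallyEq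
      (e1 γ a z hz), fun γ a b z hz => by
      rw [e0 γ a z (O_B hz), e0 _ b _ (O_B (T_mem hz))]
      exact sF.compat γ a b z hz,
    (C.proper _ (hQ.union (c3 1))).subset fun γ ⟨a, z, hz, h⟩ => ⟨C.pt 1 a z,
      Or.inr (mem_iUnion.2 ⟨a, z, ball_subset_closedBall hz, rfl⟩), Or.inl (by_contra fun h' => h (by
        rw [← C.pt_eq] at h'
        rw [e0 γ a z (C.B_mono (k := 3) (by norm_num) a hz), hQ0 _ h', add_zero, log_one]))⟩,
    fun γ a z hz => indicator_of_notMem hz _⟩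
  have hF := H731.CY.fbStmt N Γ (coc C) F hT
  obtain ⟨f, h1, h2⟩ := H636.CY.cyEx N Γ (coc C) K F hF
  obtain ⟨φ, hφ⟩ := exists_fun C h1.toSmF
  have e2 : ∀ γ a, ∀ z ∈ C.B 4 a, (fun w => φ (C.pt γ a w)) =ᶠ[𝓝 z] f γ a :=
    fun γ a z hz => eventually_of_mem ((C.isOpen_B 4 a).mem_nhds hz) (hφ γ a)
  have hs : ∀ y, C.SmAt φ y := fun y γ a z hz _ =>
    (h1.smooth γ a z hz).congr_of_eventuallyEq (e2 γ a z hz)
  have e3 : ∀ γ a, ∀ z ∈ C.B 4 a, C.om 1 φ γ a z = K.w a z + cHess (f γ a) z := fun γ a z hz => by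
    rw [om_w hz (hs _), C2.cHess_congr (e2 γ a z hz), hK]
  have hFA : ∀ γ a, ∀ z ∈ (coc C).Ω a, 0 ≤ F γ a z ∧ F γ a z ≤ log (1 + A₀) := fun γ a z hz => by
    rw [e0 γ a z hz]
    exact ⟨log_nonneg (by linarith [hν.nonneg (C.pt γ a z)]),
      log_le_log (hν.pos _) (by linarith [hA₀ (C.pt γ a z)])⟩
  have p1 : ∃ c > (0 : ℝ), Psd C (C.om 1 φ - (c : ℂ) • C.om 1 fun _ => 0) univ := by
    obtain ⟨c, hc, h⟩ := h2.low
    refine ⟨c, hc, fun γ a z hz _ => ?_⟩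
    rw [Pi.sub_apply, Pi.sub_apply, Pi.sub_apply, Pi.smul_apply, Pi.smul_apply, Pi.smul_apply,
      e3 γ a z hz, om_o, ← hK]
    exact h γ a z hz
  have p2 : ∀ y, ma C φ y = exp (φ y) * (1 + ν y) := fun y => by
    obtain ⟨γ, a, z, hz, rfl⟩ := C.exists_pt y
    have hz := C.B14 hz
    have h5 := h1.eq γ a z hz
    have h6 := (JGx.det_re hz).1
    have h7 := C2.det_re_pos (h1.pos γ a z hz)
    rw [e0 γ a z hz, ← hφ γ a z hz, hK] at h5
    rw [hK] at h7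
    rw [pa.ma_pt φ γ a z hz (hs _), e3 γ a z hz, hK, ← exp_log (hν.pos _), ← exp_add, ← h5, exp_sub,
      exp_log h7, exp_log h6]
  have p3 : ∀ y, φ y ≤ 0 := fun y => by
    obtain ⟨γ, a, z, hz, rfl⟩ := C.exists_pt y
    rw [hφ γ a z (C.B14 hz)]
    exact (H731.CY.m0Concl.sign N Γ (coc C) K F f h1 h2 _ hFA γ a z (C.B14 hz)).2
  have p4 : ∀ ε > (0 : ℝ), ∃ K, IsCompact K ∧ ∀ y ∉ K, -ε ≤ φ y := fun ε hε => by
    refine ⟨_, (H731.CY.decay0 (toPU (coc C)) hT.fin hFA h1 h2 hε).isCompact_biUnion fun γ _ => c3 γ,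
      fun y hy => not_lt.1 fun h => hy ?_⟩
    obtain ⟨γ, a, z, hz, rfl⟩ := C.exists_pt y
    have hz3 := C.B_mono (k' := 3) (by norm_num) a hz
    rw [hφ γ a z (C.B14 hz)] at h
    exact mem_biUnion ⟨a, z, hz3, h⟩ (mem_iUnion.2 ⟨a, z, C.B_sub_cB 3 a hz3, rfl⟩)
  choose b hb using fun (a : C.I) (k : Fin 4) =>
    hF.bd a (15 / 4 * C.r a) (by show _ < 4 * C.r a; linarith [C.r_pos a]) k
  obtain ⟨A, hA⟩ := (finite_range fun q : C.I × Fin 4 => b q.1 q.2).bddAbove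
  obtain ⟨B, h3⟩ := hold hN hB pa A
  obtain ⟨h4, h5⟩ := h3 ν φ hν hs p1 p2 p3 p4 fun γ a z hz k hk => by
    rw [← ((e1 γ a z (C.cB_sub_B (by norm_num) a hz)).iteratedFDeriv ℝ k).self_of_nhds]
    exact (hb a ⟨k, by omega⟩ γ z hz).trans (hA ⟨(a, ⟨k, by omega⟩), rfl⟩)
  obtain ⟨D, hD⟩ := b2_of (C := C) A B
  exact ⟨φ, hs, p1, p2, p3, p4, D, hD φ hs h4 h5⟩

/-- row **E** -/
theorem stE : StE := fun _ _ _ _ _ _ _ _ _ _ _ _ _ hN hB _ pa =>
  ⟨fun _ hν => exists_sol hN hB pa hν, fun A => (hold hN hB pa A).imp fun _ h ν φ hν s hA =>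
    (h ν φ hν s.sm s.pos s.eq s.nonpos s.decay hA).2⟩

end Vale.Agent.P284Y.P
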