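import Vale.Agent.P284Y.P.Sk
import Vale.Agent.P284Z.L.S5a

/-!
# P284Y, block P, row C: cut-off functions and the slow exhaustion
-/

open scoped ContDiff Topology ComplexOrder ENNReal Matrix Pointwise
open Filter Set Function Metric MeasureTheory Real

noncomputable section

namespace Vale.Agent.P284Y.P

open Vale.Agent.P272.K Vale.Agent.P284.H650 Vale.Agent.P284Z J L

namespace Cut

open Vale.Agent.P272.K.N (lev Bil lev_apply cHess_eq_lev fderiv_ofReal_comp)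

variable {N : ℕ} {Γ M : Type} [Group Γ] [TopologicalSpace M] [MulAction Γ M] (C : Cov N Γ M)

theorem bump [T2Space M] {D : Set M} (hD : IsOpen D) {y : M} (hy : y ∈ D) : ∃ β : M → ℝ,
    (∀ x, C.SmAt β x) ∧ (∀ x, 0 ≤ β x) ∧ β y = 1 ∧
    ∃ K, IsCompact K ∧ K ⊆ D ∧ ∀ x ∉ K, β x = 0 := by
  classical
  obtain ⟨γ, a, z, hz, rfl⟩ := C.exists_pt y
  obtain ⟨f, h1, h2, h3, h4, h5⟩ := exists_contDiff_tsupport_subset (n := ⊤)
    ((C.isOpen_preimage_pt γ a hD).mem_nhds ⟨C.B14 hz, hy⟩)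
  have hK : IsCompact (C.pt γ a '' tsupport f) := C.isCompact_image_pt γ h2 fun w hw => (h1 hw).1
  have h0 : ∀ x ∉ C.pt γ a '' tsupport f,
      (if x ∈ (C.ch γ a).source then f (C.co γ a x) else 0) = 0 := fun x hx => by
    split_ifs with h
    · exact image_eq_zero_of_notMem_tsupport fun h' => hx ⟨_, h', C.pt_co h⟩
    · rfl
  refine ⟨fun x => if x ∈ (C.ch γ a).source then f (C.co γ a x) else 0, fun x => ?_, fun x => ?_,
    ?_, _, hK, ?_, h0⟩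
  · by_cases h : x ∈ (C.ch γ a).source
    · rw [← C.pt_co h]
      refine smAt_of_chart (C.co_mem h) (h3.contDiffAt.congr_of_eventuallyEq ?_)
      filter_upwards [(C.isOpen_B 4 a).mem_nhds (C.co_mem h)] with w hw
      rw [if_pos (C.pt_mem hw γ), C.co_pt hw]
    · refine JGx.sm_congr (sm_const 0) ?_
      filter_upwards [hK.isClosed.isOpen_compl.mem_nhds
        (show x ∉ C.pt γ a '' tsupport f from fun ⟨w, hw, e⟩ => h (e ▸ C.pt_mem (h1 hw).1 γ))]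
        with x' hx' using h0 x' hx'
  · beta_reduce
    split_ifs
    · exact (h4 ⟨_, rfl⟩).1
    · exact le_rfl
  · beta_reduce
    rw [if_pos (C.pt_mem (C.B14 hz) γ), C.co_pt (C.B14 hz), h5]
  · rintro _ ⟨w, hw, rfl⟩
    exact (h1 hw).2

theorem cut [T2Space M] (K D : Set M) (hK : IsCompact K) (hD : IsOpen D) (h : K ⊆ D) :
    ∃ χ : M → ℝ, (∀ y, C.SmAt χ y) ∧ (∀ y, χ y ∈ Icc (0 : ℝ) 1) ∧ (∀ᶠ y in 𝓝ˢ K, χ y = 1) ∧
      ∃ K', IsCompact K' ∧ K' ⊆ D ∧ ∀ y ∉ K', χ y = 0 := by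
  choose β h1 h2 h3 L h4 h5 h6 using fun y : K => bump C hD (h y.2)
  have ho : ∀ y : K, IsOpen {x | 1 / 2 < β y x} := fun y =>
    isOpen_lt continuous_const (S5a.cont_of_sm C (h1 y))
  obtain ⟨t, ht⟩ := hK.elim_finite_subcover _ ho fun y hy =>
    mem_iUnion.2 ⟨⟨y, hy⟩, show 1 / 2 < β ⟨y, hy⟩ y by rw [h3 ⟨y, hy⟩]; norm_num⟩
  refine ⟨fun x => smoothTransition (∑ y ∈ t, 2 * β y x), fun x => sm_comp
    smoothTransition.contDiffAt fun γ a z hz e => ContDiffAt.sum fun y _ =>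
      contDiffAt_const.mul (h1 y x γ a z hz e),
    fun x => ⟨smoothTransition.nonneg _, smoothTransition.le_one _⟩, ?_, ⋃ y ∈ t, L y,
    t.isCompact_biUnion fun y _ => h4 y, iUnion₂_subset fun y _ => h5 y, fun x hx => ?_⟩
  · filter_upwards [(isOpen_biUnion fun y _ => ho y).mem_nhdsSet.2 ht] with x hx
    obtain ⟨y, hy, hx'⟩ := mem_iUnion₂.1 hx
    have h7 : 1 / 2 < β y x := hx'
    refine smoothTransition.one_of_one_le (le_trans (by linarith) (Finset.single_le_sum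
      (f := fun y => 2 * β y x) (fun y _ => by linarith [h2 y x]) hy))
  · refine smoothTransition.zero_of_nonpos (Finset.sum_eq_zero fun y hy => ?_).le
    rw [h6 y x fun h' => hx (mem_biUnion hy h'), mul_zero]

include C in
/-- the word length -/
theorem exists_len [T2Space M] [ConnectedSpace M] : ∃ (len : Γ → ℕ) (s : ℕ),
    (∀ g h, len (g * h) ≤ len g + len h) ∧
    ∀ k, ∃ S : Finset Γ, S.card ≤ s ^ k ∧ ∀ g, len g ≤ k → g ∈ S := by
  classical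
  obtain ⟨T, hT⟩ := A.exists_N C
  obtain ⟨-, a₀, -⟩ := C.exists_pt (Classical.arbitrary M)
  have hne : ∀ g, {n | g ∈ insert 1 T ^ n}.Nonempty := fun g =>
    A.conn' (C := C) (fun γ _ => {n | γ ∈ insert 1 T ^ n}.Nonempty)
      (fun γ a b z h1 h2 h3 ⟨n, hn⟩ => ⟨n + 1, show _ ∈ insert 1 T ^ (n + 1) by
        rw [pow_succ]
        exact Finset.mul_mem_mul hn (Finset.mem_insert_of_mem (hT a b z (A.mem_cO h1 h2 h3)))⟩)
      1 a₀ g a₀ ⟨0, show _ ∈ insert 1 T ^ 0 by rw [pow_zero]; exact Finset.one_mem_one⟩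
  refine ⟨fun g => sInf {n | g ∈ insert 1 T ^ n}, (insert 1 T).card, fun g h => Nat.sInf_le ?_,
    fun k => ⟨insert 1 T ^ k, Finset.card_pow_le, fun g hg =>
      Finset.pow_subset_pow_right (Finset.mem_insert_self 1 T) hg (Nat.sInf_mem (hne g))⟩⟩
  show _ ∈ insert 1 T ^ (_ + _)
  rw [pow_add]
  exact Finset.mul_mem_mul (Nat.sInf_mem (hne g)) (Nat.sInf_mem (hne h))

variable {C} {φ : M → ℝ}

open S5a in
theorem exists_T (h : PU C φ) : ∃ T : Finset Γ, ∀ (u : Γ → ℝ) γ b, ∀ w ∈ C.B 3 b,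
    av φ u (C.pt γ b w) = u γ + ∑ t ∈ T, (u (γ * t) - u γ) • φ (C.pt t⁻¹ b w) := by
  classical
  have hK : IsCompact (⋃ a, C.pt 1 a '' C.cB 3 a) := isCompact_iUnion fun a =>
    C.isCompact_image_pt 1 (C.isCompact_cB 3 a) (C.cB_sub_B (by norm_num) a)
  refine ⟨(C.proper _ hK).toFinset, fun u γ b w hw => ?_⟩
  set T := (C.proper _ hK).toFinset
  have hT : ∀ t ∉ T, φ (t⁻¹ • C.pt 1 b w) = 0 := fun t ht => by_contra fun h0 => ht
    ((Finite.mem_toFinset _).2 ⟨_, iUnion_mono (fun a => image_mono ((C.cB_sub_B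
      (by norm_num) a).trans (C.B_sub_cB 3 a))) (h.supp _ h0),
      by rw [smul_inv_smul]; exact mem_iUnion.2 ⟨b, w, C.B_sub_cB 3 b hw, rfl⟩⟩)
  have h1 : av φ u (C.pt γ b w) = av φ (fun t => u (γ * t)) (C.pt 1 b w) := by
    rw [av, ← finsum_comp_equiv (Equiv.mulLeft γ)]
    refine finsum_congr fun t => ?_
    simp only [Equiv.coe_mulLeft, C.smul_pt, mul_inv_rev, inv_mul_cancel_right, mul_one]
  have h2 := h.sum hT
  rw [h1, av_eq _ hT]
  simp only [C.smul_pt, mul_one] at h2 ⊢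
  simp only [smul_eq_mul, sub_mul, Finset.sum_sub_distrib, ← Finset.mul_sum, h2, mul_comm (φ _)]
  ring

theorem d_sum {E F ι : Type} [NormedAddCommGroup E] [NormedSpace ℝ E] [NormedAddCommGroup F]
    [NormedSpace ℝ F] {U : Set E} (hU : IsOpen U) {T : Finset ι} {g : ι → E → F} {f : E → F}
    {c : ι → ℝ} {c₀ : F} (hg : ∀ t, ∀ w ∈ U, DifferentiableAt ℝ (g t) w)
    (hf : ∀ w ∈ U, f w = c₀ + ∑ t ∈ T, c t • g t w) :
    ∀ w ∈ U, fderiv ℝ f w = 0 + ∑ t ∈ T, c t • fderiv ℝ (g t) w := fun w hw => by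
  rw [zero_add]
  exact (((HasFDerivAt.fun_sum fun t _ => (hg t w hw).hasFDerivAt.const_smul (c t)).const_add
    c₀).congr_of_eventuallyEq (mem_of_superset (hU.mem_nhds hw) hf)).fderiv

theorem norm_sum {F ι : Type} [NormedAddCommGroup F] [NormedSpace ℝ F] {T : Finset ι}
    {v : ι → F} {c L : ι → ℝ} {B : ℝ} (hc : ∀ t, |c t| ≤ L t) (hv : ∀ t ∈ T, ‖v t‖ ≤ B) :
    ‖∑ t ∈ T, c t • v t‖ ≤ ∑ t ∈ T, L t * B :=
  (norm_sum_le _ _).trans (Finset.sum_le_sum fun t ht => by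
    rw [norm_smul, norm_eq_abs]
    exact mul_le_mul (hc t) (hv t ht) (norm_nonneg _) ((abs_nonneg _).trans (hc t)))

theorem d_bd {E F ι : Type} [NormedAddCommGroup E] [NormedSpace ℝ E] [NormedAddCommGroup F]
    [NormedSpace ℝ F] {U : Set E} (hU : IsOpen U) {T : Finset ι} {g : ι → E → F} {f : E → F}
    {c L : ι → ℝ} {c₀ : F} {B : ℝ} (hg : ∀ t, ∀ w ∈ U, DifferentiableAt ℝ (g t) w)
    (hf : ∀ w ∈ U, f w = c₀ + ∑ t ∈ T, c t • g t w) (hc : ∀ t, |c t| ≤ L t) {z : E} (hz : z ∈ U)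
    (hB : ∀ t ∈ T, ‖fderiv ℝ (g t) z‖ ≤ B) : ‖fderiv ℝ f z‖ ≤ ∑ t ∈ T, L t * B := by
  rw [d_sum hU hg hf z hz, zero_add]
  exact norm_sum hc hB

theorem ev_bd {f : Cm N → ℝ} {K : Set (Cm N)} (hK : IsCompact K)
    (h : ∀ z ∈ K, ContDiffAt ℝ ∞ f z) : ∀ᶠ B : ℝ in atTop, ∀ z ∈ K, ‖f z‖ ≤ B ∧
      ‖fderiv ℝ f z‖ ≤ B ∧ ‖fderiv ℝ (fderiv ℝ f) z‖ ≤ B := by
  have h' : ∀ z ∈ K, ContDiffAt ℝ ∞ (fderiv ℝ f) z := fun z hz => (h z hz).fderiv_right le_rfl
  obtain ⟨B₀, h0⟩ := hK.exists_bound_of_continuousOn fun z hz =>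
    (h z hz).continuousAt.continuousWithinAt
  obtain ⟨B₁, h1⟩ := hK.exists_bound_of_continuousOn fun z hz =>
    (h' z hz).continuousAt.continuousWithinAt
  obtain ⟨B₂, h2⟩ := hK.exists_bound_of_continuousOn fun z hz =>
    ((h' z hz).continuousAt_fderiv (by simp)).continuousWithinAt
  filter_upwards [eventually_ge_atTop B₀, eventually_ge_atTop B₁, eventually_ge_atTop B₂]
    with B k0 k1 k2 z hz using ⟨(h0 z hz).trans k0, (h1 z hz).trans k1, (h2 z hz).trans k2⟩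

theorem sum_bd {E ι : Type} [NormedAddCommGroup E] [NormedSpace ℝ E] {U : Set E} (hU : IsOpen U)
    {T : Finset ι} {g : ι → E → ℝ} {f : E → ℝ} {c L : ι → ℝ} {c₀ B : ℝ}
    (hg : ∀ t, ∀ w ∈ U, ContDiffAt ℝ ∞ (g t) w)
    (hf : ∀ w ∈ U, f w = c₀ + ∑ t ∈ T, c t • g t w) (hc : ∀ t, |c t| ≤ L t) {z : E}
    (hz : z ∈ U) (hB : ∀ t ∈ T, ‖g t z‖ ≤ B ∧ ‖fderiv ℝ (g t) z‖ ≤ B ∧
      ‖fderiv ℝ (fderiv ℝ (g t)) z‖ ≤ B) : |f z - c₀| ≤ ∑ t ∈ T, L t * B ∧
      ‖fderiv ℝ f z‖ ≤ ∑ t ∈ T, L t * B ∧ ‖fderiv ℝ (fderiv ℝ f) z‖ ≤ ∑ t ∈ T, L t * B := by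
  have d1 : ∀ t, ∀ w ∈ U, DifferentiableAt ℝ (g t) w := fun t w hw =>
    (hg t w hw).differentiableAt (by simp)
  have d2 : ∀ t, ∀ w ∈ U, DifferentiableAt ℝ (fderiv ℝ (g t)) w := fun t w hw =>
    ((hg t w hw).fderiv_right (m := ∞) le_rfl).differentiableAt (by simp)
  refine ⟨?_, d_bd hU d1 hf hc hz fun t ht => (hB t ht).2.1,
    d_bd hU d2 (d_sum hU d1 hf) hc hz fun t ht => (hB t ht).2.2⟩
  rw [hf z hz, add_sub_cancel_left]
  exact norm_sum hc fun t ht => (hB t ht).1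

open S5a in
theorem av_bd (h : PU C φ) {u L : Γ → ℝ} (hu : ∀ γ t, |u (γ * t) - u γ| ≤ L t) :
    ∃ B ≥ (0 : ℝ), ∀ γ b, ∀ z ∈ C.B 3 b, |av φ u (C.pt γ b z) - u γ| ≤ B ∧
      ‖fderiv ℝ (fun w => av φ u (C.pt γ b w)) z‖ ≤ B ∧
      ‖fderiv ℝ (fderiv ℝ fun w => av φ u (C.pt γ b w)) z‖ ≤ B := by
  obtain ⟨T, hT⟩ := exists_T h
  have hs : ∀ t b, ∀ z ∈ C.cB 3 b, ContDiffAt ℝ ∞ (fun w => φ (C.pt t b w)) z :=
    fun t b z hz => h.sm _ t b z (C.cB_sub_B (by norm_num) b hz) rfl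
  obtain ⟨B, hB⟩ := ((eventually_all_finset T).2 fun t _ => eventually_all.2 fun b =>
    ev_bd (C.isCompact_cB 3 b) (hs t⁻¹ b)).exists
  refine ⟨|∑ t ∈ T, L t * B|, abs_nonneg _, fun γ b z hz => ?_⟩
  obtain ⟨k0, k1, k2⟩ := sum_bd (C.isOpen_B 3 b) (g := fun t w => φ (C.pt t⁻¹ b w))
    (f := fun w => av φ u (C.pt γ b w)) (fun t w hw => hs t⁻¹ b w (C.B_sub_cB 3 b hw)) (hT u γ b)
    (hu γ) hz fun t ht => hB t ht b z (C.B_sub_cB 3 b hz)
  exact ⟨k0.trans (le_abs_self _), k1.trans (le_abs_self _), k2.trans (le_abs_self _)⟩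

theorem norm_lev (B : Bil N) (j k : Fin N) : ‖lev B j k‖ ≤ ‖B‖ := by
  have hb : ∀ c d : ℂ, ‖c‖ = 1 → ‖d‖ = 1 → |B (Pi.single j c) (Pi.single k d)| ≤ ‖B‖ :=
    fun c d hc hd => by
      simpa [Pi.norm_single, hc, hd] using B.le_opNorm₂ (Pi.single j c) (Pi.single k d)
  rw [lev_apply, norm_div, Complex.norm_ofNat, div_le_iff₀ (by norm_num)]
  refine (norm_add_le _ _).trans ?_
  rw [norm_mul, Complex.norm_I, one_mul, Complex.norm_real, Complex.norm_real, norm_eq_abs,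
    norm_eq_abs]
  refine (add_le_add (abs_add_le _ _) (abs_sub _ _)).trans ?_
  linarith [hb 1 1 norm_one norm_one, hb _ _ Complex.norm_I Complex.norm_I,
    hb _ _ norm_one Complex.norm_I, hb _ _ Complex.norm_I norm_one]

/-- hermitian matrices with bounded entries are dominated by the Kähler form -/
theorem dom (hB : Bdd C) (B : ℝ) : ∃ c ≥ (0 : ℝ), ∀ a, ∀ z ∈ C.B 1 a, ∀ X : Mx N, X.IsHermitian →
    (∀ i j, ‖X i j‖ ≤ B) → ((c : ℂ) • cHess (C.ρ a) z - X).PosSemidef := by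
  obtain ⟨lam, h0, Lam, h⟩ := hB
  have hK : IsCompact {X : Mx N | X ∈ (univ.pi fun _ => univ.pi fun _ => closedBall (0 : ℂ) B :
      Set (Fin N → Fin N → ℂ)) ∧ Xᴴ = X} :=
    (isCompact_univ_pi fun _ => isCompact_univ_pi fun _ => isCompact_closedBall _ _).inter_right
      (isClosed_eq (continuous_id.matrix_conjTranspose) continuous_id)
  obtain ⟨c, h1, h2⟩ := K.exists_dom (B := fun _ => 1) hK continuousOn_id continuousOn_const
    (fun _ h => h.2) fun _ _ => Matrix.PosDef.one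
  have h3 : 0 ≤ c / lam := div_nonneg (by linarith) h0.le
  refine ⟨c / lam, h3, fun a z hz X k1 k2 => ?_⟩
  have h4 := (psd_smul (h a z (C.B14 hz)).1 h3).add
    (h2 X ⟨fun i _ j _ => mem_closedBall_zero_iff.2 (k2 i j), k1⟩)
  rwa [smul_sub, smul_smul, ← Complex.ofReal_mul, div_mul_cancel₀ _ h0.ne', id,
    sub_add_sub_cancel] at h4

open S5a in
theorem slow [Countable Γ] [T2Space M] [ConnectedSpace M] [MeasurableSpace M] [BorelSpace M]
    (hB : Bdd C) : ∃ l, Slow C l := by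
  obtain ⟨len, s, h1, h2⟩ := exists_len C
  obtain ⟨φ, h⟩ := exists_pu C (jg C)
  have hs := h.av_sm fun g => (len g : ℝ)
  obtain ⟨B, B0, hb⟩ := av_bd h (u := fun g => (len g : ℝ)) (L := fun t => len t + len t⁻¹)
    fun γ t => by
      have e1 : (len (γ * t) : ℝ) ≤ len γ + len t := by exact_mod_cast h1 γ t
      have e2 : (len γ : ℝ) ≤ len (γ * t) + len t⁻¹ := by
        have := h1 (γ * t) t⁻¹
        rw [mul_inv_cancel_right] at this
        exact_mod_cast this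
      have e3 : (0 : ℝ) ≤ len t := Nat.cast_nonneg _
      have e4 : (0 : ℝ) ≤ len t⁻¹ := Nat.cast_nonneg _
      exact abs_le.2 ⟨by linarith, by linarith⟩
  set l := av φ fun g => (len g : ℝ)
  refine ⟨l, hs, fun y => h.le_av fun g _ => Nat.cast_nonneg _, h.av_cpt fun c => ?_,
    ⟨B, fun γ a z hz => (hb γ a z hz).2⟩, ?_, s * (B + 1), by positivity, fun R hR => ?_⟩
  · obtain ⟨S, -, hS⟩ := h2 ⌊c⌋₊
    exact S.finite_toSet.subset fun g hg => hS g (Nat.le_floor hg)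
  · obtain ⟨c, c0, hc⟩ := dom hB (B * B + B)
    have h3 : ∀ {a z}, z ∈ C.B 1 a → z ∈ C.B 3 a := fun hz => C.B_mono (by norm_num) _ hz
    have f1 : ∀ y, C.FmAt ((c : ℂ) • C.om 1 fun _ => 0) y := fun y =>
      fm_smul _ (JGx.fm_om jb 1 (sm_const 0))
    have f2 : ∀ y, C.FmAt (C.om 0 l) y := fun y => JGx.fm_om jb 0 (hs y)
    have k1 : ∀ γ a, ∀ z ∈ C.B 1 a, (cHess (fun w => l (C.pt γ a w)) z).IsHermitian ∧
        ∀ i j, ‖cHess (fun w => l (C.pt γ a w)) z i j‖ ≤ B * B + B := fun γ a z hz => by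
      have k := hs _ γ a z (C.B14 hz) rfl
      refine ⟨C2.cHess_isHermitian (k.of_le two_le), fun i j => ?_⟩
      rw [cHess_eq_lev ((k.fderiv_right (m := ∞) le_rfl).differentiableAt (by simp))]
      nlinarith [norm_lev (fderiv ℝ (fderiv ℝ fun w => l (C.pt γ a w)) z) i j,
        (hb γ a z (h3 hz)).2.2]
    refine ⟨c, c0, L.psd_of_B1 (fun y _ => fm_sub (f1 y) ((jg C).fm_gg _ _ y (hs y) (hs y)))
      fun γ a z hz _ => ?_, L.psd_of_B1 (fun y _ => fm_sub (f1 y) (f2 y)) fun γ a z hz _ => ?_,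
      L.psd_of_B1 (fun y _ => fm_add (f1 y) (f2 y)) fun γ a z hz _ => ?_⟩
    · have k2 : ∀ i, ‖dzv (fun w => l (C.pt γ a w)) z i‖ ≤ B := fun i => by
        refine (norm_le_pi_norm _ i).trans ((norm_dzv _ z).trans ?_)
        rw [fderiv_ofReal_comp]
        refine (ContinuousLinearMap.opNorm_comp_le _ _).trans ?_
        rw [Complex.ofRealCLM_norm, one_mul]
        exact (hb γ a z (h3 hz)).2.1
      have := hc a z hz _ (gg_psd (fun w => l (C.pt γ a w)) z).isHermitian fun i j => by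
        rw [gg_vec, Matrix.vecMulVec_apply, norm_mul, Pi.star_apply, norm_star]
        exact (mul_le_mul (k2 i) (k2 j) (norm_nonneg _) B0).trans (le_add_of_nonneg_right B0)
      simpa only [Pi.sub_apply, Pi.smul_apply, Cov.om, Cov.gg, one_mul, add_zero] using this
    · have := hc a z hz _ (k1 γ a z hz).1 (k1 γ a z hz).2
      simpa only [Pi.sub_apply, Pi.smul_apply, Cov.om, one_mul, add_zero, zero_mul, zero_add]
        using this
    · have := hc a z hz _ (k1 γ a z hz).1.neg fun i j => by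
        rw [Matrix.neg_apply, norm_neg]
        exact (k1 γ a z hz).2 i j
      simpa only [Pi.add_apply, Pi.smul_apply, Cov.om, one_mul, add_zero, zero_mul, zero_add,
        sub_neg_eq_add] using this
  · obtain ⟨S, k1, k2⟩ := h2 ⌊R + B⌋₊
    refine ⟨S, ?_, fun γ a z hz hl => k2 γ (Nat.le_floor ?_)⟩
    · have k3 : (⌊R + B⌋₊ : ℝ) ≤ (B + 1) * (R + 1) :=
        (Nat.floor_le (by linarith)).trans (by nlinarith)
      calc (S.card : ℝ) ≤ (s : ℝ) ^ ⌊R + B⌋₊ := by exact_mod_cast k1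
        _ ≤ exp s ^ ⌊R + B⌋₊ := pow_le_pow_left₀ (Nat.cast_nonneg _)
          (by linarith [add_one_le_exp (s : ℝ)]) _
        _ ≤ _ := by
          rw [← exp_nat_mul, mul_comm, mul_assoc]
          exact exp_le_exp.2 (mul_le_mul_of_nonneg_left k3 (Nat.cast_nonneg _))
    · linarith [(abs_le.1 (hb γ a z hz).1).1]

end Cut

theorem stC : StC := by
  intro N G M _ _ _ _ _ _ _ _ C mu h0 hB hmu
  exact ⟨Cut.cut C, Cut.slow hB⟩

end Vale.Agent.P284Y.P
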