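import Vale.Agent.P284Y.P.Sk
import Mathlib.MeasureTheory.Integral.CurveIntegral.Poincare

/-!
# P284Y, block P, row En: the energy
-/

open scoped ContDiff Topology ComplexOrder ENNReal Matrix
open Filter Set Function Metric MeasureTheory Real

set_option linter.unusedSectionVars false

noncomputable section

namespace Vale.Agent.P284Y.P

open Vale.Agent.P272.K Vale.Agent.P284.H650 Vale.Agent.P284Z J L

namespace Enx

theorem cont_ml {ι V : Type} [Fintype ι] [NormedAddCommGroup V] [NormedSpace ℝ V]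
    [FiniteDimensional ℝ V] (f : MultilinearMap ℝ (fun _ : ι => V) ℝ) : Continuous f := by
  classical
  let b := Module.finBasis ℝ V
  have h : ⇑f = fun x => ∑ r : ι → Fin (Module.finrank ℝ V),
      (∏ i, b.coord (r i) (x i)) • f fun i => b (r i) := by
    funext x
    conv_lhs => rw [funext fun i => (b.sum_repr (x i)).symm, f.map_sum]
    exact Finset.sum_congr rfl fun r _ => f.map_smul_univ _ _
  rw [h]
  exact continuous_finsetSum _ fun r _ => (continuous_finsetProd _ fun i _ =>
    (b.coord (r i)).continuous_of_finiteDimensional.comp (continuous_apply i)).smul continuous_const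

variable {N : ℕ} {Γ M : Type} [Group Γ] [TopologicalSpace M] [MulAction Γ M] {C : Cov N Γ M}

variable (C) in
/-- the value of a form in the chart at `y` -/
def ev (y : M) (H : C.Fm) : Mx N := H (C.ch₀ y).1 (C.ch₀ y).2.1 (C.ch₀ y).2.2

variable (C) in
/-- the density of the volume in the chart at `y` -/
def vl (y : M) : ℝ := (cHess (C.ρ (C.ch₀ y).2.1) (C.ch₀ y).2.2).det.re

theorem vl_pos (y : M) : 0 < vl C y :=
  (Complex.pos_iff.1 (C.ρ_pos _ _ (JGx.ch₀_spec y).1).det_pos).1

theorem mD_re (X : Fin N → C.Fm) (y : M) :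
    (C.mD X y).re = md (fun i => ev C y (X i)) / vl C y := by
  have h := (Complex.pos_iff.1 (C.ρ_pos _ _ (JGx.ch₀_spec (C := C) y).1).det_pos).2
  have h2 : (cHess (C.ρ (C.ch₀ y).2.1) (C.ch₀ y).2.2).det = (vl C y : ℂ) :=
    Complex.ext rfl h.symm
  rw [Cov.mD, h2, Complex.div_ofReal_re]
  rfl

theorem mD_up (X : Fin N → C.Fm) (k : Fin N) (H : C.Fm) (y : M) :
    (C.mD (update X k H) y).re = sl (fun i => ev C y (X i)) k (ev C y H) / vl C y := by
  rw [mD_re, sl_apply]
  exact congrArg (fun Y => md Y / vl C y) (comp_update (ev C y) X k H)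

/-- the combination `s u + t v` -/
def cmb (u v : M → ℝ) (q : ℝ × ℝ) (y : M) : ℝ := q.1 * u y + q.2 * v y

variable {u v : M → ℝ}

theorem om_cmb (hu : ∀ y, C.SmAt u y) (hv : ∀ y, C.SmAt v y) (c : ℝ) (q : ℝ × ℝ) {γ : Γ} {a : C.I}
    {z : Cm N} (hz : z ∈ C.B 4 a) : C.om c (cmb u v q) γ a z =
      (c : ℂ) • cHess (C.ρ a) z + (q.1 : ℂ) • hs C u γ a z + (q.2 : ℂ) • hs C v γ a z := by
  have h1 := (hu _ γ a z hz rfl).of_le two_le
  have h2 := (hv _ γ a z hz rfl).of_le two_le
  rw [om_eq c (f := cmb u v q) hz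
    (sm_add (sm_mul (sm_const _) (hu _)) (sm_mul (sm_const _) (hv _))), add_assoc]
  congr 1
  exact (C2.cHess_add (contDiffAt_const.mul h1) (contDiffAt_const.mul h2)).trans
    (congrArg₂ _ (C2.cHess_const_mul _ h1) (C2.cHess_const_mul _ h2))

variable (C u v) in
/-- the form `c Ω + i∂∂̄ (s u + t v)` -/
def fm (c : ℝ × ℝ × ℝ) : C.Fm := C.om c.1 (cmb u v c.2)

theorem ev_add (hu : ∀ y, C.SmAt u y) (hv : ∀ y, C.SmAt v y) (c c' : ℝ × ℝ × ℝ) (y : M) :
    ev C y (fm C u v (c + c')) = ev C y (fm C u v c) + ev C y (fm C u v c') := by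
  simp only [ev, fm, om_cmb hu hv _ _ (JGx.ch₀_spec y).1, Prod.fst_add, Prod.snd_add]
  push_cast
  module

theorem ev_smul (hu : ∀ y, C.SmAt u y) (hv : ∀ y, C.SmAt v y) (t : ℝ) (c : ℝ × ℝ × ℝ) (y : M) :
    ev C y (fm C u v (t • c)) = (t : ℂ) • ev C y (fm C u v c) := by
  simp only [ev, fm, om_cmb hu hv _ _ (JGx.ch₀_spec y).1, Prod.smul_fst, Prod.smul_snd, smul_eq_mul]
  push_cast
  module

variable [MeasurableSpace M] {μ : Measure M}

theorem cb_fm (r : GR C μ) (hu : Gd C μ u) (hv : Gd C μ v) (c : ℝ × ℝ × ℝ) : CB C (fm C u v c) :=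
  r.cb _ _ (r.lin u v _ _ hu hv)

theorem int (a : PA C μ) (r : GR C μ) (hu : Gd C μ u) {f : M → ℝ} (hf : Integrable f μ) :
    Integrable (fun y => f y * ma C u y) μ := by
  simpa only [a.ma_mD, mul_div_assoc] using
    (r.int (fun _ => C.om 1 u) f (fun _ => r.cb _ _ hu) hf).div_const (N.factorial : ℝ)

theorem cb_up {X : Fin N → C.Fm} {k : Fin N} {H : C.Fm} (hX : ∀ i, CB C (X i)) (hH : CB C H)
    (i : Fin N) : CB C (update X k H i) := by
  rw [update_apply]
  split_ifs
  exacts [hH, hX i]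

/-- the integral of `f` against a wedge product -/
def ml (r : GR C μ) (hu : Gd C μ u) (hv : Gd C μ v) {f : M → ℝ} (hf : Integrable f μ) :
    ContinuousMultilinearMap ℝ (fun _ : Fin N => ℝ × ℝ × ℝ) ℝ :=
  ⟨.mk' (fun c => ∫ y, f y * (C.mD (fun i => fm C u v (c i)) y).re ∂μ)
    (fun c k x x' => by
      rw [← integral_add (r.int _ f (fun _ => cb_fm r hu hv _) hf)
        (r.int _ f (fun _ => cb_fm r hu hv _) hf)]
      refine integral_congr_ae (Eventually.of_forall fun y => ?_)
      have e := fun x => comp_update (fm C u v) c k x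
      simp only [comp_def] at e
      simp only [e, mD_up, ev_add hu.sm hv.sm, map_add, add_div, mul_add])
    (fun c k t x => by
      rw [smul_eq_mul, ← integral_const_mul]
      refine integral_congr_ae (Eventually.of_forall fun y => ?_)
      have e := fun x => comp_update (fm C u v) c k x
      simp only [comp_def] at e
      simp only [e, mD_up, ev_smul hu.sm hv.sm, sl_csmul]
      ring), cont_ml _⟩

theorem ml_apply (r : GR C μ) (hu : Gd C μ u) (hv : Gd C μ v) {f : M → ℝ} (hf : Integrable f μ)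
    (c : Fin N → ℝ × ℝ × ℝ) :
    ml r hu hv hf c = ∫ y, f y * (C.mD (fun i => fm C u v (c i)) y).re ∂μ := rfl

theorem ml_cmb (r : GR C μ) (hu : Gd C μ u) (hv : Gd C μ v) (c : Fin N → ℝ × ℝ × ℝ) (q : ℝ × ℝ) :
    ml r hu hv hu.int c * q.1 + ml r hu hv hv.int c * q.2 =
      ∫ y, cmb u v q y * (C.mD (fun i => fm C u v (c i)) y).re ∂μ := by
  rw [ml_apply, ml_apply, ← integral_mul_const, ← integral_mul_const, ← integral_add
    ((r.int _ u (fun _ => cb_fm r hu hv _) hu.int).mul_const _)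
    ((r.int _ v (fun _ => cb_fm r hu hv _) hv.int).mul_const _)]
  refine integral_congr_ae (Eventually.of_forall fun y => ?_)
  simp only [cmb]
  ring

/-- the closed form on the plane -/
theorem exists_form (a : PA C μ) (r : GR C μ) (hu : Gd C μ u) (hv : Gd C μ v) :
    ∃ (w : ℝ × ℝ → ℝ × ℝ →L[ℝ] ℝ) (dw : ℝ × ℝ → ℝ × ℝ →L[ℝ] ℝ × ℝ →L[ℝ] ℝ),
      (∀ p, HasFDerivAt w (dw p) p) ∧ (∀ p q q', dw p q q' = dw p q' q) ∧
      ∀ p q, w p q = N.factorial * ∫ y, cmb u v q y * ma C (cmb u v p) y ∂μ := by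
  have hA : ∀ p : ℝ × ℝ, HasFDerivAt (fun p : ℝ × ℝ => fun _ : Fin N => ((1 : ℝ), p))
      (ContinuousLinearMap.pi fun _ => .inr ℝ ℝ (ℝ × ℝ)) p := fun p =>
    hasFDerivAt_pi.2 fun _ => hasFDerivAt_prodMk_right 1 p
  have h1 := fun p => (((ml r hu hv hu.int).hasFDerivAt _).comp p (hA p)).smul_const
    (ContinuousLinearMap.fst ℝ ℝ ℝ)
  have h2 := fun p => (((ml r hu hv hv.int).hasFDerivAt _).comp p (hA p)).smul_const
    (ContinuousLinearMap.snd ℝ ℝ ℝ)
  refine ⟨_, _, fun p => (h1 p).add (h2 p), fun p => ?_, fun p q => ?_⟩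
  · have key : ∀ q q' : ℝ × ℝ,
        (ml r hu hv hu.int).linearDeriv (fun _ => (1, p)) (fun _ => (0, q)) * q'.1 +
          (ml r hu hv hv.int).linearDeriv (fun _ => (1, p)) (fun _ => (0, q)) * q'.2 =
        ∑ k, ∫ y, cmb u v q' y *
          (C.mD (update (fun _ => fm C u v (1, p)) k (C.om 0 (cmb u v q))) y).re ∂μ := by
      intro q q'
      simp only [ContinuousMultilinearMap.linearDeriv_apply, Finset.sum_mul,
        ← Finset.sum_add_distrib, ml_cmb]
      refine Finset.sum_congr rfl fun k _ => ?_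
      have e := comp_update (fm C u v) (fun _ : Fin N => ((1 : ℝ), p)) k (0, q)
      simp only [comp_def] at e
      rw [e]
      rfl
    intro q q'
    refine ((key q q').trans ?_).trans (key q' q).symm
    exact Finset.sum_congr rfl fun k _ => r.green _ k _ _ (fun _ _ => cb_fm r hu hv _)
      (r.lin u v _ _ hu hv) (r.lin u v _ _ hu hv)
  · refine (ml_cmb r hu hv (fun _ => (1, p)) q).trans ?_
    rw [← integral_const_mul]
    refine integral_congr_ae (Eventually.of_forall fun y => ?_)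
    have : (N.factorial : ℝ) ≠ 0 := by positivity
    simp only [a.ma_mD, fm]
    field_simp

theorem cmb_line (p p' : ℝ × ℝ) (t : ℝ) : cmb u v (AffineMap.lineMap p p' t) =
    fun x => cmb u v p x + t * (cmb u v p' x - cmb u v p x) := by
  funext x
  simp only [cmb, AffineMap.lineMap_apply_module', Prod.fst_add, Prod.snd_add, Prod.smul_fst,
    Prod.smul_snd, Prod.fst_sub, Prod.snd_sub, smul_eq_mul]
  ring

theorem cmb_sub (p p' : ℝ × ℝ) (y : M) : cmb u v (p' - p) y = cmb u v p' y - cmb u v p y := by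
  simp only [cmb, Prod.fst_sub, Prod.snd_sub]
  ring

theorem cmb_zero : cmb u v (0, 0) = fun _ => 0 := funext fun _ => by simp [cmb]

theorem cmb_left : cmb u v (1, 0) = u := funext fun _ => by simp [cmb]

theorem cmb_right : cmb u v (0, 1) = v := funext fun _ => by simp [cmb]

theorem coc (a : PA C μ) (r : GR C μ) (hu : Gd C μ u) (hv : Gd C μ v) :
    En C μ (fun _ => 0) v = En C μ (fun _ => 0) u + En C μ u v := by
  obtain ⟨w, dw, h1, h2, h3⟩ := exists_form a r hu hv
  have key : ∀ p p' : ℝ × ℝ, ∫ᶜ x in .segment p p', w x =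
      N.factorial * En C μ (cmb u v p) (cmb u v p') := fun p p' => by
    rw [curveIntegral_segment, En, ← intervalIntegral.integral_const_mul]
    simp only [h3, cmb_line, cmb_sub]
  have h := convex_univ.curveIntegral_segment_add_eq_of_hasFDerivWithinAt_symmetric
    (fun x _ => (h1 x).hasFDerivWithinAt) (fun p _ q _ q' _ => h2 p q q') (mem_univ (0, 0))
    (mem_univ (1, 0)) (mem_univ (0, 1))
  rw [key, key, key, cmb_zero, cmb_left, cmb_right, ← mul_add] at h
  exact (mul_left_cancel₀ (by positivity) h).symm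

theorem cont_en (a : PA C μ) (r : GR C μ) (hu : Gd C μ u) (hv : Gd C μ v) : Continuous fun t : ℝ =>
    ∫ y, (v y - u y) * ma C (fun x => u x + t * (v x - u x)) y ∂μ := by
  obtain ⟨w, dw, h1, -, h3⟩ := exists_form a r hu hv
  have h4 : Continuous w := continuous_iff_continuousAt.2 fun p => (h1 p).continuousAt
  have h5 : Continuous fun t : ℝ => w (AffineMap.lineMap (1, 0) (0, 1) t) ((0, 1) - (1, 0)) /
      N.factorial := ((h4.comp AffineMap.lineMap_continuous).clm_apply continuous_const).div_const _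
  refine h5.congr fun t => ?_
  rw [h3, mul_div_cancel_left₀ _ (by positivity)]
  simp only [cmb_line, cmb_sub, cmb_left, cmb_right]

theorem psd_univ {H : C.Fm} (h : ∀ y, Psd C H {y}) : Psd C H univ :=
  fun γ a z hz _ => h _ γ a z hz rfl

theorem slot_le {A G : Mx N} {X : Fin N → Mx N} {θ : ℝ} (hA : A.PosSemidef) (hG : G.PosSemidef)
    (hθ : 0 ≤ θ) (hX : ∀ i, (X i - (θ : ℂ) • A).PosSemidef) (j k : Fin N) :
    θ ^ (N - 1) * sl (fun _ => A) k G ≤ sl X j G := by
  have h1 := md_smul (update (fun _ => θ) j 1) (update (fun _ => A) j G)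
  have h2 := md_perm (update (fun _ => A) k G) (Equiv.swap j k)
  have h3 : (fun i => update (fun _ => A) k G (Equiv.swap j k i)) = update (fun _ => A) j G := by
    funext i
    simp only [update_apply, Equiv.swap_apply_eq_iff, Equiv.swap_apply_right]
  rw [Finset.prod_update_of_mem (Finset.mem_univ j), one_mul, Finset.prod_const,
    Finset.card_univ_sdiff, Fintype.card_fin, Finset.card_singleton] at h1
  rw [sl_apply, sl_apply, ← h2, h3, ← h1]
  refine md_mono (fun i => ?_) fun i => ?_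
  · by_cases h : i = j
    · simpa [h] using hG
    · simpa [update_of_ne h] using psd_smul hA hθ
  · by_cases h : i = j
    · simpa [h] using Matrix.PosSemidef.zero
    · simpa [update_of_ne h] using hX i

theorem step (a : PA C μ) (r : GR C μ) (hu : Gd C μ u) (hv : Gd C μ v) (pu : ∀ y, OP C u y)
    {θ : ℝ} (hθ : θ ∈ Icc (0 : ℝ) 1) (pv : Psd C (C.om 1 v - (θ : ℂ) • C.om 1 u) univ) (k : Fin N)
    {t : ℝ} (ht : t ∈ Icc (0 : ℝ) 1) :
    ∫ y, (v y - u y) * ma C (fun x => u x + t * (v x - u x)) y ∂μ ≤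
      ∫ y, (v y - u y) * ma C u y ∂μ - t * (θ ^ (N - 1) * N / N.factorial *
        ∫ y, (C.mD (update (fun _ => C.om 1 u) k
          (C.gg (fun x => v x - u x) fun x => v x - u x)) y).re ∂μ) := by
  have e1 : cmb u v (-1, 1) = fun x => v x - u x := funext fun x => by simp only [cmb]; ring
  have e2 : cmb u v (1 - t, t) = fun x => u x + t * (v x - u x) :=
    funext fun x => by simp only [cmb]; ring
  have e3 : ∀ y, v y - u y = cmb u v (-1, 1) y := fun y => (congrFun e1 y).symm
  have gψ : Gd C μ (cmb u v (-1, 1)) := r.lin u v _ _ hu hv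
  have gt : Gd C μ (cmb u v (1 - t, t)) := r.lin u v _ _ hu hv
  rw [← e1, ← e2]
  simp only [e3]
  obtain ⟨X, hX⟩ : ∃ X : Fin N → Fin N → C.Fm, X = fun j i =>
    if i < j then C.om 1 (cmb u v (1 - t, t)) else C.om 1 u := ⟨_, rfl⟩
  have pA : Psd C (C.om 1 u) univ := psd_univ fun y => (pu y).2
  have p1 : ∀ j i, Psd C (X j i - (θ : ℂ) • C.om 1 u) univ := fun j i γ b z hz hy => by
    have k0 := psd_smul (pA γ b z hz hy) (sub_nonneg.2 hθ.2)
    simp only [hX, Pi.sub_apply, Pi.smul_apply]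
    split_ifs
    · have k1 := (psd_smul k0 (sub_nonneg.2 ht.2)).add (psd_smul (pv γ b z hz hy) ht.1)
      convert k1 using 1
      simp only [Pi.sub_apply, Pi.smul_apply, om_cmb hu.sm hv.sm _ _ hz, om_eq 1 hz (hu.sm _),
        om_eq 1 hz (hv.sm _)]
      push_cast
      module
    · convert k0 using 1
      push_cast
      module
  have p2 : ∀ j i, CB C (X j i) ∧ Psd C (X j i) univ := fun j i => by
    refine ⟨?_, fun γ b z hz hy => ?_⟩
    · simp only [hX]
      split_ifs
      exacts [r.cb _ _ gt, r.cb _ _ hu]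
    · simpa using (p1 j i γ b z hz hy).add (psd_smul (pA γ b z hz hy) hθ.1)
  have i1 := fun j => r.grad (X j) j _ _ (fun i _ => p2 j i) gψ gψ
  have i2 := (r.grad (fun _ => C.om 1 u) k _ _ (fun i _ => ⟨r.cb _ _ hu, pA⟩) gψ gψ).1
  have i3 := fun j => r.int (update (X j) j (C.om 0 (cmb u v (-1, 1)))) _
    (cb_up (fun i => (p2 j i).1) (r.cb _ _ gψ)) gψ.int
  generalize hI : ∫ y, (C.mD (update (fun _ => C.om 1 u) k
    (C.gg (cmb u v (-1, 1)) (cmb u v (-1, 1)))) y).re ∂μ = I
  have k1 : ∀ j, ∫ y, cmb u v (-1, 1) y *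
      (C.mD (update (X j) j (C.om 0 (cmb u v (-1, 1)))) y).re ∂μ ≤ -(θ ^ (N - 1) * I) := by
    intro j
    have k2 := congrArg Complex.re (i1 j).2
    rw [Complex.neg_re, Complex.ofReal_re] at k2
    rw [le_neg, ← k2, ← hI, ← integral_const_mul]
    refine (integral_mono (i2.re.const_mul _) (i1 j).1.re fun y => ?_).trans_eq
      (integral_re (i1 j).1)
    obtain ⟨z1, -⟩ := JGx.ch₀_spec (C := C) y
    simp only [RCLike.re_to_complex, mD_up, ← mul_div_assoc]
    exact div_le_div_of_nonneg_right (slot_le (pA _ _ _ z1 trivial) (gg_psd _ _) hθ.1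
      (fun i => p1 j i _ _ _ z1 trivial) j k) (vl_pos y).le
  have k2 : ∀ y, N.factorial * (cmb u v (-1, 1) y * ma C (cmb u v (1 - t, t)) y -
      cmb u v (-1, 1) y * ma C u y) = ∑ j, t * (cmb u v (-1, 1) y *
        (C.mD (update (X j) j (C.om 0 (cmb u v (-1, 1)))) y).re) := fun y => by
    have k3 : C.om 0 (fun x => cmb u v (1 - t, t) x - u x) = fm C u v (t • (0, -1, 1)) := by
      simp only [fm, Prod.smul_mk, smul_zero]
      congr 1
      funext x
      simp only [cmb, smul_eq_mul]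
      ring
    rw [← mul_sub, mul_left_comm, a.tele u _ y (hu.sm y) (gt.sm y), Finset.mul_sum, k3, hX]
    refine Finset.sum_congr rfl fun j _ => ?_
    rw [mD_up, mD_up, ev_smul hu.sm hv.sm, sl_csmul, mul_div_assoc, mul_left_comm]
    rfl
  have k3 := integral_congr_ae (μ := μ) (Eventually.of_forall k2)
  rw [integral_const_mul, integral_sub (int a r gt gψ.int) (int a r hu gψ.int),
    integral_finsetSum _ fun j _ => (i3 j).const_mul t] at k3
  have k4 := k3.trans_le (Finset.sum_le_sum (g := fun _ => t * -(θ ^ (N - 1) * I)) fun j _ => by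
    rw [integral_const_mul]
    exact mul_le_mul_of_nonneg_left (k1 j) ht.1)
  rw [Finset.sum_const, Finset.card_univ, Fintype.card_fin, nsmul_eq_mul,
    ← le_div_iff₀' (by positivity)] at k4
  linarith [show N * (t * -(θ ^ (N - 1) * I)) / N.factorial =
    -(t * (θ ^ (N - 1) * N / N.factorial * I)) by ring]

theorem two (a : PA C μ) (r : GR C μ) (hu : Gd C μ u) (hv : Gd C μ v) (pu : ∀ y, OP C u y)
    {θ : ℝ} (hθ : θ ∈ Icc (0 : ℝ) 1) (pv : Psd C (C.om 1 v - (θ : ℂ) • C.om 1 u) univ)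
    (k : Fin N) : En C μ u v ≤ ∫ y, (v y - u y) * ma C u y ∂μ -
      θ ^ (N - 1) * N / (2 * N.factorial) * ∫ y, (C.mD (update (fun _ => C.om 1 u) k
        (C.gg (fun x => v x - u x) fun x => v x - u x)) y).re ∂μ := by
  have h := fun t => step a r hu hv pu hθ pv k (t := t)
  generalize ∫ y, (v y - u y) * ma C u y ∂μ = A at h ⊢
  generalize ∫ y, (C.mD (update (fun _ => C.om 1 u) k
    (C.gg (fun x => v x - u x) fun x => v x - u x)) y).re ∂μ = I at h ⊢
  refine (intervalIntegral.integral_mono_on zero_le_one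
    ((cont_en a r hu hv).intervalIntegrable _ _)
    (Continuous.intervalIntegrable (by fun_prop) _ _) h).trans_eq ?_
  rw [intervalIntegral.integral_sub (Continuous.intervalIntegrable (by fun_prop) _ _)
    (Continuous.intervalIntegrable (by fun_prop) _ _), intervalIntegral.integral_mul_const,
    integral_id, intervalIntegral.integral_const]
  simp only [sub_zero, one_smul]
  ring

end Enx

open Enx

theorem stEn : StEn := by
  intro N Γ M _ _ _ _ _ _ _ _ C μ h0 _ _ a r
  refine ⟨fun u f hu hf => int a r hu hf, fun u v => coc a r, fun u v hu hv pu pv => ?_,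
    fun u v hu hv pu θ hθ => two a r hu hv pu hθ⟩
  refine (two a r hu hv pu ⟨le_rfl, zero_le_one⟩ ?_ ⟨0, h0⟩).trans (sub_le_self _
    (mul_nonneg (by positivity) (integral_nonneg fun y => ?_)))
  · simpa using psd_univ fun y => (pv y).2
  · obtain ⟨z1, z2⟩ := JGx.ch₀_spec (C := C) y
    simp only [Pi.zero_apply, mD_up]
    exact div_nonneg (sl_nonneg (fun i _ => (pu y).2 _ _ _ z1 z2) (gg_psd _ _)) (vl_pos y).le

end Vale.Agent.P284Y.P
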