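import Vale.Agent.P284Y.P.GrB

/-!
# P284Y, block P, row R: the formula of Green without compact supports
-/

open scoped ContDiff Topology ComplexOrder ComplexConjugate ENNReal Matrix
open Filter Set Function Metric MeasureTheory Real

noncomputable section

namespace Vale.Agent.P284Y.P

open Vale.Agent.P272.K Vale.Agent.P284.H650 Vale.Agent.P284Z J L

namespace Gr

variable {N : ℕ} {Γ M : Type} [Group Γ] [TopologicalSpace M] [MulAction Γ M] {C : Cov N Γ M}
  {X : Fin N → C.Fm} {k : Fin N} {H : C.Fm} {f g h u : M → ℝ} {y : M} {χ : ℕ → M → ℝ}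

theorem mD_upd (X : Fin N → C.Fm) (k : Fin N) (H : C.Fm) (y : M) : C.mD (update X k H) y =
    MD (update (fun i => X i (C.ch₀ y).1 (C.ch₀ y).2.1 (C.ch₀ y).2.2) k
      (H (C.ch₀ y).1 (C.ch₀ y).2.1 (C.ch₀ y).2.2)) /
      ((cHess (C.ρ (C.ch₀ y).2.1) (C.ch₀ y).2.2).det.re : ℝ) := by
  rw [Cov.mD, JGx.upd, (JGx.det_re (JGx.ch₀_spec y).1).2]

theorem herm (hH : CB C H) (y : M) : (H (C.ch₀ y).1 (C.ch₀ y).2.1 (C.ch₀ y).2.2).IsHermitian :=
  (hH.1.2 _ _).herm _ ⟨(JGx.ch₀_spec y).1, trivial⟩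

theorem sm₀ (hf : C.SmAt f y) : DifferentiableAt ℝ
    (fun w => f (C.pt (C.ch₀ y).1 (C.ch₀ y).2.1 w)) (C.ch₀ y).2.2 :=
  (hf _ _ _ (JGx.ch₀_spec y).1 (JGx.ch₀_spec y).2).differentiableAt (by simp)

theorem mD_mul (hg : C.SmAt g y) (hf : C.SmAt f y) :
    C.mD (update X k (C.gg (fun x => g x * f x) h)) y =
      g y • C.mD (update X k (C.gg f h)) y + f y • C.mD (update X k (C.gg g h)) y := by
  simp only [mD_upd, Cov.gg]
  rw [gg_mul_left (sm₀ hg) (sm₀ hf), MD_update_add, MD_update_smul, MD_update_smul,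
    (JGx.ch₀_spec y).2, add_div, Complex.real_smul, Complex.real_smul, mul_div_assoc,
    mul_div_assoc]

theorem mD_real (hX : ∀ i, i ≠ k → CB C (X i)) (hH : CB C H) (y : M) :
    ((C.mD (update X k H) y).re : ℂ) = C.mD (update X k H) y := by
  rw [Cov.mD, ← MD_real fun i => herm (JGx.all_upd hX hH i) y,
    ← (JGx.det_re (JGx.ch₀_spec y).1).2, ← Complex.ofReal_div, Complex.ofReal_re]

theorem mD_conj (hX : ∀ i, i ≠ k → CB C (X i)) (f h : M → ℝ) (y : M) :
    C.mD (update X k (C.gg h f)) y = conj (C.mD (update X k (C.gg f h)) y) := by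
  simp only [mD_upd, Cov.gg]
  rw [← gg_symm, JGx.MD_conj fun i hi => herm (hX i hi) y, map_div₀, Complex.conj_ofReal]

theorem ev_one (e : g =ᶠ[𝓝 y] fun _ => 1) :
    (fun w => g (C.pt (C.ch₀ y).1 (C.ch₀ y).2.1 w)) =ᶠ[𝓝 (C.ch₀ y).2.2] fun _ => 1 :=
  JGx.ev_pt (P := fun x => g x = 1) (JGx.ch₀_spec y).1 (by rwa [(JGx.ch₀_spec y).2])

theorem gg_one (e : g =ᶠ[𝓝 y] fun _ => 1) : C.mD (update X k (C.gg g h)) y = 0 := by
  rw [mD_upd, Cov.gg, gg_congr_left (ev_one e), gg_const_left, MD_update_zero, zero_div]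

theorem om_one (e : g =ᶠ[𝓝 y] fun _ => 1) : C.mD (update X k (C.om 0 g)) y = 0 := by
  rw [mD_upd, ← hs_eq, hs, C2.cHess_congr (ev_one e), C2.cHess_const, MD_update_zero, zero_div]

theorem cs (hX : ∀ i, i ≠ k → Psd C (X i) univ) (f h : M → ℝ) (y : M) :
    0 ≤ (C.mD (update X k (C.gg f f)) y).re ∧ ‖C.mD (update X k (C.gg f h)) y‖ ≤
      (C.mD (update X k (C.gg f f)) y).re + (C.mD (update X k (C.gg h h)) y).re := by
  have hp := fun i hi => hX i hi (C.ch₀ y).1 _ _ (JGx.ch₀_spec y).1 trivial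
  have hd := (JGx.det_re (C := C) (JGx.ch₀_spec y).1).1
  have k1 := fun f => sl_nonneg hp (gg_psd f (C.ch₀ y).2.2)
  simp only [mD_upd, Cov.gg, Complex.div_ofReal_re, norm_div, Complex.norm_real,
    Real.norm_of_nonneg hd.le, ← add_div]
  refine ⟨div_nonneg (k1 _) hd.le, div_le_div_of_nonneg_right ?_ hd.le⟩
  have a1 := k1 fun w => f (C.pt (C.ch₀ y).1 (C.ch₀ y).2.1 w)
  have a2 := k1 fun w => h (C.pt (C.ch₀ y).1 (C.ch₀ y).2.1 w)
  simp only [gg, dzbv_eq] at a1 a2 ⊢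
  refine abs_le_of_sq_le_sq' ((ja.cs N _ k hp _ _).trans ?_) (add_nonneg a1 a2) |>.2
  simp only [sl_apply, md] at a1 a2 ⊢
  nlinarith [mul_nonneg a1 a2]

variable {V : Type} [NormedAddCommGroup V] [NormedSpace ℝ V]

theorem Cut.cont (hχ : Cut C χ) (j : ℕ) : Continuous (χ j) :=
  continuous_iff_continuousAt.2 fun y => JGx.sm_cont (hχ.sm j y)

theorem Cut.tend (hχ : Cut C χ) (F : M → V) (y : M) :
    Tendsto (fun j => χ j y • F y) atTop (𝓝 (F y)) :=
  tendsto_const_nhds.congr' ((hχ.one y).mono fun j hj => by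
    simp only [hj.self_of_nhds, one_smul])

variable [MeasurableSpace M] {μ : Measure M}

omit [TopologicalSpace M] in
theorem fatou {G : ℕ → M → ℝ} {K : ℝ} (hG : ∀ j, Integrable (G j) μ) (h0 : ∀ j y, 0 ≤ G j y)
    (hK : ∀ j, ∫ y, G j y ∂μ ≤ K) (ht : ∀ y, Tendsto (fun j => G j y) atTop (𝓝 (g y))) :
    Integrable g μ := by
  refine ⟨aestronglyMeasurable_of_tendsto_ae _ (fun j => (hG j).1) (.of_forall ht), ?_⟩
  calc ∫⁻ y, ‖g y‖ₑ ∂μ = ∫⁻ y, liminf (fun j => ‖G j y‖ₑ) atTop ∂μ :=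
        lintegral_congr fun y => (ht y).enorm.liminf_eq.symm
    _ ≤ liminf (fun j => ∫⁻ y, ‖G j y‖ₑ ∂μ) atTop :=
        lintegral_liminf_le' fun j => (hG j).1.enorm
    _ ≤ ENNReal.ofReal K := liminf_le_of_frequently_le' (.of_forall fun j => by
        rw [← ofReal_integral_norm_eq_lintegral_enorm (hG j)]
        simp only [Real.norm_of_nonneg (h0 _ _)]
        exact ENNReal.ofReal_le_ofReal (hK j))
    _ < ⊤ := ENNReal.ofReal_lt_top

theorem gd_cb (c : ℝ) (hu : Gd C μ u) : CB C (C.om c u) := by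
  obtain ⟨B, hB⟩ := hu.bd
  obtain ⟨D, hD⟩ := bn_om (C := C) c B
  exact ⟨JGx.cf_om jb c u univ fun y _ => hu.sm y, D, hD u hu.sm hB⟩

theorem gd_lin (s t : ℝ) (hf : Gd C μ f) (hh : Gd C μ h) : Gd C μ fun y => s * f y + t * h y := by
  obtain ⟨B, hB⟩ := hf.bd
  obtain ⟨D, hD⟩ := hh.bd
  refine ⟨fun y => sm_add (sm_mul (sm_const s) (hf.sm y)) (sm_mul (sm_const t) (hh.sm y)),
    (hf.int.const_mul s).add (hh.int.const_mul t), ‖s‖ * B + ‖t‖ * D, fun γ a z hz => ?_⟩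
  obtain ⟨e1, e2⟩ := lin_bd (hf.sm _ γ a z (C.B14 hz) rfl) (hh.sm _ γ a z (C.B14 hz) rfl) s t
  obtain ⟨b0, b1, b2⟩ := hB γ a z hz
  obtain ⟨d0, d1, d2⟩ := hD γ a z hz
  rw [e1, e2]
  refine ⟨(abs_add_le _ _).trans ?_, (ContinuousLinearMap.opNorm_add_le _ _).trans
    ((add_le_add (ContinuousLinearMap.opNorm_smul_le _ _)
      (ContinuousLinearMap.opNorm_smul_le _ _)).trans ?_),
    (ContinuousLinearMap.opNorm_add_le _ _).trans
    ((add_le_add (ContinuousLinearMap.opNorm_smul_le _ _)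
      (ContinuousLinearMap.opNorm_smul_le _ _)).trans ?_)⟩
  · rw [abs_mul, abs_mul, Real.norm_eq_abs, Real.norm_eq_abs]
    gcongr
  · gcongr
  · gcongr

variable [BorelSpace M]

theorem Cut.dom (hχ : Cut C χ) {F : M → V} (hF : Integrable F μ) :
    Tendsto (fun j => ∫ y, χ j y • F y ∂μ) atTop (𝓝 (∫ y, F y ∂μ)) :=
  tendsto_integral_of_dominated_convergence (fun y => ‖F y‖)
    (fun j => (hχ.cont j).aestronglyMeasurable.smul hF.1) hF.norm
    (fun j => .of_forall fun y => by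
      rw [norm_smul, Real.norm_of_nonneg (hχ.mem j y).1]
      exact mul_le_of_le_one_left (norm_nonneg _) (hχ.mem j y).2) (.of_forall (hχ.tend F))

theorem dom₀ [SecondCountableTopology V] {G : ℕ → M → V} {K : ℝ} (hf : Integrable f μ)
    (hG : ∀ j, Continuous (G j)) (hK : ∀ j y, ‖G j y‖ ≤ K) (h0 : ∀ y, ∀ᶠ j in atTop, G j y = 0) :
    Tendsto (fun j => ∫ y, f y • G j y ∂μ) atTop (𝓝 0) := by
  simpa using tendsto_integral_of_dominated_convergence (f := fun _ => (0 : V))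
    (fun y => ‖f y‖ * K) (fun j => hf.1.smul (hG j).aestronglyMeasurable) (hf.norm.mul_const K)
    (fun j => .of_forall fun y => by
      rw [Pi.smul_apply', norm_smul]
      exact mul_le_mul_of_nonneg_left (hK j y) (norm_nonneg _))
    (.of_forall fun y => tendsto_const_nhds.congr' ((h0 y).mono fun j hj => by
      simp only [Pi.smul_apply', hj, smul_zero]))

variable [T2Space M]

theorem int_re (hX : ∀ i, i ≠ k → CB C (X i)) (hH : CB C H) (hf : Integrable f μ) :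
    Integrable (fun y => f y * (C.mD (update X k H) y).re) μ := by
  obtain ⟨B, hB⟩ := hH.2
  obtain ⟨K, hK⟩ := upd_bd hX B
  exact hf.mul_bdd (Complex.continuous_re.comp (cont_upd hX (fs_cf hH.1))).aestronglyMeasurable
    (.of_forall fun y => (Complex.abs_re_le_norm _).trans (hK H hB y))

variable (hμ : C.Vol μ) (hχ : Cut C χ)
include hμ hχ

theorem Cut.int [SecondCountableTopology V] {F : M → V} (hF : Continuous F) (j : ℕ) :
    Integrable (fun y => χ j y • F y) μ := by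
  obtain ⟨K, hK, h0⟩ := hχ.cpt j
  exact JGx.integ hμ hK ((hχ.cont j).smul hF).continuousOn fun y hy => by
    rw [h0 y hy, zero_smul]

theorem lim (hX : ∀ i, i ≠ k → CB C (X i)) (hf : Gd C μ f) (hh : Gd C μ h) :
    Tendsto (fun j => ∫ y, χ j y • C.mD (update X k (C.gg f h)) y ∂μ) atTop
      (𝓝 (-((∫ y, f y * (C.mD (update X k (C.om 0 h)) y).re ∂μ : ℝ) : ℂ))) := by
  obtain ⟨B, hB⟩ := hχ.bd
  obtain ⟨D, hD⟩ := hh.bd
  obtain ⟨K, hK⟩ := upd_bd hX (B * D)
  have c := fun j => cont_upd hX (fs_gg (hχ.sm j) hh.sm)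
  have b := fun j => hK _ (bn_gg (hB j) hD)
  have t := ((Complex.continuous_ofReal.tendsto _).comp
    (hχ.dom (int_re hX (gd_cb 0 hh) hf.int))).neg.sub
    (dom₀ hf.int c b fun y => (hχ.one y).mono fun j hj => gg_one hj)
  rw [sub_zero] at t
  refine t.congr fun j => ?_
  obtain ⟨S, hS, h0⟩ := hχ.cpt j
  have e := JGx.ibp₁ (u := fun y => (h y : ℂ)) (ψ := fun y => ((χ j y * f y : ℝ) : ℂ)) jb hμ
    isOpen_univ hS (subset_univ _) (fun i hi => (hX i hi).1)
    (fun y _ => JGx.sm_ofReal (hh.sm y)) (fun y _ => JGx.sm_ofReal (sm_mul (hχ.sm j y) (hf.sm y)))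
    fun y hy => by simp [h0 y hy]
  have i : Integrable (fun y => f y • C.mD (update X k (C.gg (χ j) h)) y) μ :=
    hf.int.smul_bdd K (c j).aestronglyMeasurable (.of_forall (b j))
  rw [← JGx.gg_eq, ← JGx.om_eq, funext fun y => mD_mul (hχ.sm j y) (hf.sm y),
    integral_add (hχ.int hμ (cont_upd hX (fs_gg hf.sm hh.sm)) j) i] at e
  rw [comp_apply, ← integral_complex_ofReal, sub_eq_iff_eq_add, neg_eq_iff_eq_neg, ← e]
  refine integral_congr_ae (.of_forall fun y => ?_)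
  simp only [smul_eq_mul, Complex.ofReal_mul, mD_real hX (gd_cb 0 hh), mul_assoc]

theorem green (hX : ∀ i, i ≠ k → CB C (X i)) (hf : Gd C μ f) (hh : Gd C μ h) :
    ∫ y, f y * (C.mD (update X k (C.om 0 h)) y).re ∂μ =
      ∫ y, h y * (C.mD (update X k (C.om 0 f)) y).re ∂μ := by
  have t := (Complex.continuous_conj.tendsto _).comp (lim hμ hχ hX hf hh)
  rw [map_neg, Complex.conj_ofReal] at t
  refine Complex.ofReal_injective (neg_injective (tendsto_nhds_unique t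
    ((lim hμ hχ hX hh hf).congr fun j => ?_)))
  rw [comp_apply, ← integral_conj]
  simp only [mD_conj hX f h, Complex.real_smul, map_mul, Complex.conj_ofReal]

theorem int_self (hX : ∀ i, i ≠ k → CB C (X i) ∧ Psd C (X i) univ) (hf : Gd C μ f) :
    Integrable (fun y => (C.mD (update X k (C.gg f f)) y).re) μ := by
  have c := cont_upd (fun i hi => (hX i hi).1) (fs_gg hf.sm hf.sm)
  obtain ⟨K, hK⟩ := ((Complex.continuous_re.tendsto _).comp
    (lim hμ hχ (fun i hi => (hX i hi).1) hf hf)).bddAbove_range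
  refine fatou (K := K) (hχ.int hμ (Complex.continuous_re.comp c))
    (fun j y => mul_nonneg (hχ.mem j y).1 (cs (fun i hi => (hX i hi).2) f f y).1)
    (fun j => le_of_eq_of_le ?_ (hK ⟨j, rfl⟩)) (hχ.tend _)
  rw [comp_apply, ← RCLike.re_to_complex, ← integral_re (hχ.int hμ c j)]
  simp

theorem tot (hA : PA C μ) (hz : Gd C μ fun _ => 0) (hu : Gd C μ u)
    (hi : Integrable (fun y => ma C u y - 1) μ) : ∫ y, (ma C u y - 1) ∂μ = 0 := by
  obtain ⟨B, hB⟩ := hχ.bd
  obtain ⟨D, hD⟩ := bn_om (C := C) 0 B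
  set Y : Fin N → Fin N → C.Fm := fun k i => if i < k then C.om 1 u else C.om 1 fun _ => 0
  have hY : ∀ k i, i ≠ k → CB C (Y k i) := fun k i _ => by
    simp only [Y]
    split_ifs
    exacts [gd_cb 1 hu, gd_cb 1 hz]
  have g : ∀ j, Gd C μ (χ j) := fun j => ⟨hχ.sm j, by
    simpa using hχ.int hμ (continuous_const (y := (1 : ℝ))) j, B, hB j⟩
  have t : Tendsto (fun j => ∑ k, ∫ y, u y • (C.mD (update (Y k) k (C.om 0 (χ j))) y).re ∂μ)
      atTop (𝓝 (∑ _k : Fin N, 0)) := tendsto_finsetSum _ fun k _ => by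
    obtain ⟨K, hK⟩ := upd_bd (hY k) D
    exact dom₀ (K := K) hu.int
      (fun j => Complex.continuous_re.comp (cont_upd (hY k) (fs_cf (gd_cb 0 (g j)).1)))
      (fun j y => (Complex.abs_re_le_norm _).trans (hK _ (hD _ (hχ.sm j) (hB j)) y))
      fun y => (hχ.one y).mono fun j hj => by rw [om_one hj, Complex.zero_re]
  rw [Finset.sum_const_zero] at t
  refine (mul_eq_zero.1 (tendsto_nhds_unique ((hχ.dom hi).const_mul (N.factorial : ℝ))
    (t.congr fun j => ?_))).resolve_left (by positivity)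
  simp only [smul_eq_mul, ← fun k => green hμ hχ (hY k) (g j) hu]
  rw [← integral_finsetSum _ fun k _ => int_re (hY k) (gd_cb 0 hu) (g j).int, ← integral_const_mul]
  refine integral_congr_ae (.of_forall fun y => ?_)
  have := hA.tele _ u y (hz.sm y) (hu.sm y)
  simp only [sub_zero, hA.ma_zero] at this
  simp only [← Finset.mul_sum, Y, ← this]
  ring

end Gr

open Gr in
theorem stR : StR := by
  intro N G M _ _ _ _ _ _ _ _ C μ h0 _ hμ hA hC
  obtain ⟨χ, hχ⟩ := cut hC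
  have hz : Gd C μ fun _ => 0 :=
    ⟨fun _ => sm_const 0, integrable_zero _ _ _, 0, fun γ a z _ => by
      simpa using ContinuousLinearMap.opNorm_zero.le⟩
  refine ⟨hz, fun u v s t => gd_lin s t, fun u c => gd_cb c, fun X f hX hf => ?_,
    fun X k f h => green hμ hχ, fun X k f h hX hf hh => ?_, fun u => tot hμ hχ hA hz⟩
  · simpa using int_re (k := ⟨0, h0⟩) (fun i _ => hX i) (hX ⟨0, h0⟩) hf
  · have i : Integrable (C.mD (update X k (C.gg f h))) μ :=
      ((int_self hμ hχ hX hf).add (int_self hμ hχ hX hh)).mono'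
        (cont_upd (fun i hi => (hX i hi).1) (fs_gg hf.sm hh.sm)).aestronglyMeasurable
        (.of_forall fun y => (cs (fun i hi => (hX i hi).2) f h y).2)
    exact ⟨i, tendsto_nhds_unique (hχ.dom i) (lim hμ hχ (fun i hi => (hX i hi).1) hf hh)⟩

end Vale.Agent.P284Y.P
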