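import Vale.Agent.P284Y.P.Sk

/-!
# P284Y, block P, row M: Stokes and the comparison of the masses
-/

open scoped ContDiff Topology ComplexOrder ENNReal Matrix
open Filter Set Function Metric MeasureTheory Real

noncomputable section

namespace Vale.Agent.P284Y.P

open Vale.Agent.P272.K Vale.Agent.P284.H650 Vale.Agent.P284Z J L

namespace Mc

/-- the comparison of the masses from the formula of Stokes -/
theorem mc_abs {X : Type} [TopologicalSpace X] [T2Space X] [MeasurableSpace X] [BorelSpace X]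
    (μ : Measure X) (m : (X → ℝ) → X → ℝ) (P : (X → ℝ) → X → Prop) {D K : Set X} (hD : IsOpen D)
    (hK : IsCompact K) (hKD : K ⊆ D) {a b : X → ℝ}
    (cont : ∀ u, (∀ y ∈ D, P u y) → ContinuousOn u D ∧ ContinuousOn (m u) D)
    (cg : ∀ u v y c, P v y → (∀ᶠ x in 𝓝 y, u x = v x + c) → P u y ∧ m u y = m v y)
    (nn : ∀ u y, P u y → 0 ≤ m u y)
    (glue : ∀ u v y, ∀ e > (0 : ℝ), P u y → P v y →
      P (fun x => u x + e * Gc ((v x - u x) / e)) y)
    (int : ∀ (L : Set X) (f : X → ℝ), IsCompact L → ContinuousOn f L → IntegrableOn f L μ)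
    (stokes : ∀ (L : Set X) (u v : X → ℝ), IsCompact L → L ⊆ D → (∀ y ∈ D, P u y ∧ P v y) →
      (∀ y ∈ D, y ∉ L → u y = v y) → ∫ y in L, m u y ∂μ = ∫ y in L, m v y ∂μ)
    (hab : ∀ y ∈ D, P a y ∧ P b y) (hs : ∀ y ∈ D, b y < a y → y ∈ K) :
    MeasurableSet {y ∈ D | b y < a y} ∧ IntegrableOn (m a) {y ∈ D | b y < a y} μ ∧
    IntegrableOn (m b) {y ∈ D | b y < a y} μ ∧
    ∫ y in {y ∈ D | b y < a y}, m a y ∂μ ≤ ∫ y in {y ∈ D | b y < a y}, m b y ∂μ := by
  obtain ⟨ca, cma⟩ := cont a fun y hy => (hab y hy).1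
  obtain ⟨cb, cmb⟩ := cont b fun y hy => (hab y hy).2
  have cd : ContinuousOn (fun y => a y - b y) D := ca.sub cb
  have op : ∀ t : ℝ, IsOpen {y ∈ D | t < a y - b y} := fun t =>
    cd.isOpen_inter_preimage hD isOpen_Ioi
  have hS : {y ∈ D | b y < a y} = {y ∈ D | 0 < a y - b y} := by simp only [sub_pos]
  have oS : IsOpen {y ∈ D | b y < a y} := hS ▸ op 0
  have sK : {y ∈ D | b y < a y} ⊆ K := fun y hy => hs y hy.1 hy.2
  have ia : IntegrableOn (m a) {y ∈ D | b y < a y} μ := (int K _ hK (cma.mono hKD)).mono_set sK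
  have ib : IntegrableOn (m b) {y ∈ D | b y < a y} μ := (int K _ hK (cmb.mono hKD)).mono_set sK
  refine ⟨oS.measurableSet, ia, ib, ?_⟩
  have step : ∀ e > (0 : ℝ), ∫ y in {y ∈ D | 2 * e < a y - b y}, m a y ∂μ ≤
      ∫ y in {y ∈ D | b y < a y}, m b y ∂μ := fun e he => by
    set L := K ∩ (fun y => a y - b y) ⁻¹' Ici e with hL
    have cL : IsCompact L := hK.of_isClosed_subset
      ((cd.mono hKD).preimage_isClosed_of_isClosed hK.isClosed isClosed_Ici) inter_subset_left
    have LD : L ⊆ D := inter_subset_left.trans hKD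
    have LS : L ⊆ {y ∈ D | b y < a y} := fun y hy =>
      ⟨LD hy, by linarith [show e ≤ a y - b y from hy.2]⟩
    have UL : {y ∈ D | 2 * e < a y - b y} ⊆ L := fun y hy =>
      ⟨hs y hy.1 (by linarith [hy.2]), show e ≤ a y - b y by linarith [hy.2]⟩
    set R : X → ℝ := fun x => b x + e * Gc ((a x + -e - b x) / e) with hR
    have pR : ∀ y ∈ D, P R y := fun y hy => glue b (fun x => a x + -e) y e he (hab y hy).2
      (cg _ a y (-e) (hab y hy).1 (Eventually.of_forall fun _ => rfl)).1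
    have iR : IntegrableOn (m R) L μ := int L _ cL ((cont R pR).2.mono LD)
    have e1 : ∫ y in L, m R y ∂μ = ∫ y in L, m b y ∂μ :=
      stokes L R b cL LD (fun y hy => ⟨pR y hy, (hab y hy).2⟩) fun y hy hyL => by
        have : a y - b y ≤ e := by
          by_contra h
          exact hyL ⟨hs y hy (by linarith [not_le.1 h]), (not_le.1 h).le⟩
        simp only [hR]
        rw [Gc_of_nonpos (div_nonpos_of_nonpos_of_nonneg (by linarith) he.le), mul_zero, add_zero]
    have e2 : ∫ y in {y ∈ D | 2 * e < a y - b y}, m a y ∂μ =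
        ∫ y in {y ∈ D | 2 * e < a y - b y}, m R y ∂μ :=
      setIntegral_congr_fun (op _).measurableSet fun y hy => by
        refine (cg R a y (e * Gc 1 - 2 * e) (hab y hy.1).1 ?_).2.symm
        filter_upwards [(op _).mem_nhds hy] with x hx
        simp only [hR]
        rw [Gc_of_one_le ((one_le_div he).2 (by linarith [hx.2]))]
        field_simp
        ring
    rw [e2]
    calc _ ≤ ∫ y in L, m R y ∂μ := setIntegral_mono_set iR
          ((ae_restrict_iff' cL.measurableSet).2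
            (Eventually.of_forall fun y hy => nn R y (pR y (LD hy)))) UL.eventuallyLE
      _ = _ := e1
      _ ≤ _ := setIntegral_mono_set ib ((ae_restrict_iff' oS.measurableSet).2
            (Eventually.of_forall fun y hy => nn b y (hab y hy.1).2)) LS.eventuallyLE
  have un : (⋃ j : ℕ, {y ∈ D | 2 * (1 / ((j : ℝ) + 1)) < a y - b y}) = {y ∈ D | b y < a y} := by
    ext y
    simp only [mem_iUnion, mem_ofPred_eq]
    constructor
    · rintro ⟨j, h1, h2⟩
      have : (0 : ℝ) < 2 * (1 / ((j : ℝ) + 1)) := by positivity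
      exact ⟨h1, by linarith⟩
    · rintro ⟨h1, h2⟩
      obtain ⟨j, hj⟩ := exists_nat_one_div_lt (show 0 < (a y - b y) / 2 by linarith)
      exact ⟨j, h1, by linarith⟩
  have mono : Monotone fun j : ℕ => {y ∈ D | 2 * (1 / ((j : ℝ) + 1)) < a y - b y} :=
    fun i j hij y hy => ⟨hy.1, by linarith [hy.2, Nat.one_div_le_one_div (α := ℝ) hij]⟩
  have lim := tendsto_setIntegral_of_monotone (μ := μ) (f := m a)
    (fun j => (op _).measurableSet) mono (un ▸ ia)
  rw [un] at lim
  exact le_of_tendsto' lim fun j => step _ (by positivity)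

section loc
variable {n : ℕ} {z : Cm n}

theorem gg_zero {h f : Cm n → ℝ} {c : ℝ}
    (H : (h =ᶠ[𝓝 z] fun _ => c) ∨ (f =ᶠ[𝓝 z] fun _ => c)) : gg h f z = 0 := by
  ext j l
  rcases H with H | H
  · have : dz j (fun y => (h y : ℂ)) z = 0 := by
      rw [C2.dz_congr j (g := fun _ => (c : ℂ)) (H.mono fun y hy => by simp only [hy]),
        C2.dz_const]
    simp only [gg, rk1, dzv, Matrix.of_apply, this, zero_mul, Matrix.zero_apply]
  · have : dzb l (fun y => (f y : ℂ)) z = 0 := by
      rw [C2.dzb_congr l (g := fun _ => (c : ℂ)) (H.mono fun y hy => by simp only [hy]),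
        C2.dzb_const]
    simp only [gg, rk1, dzbv, Matrix.of_apply, this, mul_zero, Matrix.zero_apply]

theorem tele (A B : Mx n) : n.factorial * (B.det.re - A.det.re) =
    ∑ k, sl (fun i => if i < k then B else A) k (B - A) := by
  have h := (mdL n).map_sub_map_piecewise (fun _ => B) (fun _ => A) Finset.univ
  rw [Finset.piecewise_univ, mdL_apply, mdL_apply] at h
  rw [mul_sub, ← md_const, ← md_const, md, md, ← Complex.sub_re, h, Complex.re_sum]
  refine Finset.sum_congr rfl fun k _ => ?_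
  rw [sl_apply, md, mdL_apply]
  congr 2
  funext i
  by_cases hi : i = k
  · subst hi; simp
  · simp [update_of_ne hi, Ne.symm hi]

theorem int_loc {D : Set (Cm n)} {w : Cm n → ℝ} (hw : Sm D w) :
    ContinuousOn (fun z => (cHess w z).det.re) D := by
  have h1 := (sm_md (X := fun _ => cHess w) fun _ => hw.cf.sm).cont
  simp only [md_const] at h1
  have h2 : (n.factorial : ℝ) ≠ 0 := Nat.cast_ne_zero.2 n.factorial_ne_zero
  exact ((continuousOn_const (c := (n.factorial : ℝ)⁻¹)).mul h1).congr fun z _ => by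
    simp only [Pi.mul_apply, inv_mul_cancel_left₀ h2]

theorem stokes_loc {D K : Set (Cm n)} {u v : Cm n → ℝ} (hD : IsOpen D) (hK : IsCompact K)
    (hKD : K ⊆ D) (hu : Sm D u) (hv : Sm D v) (h0 : ∀ z ∈ D, z ∉ K → u z = v z) :
    ∫ z in K, (cHess u z).det.re = ∫ z in K, (cHess v z).det.re := by
  set f : Cm n → ℝ := K.indicator fun z => v z - u z with hf
  have f1 : ∀ z ∈ D, f =ᶠ[𝓝 z] fun z => v z - u z := fun z hz => by
    filter_upwards [hD.mem_nhds hz] with w hw
    by_cases hwK : w ∈ K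
    · exact indicator_of_mem hwK _
    · rw [hf, indicator_of_notMem hwK, h0 w hw hwK, sub_self]
  have f2 : ∀ z ∉ K, f =ᶠ[𝓝 z] fun _ => 0 := fun z hz => by
    filter_upwards [hK.isClosed.isOpen_compl.mem_nhds hz] with w hw using indicator_of_notMem hw _
  have f3 : Sm D f := fun z hz => (hv.sub hu z hz).congr_of_eventuallyEq (f1 z hz)
  have f4 : ∀ z ∈ D, cHess f z = cHess v z - cHess u z := fun z hz => by
    rw [C2.cHess_congr (f1 z hz), C2.cHess_sub (hv.two hz) (hu.two hz)]
  have key : ∀ k : Fin n,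
      IntegrableOn (fun z => sl (fun i => if i < k then cHess v z else cHess u z) k (cHess f z)) K ∧
      ∫ z in K, sl (fun i => if i < k then cHess v z else cHess u z) k (cHess f z) = 0 := fun k => by
    obtain ⟨i1, -, e⟩ := ibp (X := fun i => if i < k then cHess v else cHess u) (k := k) (f := f)
      (h := fun _ => 1) hD (fun i _ => by split_ifs; exacts [hv.cf, hu.cf]) f3 (Sm.const 1) hK hKD
      fun z hz => Or.inr (f2 z hz)
    simp only [one_mul, ite_apply, gg_zero (c := 1) (Or.inl EventuallyEq.rfl), map_zero,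
      integral_zero, neg_zero] at i1 e
    refine ⟨i1.mono_set hKD, ?_⟩
    rw [← e]
    refine (setIntegral_eq_of_subset_of_forall_sdiff_eq_zero hD.measurableSet hKD
      fun z hz => ?_).symm
    rw [C2.cHess_congr (f2 z hz.2), C2.cHess_const, map_zero]
  have ci : ∀ w : Cm n → ℝ, Sm D w → IntegrableOn (fun z => (cHess w z).det.re) K := fun w hw =>
    ((int_loc hw).mono hKD).integrableOn_compact hK
  have h1 : ∫ z in K, (n.factorial : ℝ) * ((cHess v z).det.re - (cHess u z).det.re) = 0 := by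
    rw [setIntegral_congr_fun hK.measurableSet (g := fun z => ∑ k,
      sl (fun i => if i < k then cHess v z else cHess u z) k (cHess f z))
      (fun z hz => by simp only [tele, f4 z (hKD hz)]),
      integral_finsetSum _ fun k _ => (key k).1]
    exact Finset.sum_eq_zero fun k _ => (key k).2
  rw [integral_const_mul, integral_sub (ci v hv) (ci u hu), mul_eq_zero] at h1
  linarith [h1.resolve_left (Nat.cast_ne_zero.2 n.factorial_ne_zero)]

theorem glue_loc {u v : Cm n → ℝ} {e : ℝ} (he : 0 < e) (hu : ContDiffAt ℝ ∞ u z)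
    (hv : ContDiffAt ℝ ∞ v z) (h1 : (cHess u z).PosSemidef) (h2 : (cHess v z).PosSemidef) :
    ContDiffAt ℝ ∞ (fun x => u x + e * Gc ((v x - u x) / e)) z ∧
      (cHess (fun x => u x + e * Gc ((v x - u x) / e)) z).PosSemidef := by
  refine ⟨hu.add (contDiffAt_const.mul (contDiff_Gc.contDiffAt.comp z
    ((hv.sub hu).div_const e))), ?_⟩
  have u2 : ContDiffAt ℝ 2 u z := hu.of_le two_le
  have v2 : ContDiffAt ℝ 2 v z := hv.of_le two_le
  have ei : 0 ≤ e⁻¹ := inv_nonneg.2 he.le
  have a2 : ContDiffAt ℝ 2 (fun x => e⁻¹ * u x) z := contDiffAt_const.mul u2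
  have b2 : ContDiffAt ℝ 2 (fun x => e⁻¹ * v x) z := contDiffAt_const.mul v2
  have h3 := psd_glue' a2 b2 (by rw [C2.cHess_const_mul _ u2]; exact psd_smul h1 ei)
    (by rw [C2.cHess_const_mul _ v2]; exact psd_smul h2 ei)
  have e1 : (fun x => u x + e * Gc ((v x - u x) / e)) =
      fun x => e * (e⁻¹ * u x + Gc (e⁻¹ * v x - e⁻¹ * u x)) := by
    funext x
    rw [mul_add, mul_inv_cancel_left₀ he.ne', ← mul_sub, div_eq_inv_mul]
  have g2 : ContDiffAt ℝ 2 (fun x => e⁻¹ * u x + Gc (e⁻¹ * v x - e⁻¹ * u x)) z :=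
    a2.add (((contDiff_Gc.of_le two_le).contDiffAt).comp z (b2.sub a2))
  rw [e1, C2.cHess_const_mul e g2]
  exact psd_smul h3 he.le

end loc

variable {N : ℕ} {Γ M : Type} [Group Γ] [TopologicalSpace M] [MulAction Γ M] {C : Cov N Γ M}

theorem mD_zero (X : Fin N → C.Fm) (k : Fin N) {H : C.Fm} {y : M}
    (h : H (C.ch₀ y).1 (C.ch₀ y).2.1 (C.ch₀ y).2.2 = 0) : C.mD (update X k H) y = 0 := by
  rw [Cov.mD, JGx.upd, h, MD_update_zero, zero_div]

theorem ev_ch {y : M} {P : M → Prop} (h : ∀ᶠ x in 𝓝 y, P x) :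
    ∀ᶠ w in 𝓝 (C.ch₀ y).2.2, P (C.pt (C.ch₀ y).1 (C.ch₀ y).2.1 w) :=
  JGx.ev_pt (JGx.ch₀_spec y).1 (by rwa [(JGx.ch₀_spec y).2])

theorem stokes [Countable Γ] [T2Space M] [MeasurableSpace M] [BorelSpace M] {μ : Measure M}
    (hμ : C.Vol μ) (pa : PA C μ) (pc : PC C) {D K : Set M} {u v : M → ℝ} (hD : IsOpen D)
    (hK : IsCompact K) (hKD : K ⊆ D) (hs : ∀ y ∈ D, C.SmAt u y ∧ C.SmAt v y)
    (h0 : ∀ y ∈ D, y ∉ K → u y = v y) : ∫ y in K, ma C u y ∂μ = ∫ y in K, ma C v y ∂μ := by
  obtain ⟨χ, c1, -, c2, K', c3, c4, c5⟩ := pc.cut K D hK hD hKD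
  set f : M → ℝ := fun x => v x - u x with hf
  have f1 : ∀ y ∈ D, y ∉ K → ∀ᶠ x in 𝓝 y, f x = 0 := fun y hy hyK => by
    filter_upwards [hD.mem_nhds hy, hK.isClosed.isOpen_compl.mem_nhds hyK] with x h1 h2
    simp only [hf, h0 x h1 h2, sub_self]
  have x1 : ∀ y ∈ K, ∀ᶠ x in 𝓝 y, χ x = 1 := fun y hy => c2.filter_mono (nhds_le_nhdsSet hy)
  have x0 : ∀ y ∉ D, ∀ᶠ x in 𝓝 y, χ x = 0 := fun y hy => by
    filter_upwards [c3.isClosed.isOpen_compl.mem_nhds fun h => hy (c4 h)] with x hx using c5 x hx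
  have key : ∀ k : Fin N, IntegrableOn (fun y => (C.mD (update
      (fun i => if i < k then C.om 1 v else C.om 1 u) k (C.om 0 f)) y).re) K μ ∧
      ∫ y in K, (C.mD (update (fun i => if i < k then C.om 1 v else C.om 1 u) k
        (C.om 0 f)) y).re ∂μ = 0 := fun k => by
    set X : Fin N → C.Fm := fun i => if i < k then C.om 1 v else C.om 1 u with hX
    obtain ⟨i1, -, e⟩ := (jg C).ibp μ hμ D K' X k f χ hD c3 c4
      (fun i _ => by
        simp only [hX]
        split_ifs
        exacts [(jg C).cf_om 1 v D hD fun y hy => (hs y hy).2,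
          (jg C).cf_om 1 u D hD fun y hy => (hs y hy).1])
      (fun y hy => ⟨sm_sub (hs y hy).2 (hs y hy).1, c1 y⟩) c5
    have e1 : ∀ y, C.mD (update X k (C.gg χ f)) y = 0 := fun y => by
      refine mD_zero X k ?_
      by_cases hy : y ∈ D
      · by_cases hyK : y ∈ K
        · exact gg_zero (c := 1) (Or.inl (ev_ch (P := fun x => χ x = 1) (x1 y hyK)))
        · exact gg_zero (c := 0) (Or.inr (ev_ch (P := fun x => f x = 0) (f1 y hy hyK)))
      · exact gg_zero (c := 0) (Or.inl (ev_ch (P := fun x => χ x = 0) (x0 y hy)))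
    have e2 : (fun y => χ y * (C.mD (update X k (C.om 0 f)) y).re) =
        K.indicator fun y => (C.mD (update X k (C.om 0 f)) y).re := by
      funext y
      by_cases hyK : y ∈ K
      · rw [indicator_of_mem hyK, (x1 y hyK).self_of_nhds, one_mul]
      · rw [indicator_of_notMem hyK]
        by_cases hy : y ∈ D
        · rw [mD_zero X k, Complex.zero_re, mul_zero]
          rw [Cov.om, C2.cHess_congr (v := fun _ => 0), C2.cHess_const]
          filter_upwards [ev_ch (C := C) (P := fun x => f x = 0) (f1 y hy hyK)] with w hw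
          rw [hw, zero_mul, add_zero]
        · rw [(x0 y hy).self_of_nhds, zero_mul]
    simp only [e1, Complex.zero_re, integral_zero, neg_zero] at e
    rw [e2] at i1 e
    rw [integral_indicator hK.measurableSet] at e
    exact ⟨(integrable_indicator_iff hK.measurableSet).1 i1, e⟩
  have ci : ∀ w : M → ℝ, (∀ y ∈ D, C.SmAt w y) → IntegrableOn (ma C w) K μ := fun w hw =>
    pa.int_cpt K _ hK ((pa.ma_cont w D hD hw).mono hKD)
  have h1 : ∫ y in K, (N.factorial : ℝ) * (ma C v y - ma C u y) ∂μ = 0 := by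
    rw [setIntegral_congr_fun hK.measurableSet
      (fun y hy => pa.tele u v y (hs y (hKD hy)).1 (hs y (hKD hy)).2),
      integral_finsetSum _ fun k _ => (key k).1]
    exact Finset.sum_eq_zero fun k _ => (key k).2
  rw [integral_const_mul, integral_sub (ci v fun y hy => (hs y hy).2)
    (ci u fun y hy => (hs y hy).1), mul_eq_zero] at h1
  linarith [h1.resolve_left (Nat.cast_ne_zero.2 N.factorial_ne_zero)]

end Mc

open Mc

theorem stM : StM := by
  intro N Γ M _ _ _ _ _ _ _ _ C μ _ _ hμ pa pc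
  refine ⟨fun D K u v hD hK hKD hs h0 => stokes hμ pa pc hD hK hKD hs h0,
    fun D K a b hD hK hKD hab hs => ?_⟩
  exact mc_abs μ (ma C) (OP C) hD hK hKD
    (fun u hu => ⟨contOn_of_sm fun y hy => (hu y hy).1, pa.ma_cont u D hD fun y hy => (hu y hy).1⟩)
    (fun u v y c hv h => ⟨pa.op_congr u v y c h hv, pa.ma_congr u v y c h⟩) pa.ma_nonneg
    pa.op_glue pa.int_cpt
    (fun L u v hL hLD h h0 => stokes hμ pa pc hD hL hLD
      (fun y hy => ⟨(h y hy).1.1, (h y hy).2.1⟩) h0) hab hs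

theorem pl : PL := by
  refine ⟨fun k D K u v hD hK hKD hu hv h0 => stokes_loc hD hK hKD hu hv h0,
    fun k D K a b hD hK hKD ha hb hp hs => ?_⟩
  refine mc_abs volume (fun u z => (cHess u z).det.re)
    (fun u z => ContDiffAt ℝ ∞ u z ∧ (cHess u z).PosSemidef) hD hK hKD
    (fun u hu => ⟨Sm.cont fun z hz => (hu z hz).1, int_loc fun z hz => (hu z hz).1⟩)
    (fun u v z c hv h => ?_) (fun u z hu => (Complex.le_def.1 hu.2.det_nonneg).1)
    (fun u v z e he hu hv => glue_loc he hu.1 hv.1 hu.2 hv.2)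
    (fun L f hL hf => hf.integrableOn_compact hL)
    (fun L u v hL hLD h h0 => stokes_loc hD hL hLD (fun z hz => (h z hz).1.1)
      (fun z hz => (h z hz).2.1) h0)
    (fun z hz => ⟨⟨ha z hz, (hp z hz).1⟩, hb z hz, (hp z hz).2⟩) hs
  have e : cHess u z = cHess v z := by
    rw [C2.cHess_congr (v := fun x => v x + c) h,
      C2.cHess_add (hv.1.of_le two_le) contDiffAt_const, C2.cHess_const, add_zero]
  exact ⟨⟨(hv.1.add contDiffAt_const).congr_of_eventuallyEq h, e ▸ hv.2⟩, by rw [e]⟩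

end Vale.Agent.P284Y.P
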