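import Vale.Agent.P284Y.P.Sk

/-!
# P284Y, block P, row N: the total mass
-/

open Filter Set Function MeasureTheory Real

noncomputable section

namespace Vale.Agent.P284Y.P

open Vale.Agent.P284Z

theorem stN : StN := by
  intro N G M _ _ _ _ _ _ _ _ C μ h0 hB hμ a m v r
  have i1 : ∀ ν, Dens C ν → Integrable (fun y => exp (phi C ν y) * ν y) μ := fun ν hν =>
    a.dens_int ν hν _ (continuous_exp.comp (v.cont ν hν))
  have i2 : ∀ ν, Dens C ν → Integrable (fun y => 1 - exp (phi C ν y)) μ := by
    intro ν hν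
    have s := v.sol ν hν
    have c : Continuous fun y => 1 - exp (phi C ν y) :=
      continuous_const.sub (continuous_exp.comp (v.cont ν hν))
    have p : ∀ y, 0 ≤ 1 - exp (phi C ν y) := fun y => sub_nonneg.2 (exp_le_one_iff.2 (s.nonpos y))
    have key : ∀ e > (0 : ℝ), ∫⁻ y in {y | phi C ν y < -e}, ‖1 - exp (phi C ν y)‖ₑ ∂μ ≤
        ENNReal.ofReal (∫ y, exp (phi C ν y) * ν y ∂μ) := fun e he => by
      obtain ⟨K, hK, h⟩ := s.decay e he
      obtain ⟨-, m2, m3, m4⟩ := m.mc univ K (fun _ => -e) (phi C ν) isOpen_univ hK (subset_univ _)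
        (fun y _ => ⟨a.op_const _ y, a.op_sol ν _ y s⟩)
        fun y _ hy => by_contra fun hn => hy.not_ge (h y hn)
      simp only [mem_univ, true_and] at m2 m3 m4
      have e1 : (fun y => 1 - exp (phi C ν y)) = fun y => ma C (fun _ => -e) y -
          ma C (phi C ν) y + exp (phi C ν y) * ν y := funext fun y => by
        rw [a.ma_zero, s.eq]
        ring
      have j1 := (i1 ν hν).integrableOn (s := {y | phi C ν y < -e})
      have j2 : IntegrableOn (fun y => 1 - exp (phi C ν y)) {y | phi C ν y < -e} μ := by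
        rw [e1]
        exact (m2.sub m3).add j1
      rw [← ofReal_integral_norm_eq_lintegral_enorm j2]
      refine ENNReal.ofReal_le_ofReal ?_
      simp only [Real.norm_of_nonneg (p _)]
      rw [e1, integral_add (f := fun y => ma C (fun _ => -e) y - ma C (phi C ν) y) (m2.sub m3) j1,
        integral_sub m2 m3]
      have j3 := setIntegral_le_integral (s := {y | phi C ν y < -e}) (i1 ν hν)
        (Eventually.of_forall fun y => mul_nonneg (exp_pos _).le (hν.nonneg y))
      linarith
    refine (integrableOn_iff_integrable_of_support_subset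
      (s := ⋃ j : ℕ, {y | phi C ν y < -(1 / (j + 1 : ℝ))}) fun y hy => ?_).1
      ⟨c.aestronglyMeasurable, ?_⟩
    · have h1 : phi C ν y < 0 := lt_of_le_of_ne (s.nonpos y) fun e => hy (by simp [e])
      obtain ⟨j, hj⟩ := exists_nat_one_div_lt (neg_pos.2 h1)
      exact mem_iUnion.2 ⟨j, lt_neg.1 hj⟩
    · rw [HasFiniteIntegral, setLIntegral_iUnion_of_directed
        (s := fun j : ℕ => {y | phi C ν y < -(1 / (j + 1 : ℝ))}) _ (Monotone.directed_le
        fun i j hij y (hy : phi C ν y < _) => show phi C ν y < _ from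
          hy.trans_le (neg_le_neg (Nat.one_div_le_one_div hij)))]
      exact (iSup_le fun j => key _ Nat.one_div_pos_of_nat).trans_lt ENNReal.ofReal_lt_top
  have gd : ∀ ν, Dens C ν → Gd C μ (phi C ν) := by
    intro ν hν
    have s := v.sol ν hν
    obtain ⟨B, hb⟩ := s.bd
    have hb1 : B2 C 1 (phi C ν) B := fun γ b z hz => hb γ b z (C.B_mono (by norm_num) b hz)
    refine ⟨s.sm, ((i2 ν hν).const_mul (exp B)).mono' (v.cont ν hν).aestronglyMeasurable
      (Eventually.of_forall fun y => ?_), B, hb1⟩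
    obtain ⟨γ, b, z, hz, rfl⟩ := C.exists_pt y
    have h1 := (abs_le.1 (hb1 γ b z hz).1).1
    have h2 := s.nonpos (C.pt γ b z)
    generalize phi C ν (C.pt γ b z) = t at h1 h2
    rw [Real.norm_of_nonpos h2]
    have h3 : exp (-t) * exp t = 1 := by rw [← exp_add, neg_add_cancel, exp_zero]
    nlinarith [add_one_le_exp (-t), mul_le_mul_of_nonneg_right (exp_le_exp.2 (neg_le.1 h1))
      (sub_nonneg.2 (exp_le_one_iff.2 h2))]
  refine ⟨gd, i2, fun ν hν => ?_⟩
  have e1 : (fun y => ma C (phi C ν) y - 1) =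
      fun y => exp (phi C ν y) * ν y - (1 - exp (phi C ν y)) := funext fun y => by
    rw [(v.sol ν hν).eq]
    ring
  have h := r.tot _ (gd ν hν) (e1 ▸ (i1 ν hν).sub (i2 ν hν))
  rw [e1, integral_sub (i1 ν hν) (i2 ν hν)] at h
  linarith

end Vale.Agent.P284Y.P
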