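import Vale.Agent.P284Y.P.PshN

/-!
# P284Y, block P, row S: the energy is plurisubharmonic along holomorphic families
-/

set_option maxSynthPendingDepth 3
set_option linter.all false

open scoped ContDiff Topology ComplexOrder ComplexConjugate
open Filter Set Metric Function Matrix MeasureTheory Real

noncomputable section

namespace Vale.Agent.P284Y.Ps

open Vale.Agent.P272.K Vale.Agent.P284.H650 Vale.Agent.P284Z J L P

variable {N : ℕ} {W : Type} [NormedAddCommGroup W] [NormedSpace ℂ W] [NormedSpace ℝ W]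
  [IsScalarTower ℝ ℂ W] {x : W} {Γ M : Type} [Group Γ] [TopologicalSpace M] [T2Space M]
  [MulAction Γ M] [MeasurableSpace M] [BorelSpace M] {C : Cov N Γ M} {μ : Measure M} {Q : Pat N M}

omit [NormedSpace ℝ W] [IsScalarTower ℝ ℂ W] in
theorem tend_e4 (x : W) (l : Fin 4) : Tendsto (fun w : W => x + e4 l • w) (𝓝 0) (𝓝 x) :=
  (show Continuous fun w : W => x + e4 l • w by fun_prop).tendsto' 0 x (by simp)

theorem one_term {c : W → Cm N} {A : W → Mx N} {h : W → ℂ} {i : Q.ι} {k : Cm N → ℝ}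
    {Λ : Fin N → ℝ} {ν φ : M → ℝ} {t : W → M → ℝ} (hc : AnalyticAt ℂ c x)
    (hA : ∀ a b, AnalyticAt ℂ (fun θ => A θ a b) x) (hh : AnalyticAt ℂ h x) (hQ : Q.Ok)
    (pg : PG Q μ) (hT : TQ C Q) (hk : Ker k) (hI : ∀ᶠ θ in 𝓝 x, Q.In i (c θ) (A θ))
    (hΛ : ∀ u : Cm N, ‖u‖ ≤ 1 → (Matrix.diagonal (fun a => (Λ a : ℂ)) -
      cHess (Q.ρ i) (c x + A x *ᵥ u)).PosSemidef)
    (ht : ∀ θ, t θ = exp (2 * (h θ).re) • Q.pm i (c θ) (A θ) k) (hν : Dens C ν) (hs : Sol C ν φ)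
    (k₀ : Fin N) {η : ℝ} (hη : 0 < η) : ∃ c₀ < (1 : ℝ), ∃ ε > (0 : ℝ), ∀ᶠ w in 𝓝 (0 : W),
      ∀ c' ≥ c₀, ∀ φ' : Fin 4 → M → ℝ, (∀ l y, C.SmAt (φ' l) y) →
      (∀ l, B2 C 3 (fun y => φ' l y - φ y) ε) →
      ∫ y, ((1 + (∑ l, (φ' l y - φ y)) / 4) * exp (φ y) - c' * (N / N.factorial) *
          (qq C φ (fun l y => φ' l y - φ y) k₀ y / (1 + ν y))) * t x y ∂μ -
        (levi (cor Λ c A) x w / 4 + η * ‖w‖ ^ 2) * ∫ y, exp (φ y) * t x y ∂μ ≤
      (∑ l, ∫ y, exp (φ' l y) * t (x + e4 l • w) y ∂μ) / 4 := by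
  have h0 := hI.self_of_nhds
  obtain ⟨δ₀, h1, K, h2, h3, h4, -⟩ := tube hc hA (hQ.opn i) h0.2
  obtain ⟨L, h5, h6⟩ := hT.b2 i K h2 h3
  have sm : ∀ {f : M → ℝ}, (∀ y, C.SmAt f y) → ∀ z ∈ Q.U i,
      ContDiffAt ℝ 2 (fun w => f (Q.pt i w)) z :=
    fun hf z hz => ((hT.sm _ _).2 (hf _) i z hz rfl).of_le two_le
  have ct : ∀ {f : M → ℝ}, (∀ y, C.SmAt f y) → Continuous f :=
    fun hf => continuous_iff_continuousAt.2 fun y => JGx.sm_cont (hf y)
  obtain ⟨c₀, h7, ε, h8, δ, h9, h10⟩ := pt_two (T := TT c A) (ρ := Q.ρ i)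
    (f := fun w => φ (Q.pt i w)) (isCompact_closedBall (0 : Cm N) 1) (fun u _ => an_TT hc hA u) hh
    (fun u hu => have := h0.2 u (mem_closedBall_zero_iff.1 hu)
      ⟨(hQ.ρ_sm i _ this).of_le two_le, sm hs.sm _ this, hT.pos ν φ hs i _ this⟩) k₀ h1 hη
  refine ⟨c₀, h7.2, ε / (L + 1), by positivity, ?_⟩
  filter_upwards [ball_mem_nhds 0 h9, eventually_all.2 fun l => (tend_e4 x l).eventually hI]
    with w hw hw' c' hc' φ' s1 s2
  have s3 : ∀ l y, C.SmAt (fun y => φ' l y - φ y) y := fun l y => sm_sub (s1 l y) (hs.sm y)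
  have I : ∀ θ {F : M → ℝ}, Q.In i (c θ) (A θ) → Continuous F → ∫ y, F y * t θ y ∂μ =
      ∫ u, exp (2 * (h θ).re) * (F (Q.pt i (c θ + A θ *ᵥ u)) * k u) := fun θ F a b => by
    rw [integral_const_mul, ← pg.pm_int i _ _ k F hk a b, ← integral_const_mul, ht]
    simp only [Pi.smul_apply, smul_eq_mul, mul_left_comm]
  have c1 := ct hs.sm
  have c2 := fun l => ct (s1 l)
  have c3 : Continuous fun y => (1 + (∑ l, (φ' l y - φ y)) / 4) * exp (φ y) -
      c' * (N / N.factorial) * (qq C φ (fun l y => φ' l y - φ y) k₀ y / (1 + ν y)) :=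
    Continuous.sub (by fun_prop) (continuous_const.mul ((qq_cont s3 hs.sm k₀).div
      (continuous_const.add (ct hν.sm)) fun y => by linarith [hν.nonneg y]))
  have i1 := (pm_intg pg hk h0 c3).const_mul (exp (2 * (h x).re))
  have i2 := ((pm_intg pg hk h0 c1.rexp).const_mul (exp (2 * (h x).re))).const_mul
    (levi (cor Λ c A) x w / 4 + η * ‖w‖ ^ 2)
  have i3 := fun l => (pm_intg pg hk (hw' l) (c2 l).rexp).const_mul
    (exp (2 * (h (x + e4 l • w)).re))
  rw [I x h0 c3, I x h0 c1.rexp, Finset.sum_congr rfl fun l _ => I _ (hw' l) (c2 l).rexp,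
    ← integral_const_mul, ← integral_sub i1 i2, ← integral_finsetSum _ fun l _ => i3 l,
    ← integral_div]
  refine integral_mono (i1.sub i2) ((integrable_finsetSum _ fun l _ => i3 l).div_const 4)
    fun u => ?_
  by_cases k0 : k u = 0
  · simp [k0]
  have hu := hk.2.2 u k0
  have hz := h0.2 u hu
  have b1 := h10 w (mem_ball_zero_iff.1 hw) u (mem_closedBall_zero_iff.2 hu)
    (fun l w => φ' l (Q.pt i w) - φ (Q.pt i w)) fun l y hy => by
      obtain ⟨-, d1, d2⟩ := h6 _ _ (s3 l) (fun γ a z hz => s2 l γ a z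
        (C.B_mono (by norm_num) a hz)) y (h4 u hu hy)
      have d3 : L * (ε / (L + 1)) ≤ ε := by
        rw [mul_div_assoc', div_le_iff₀ (by positivity)]
        linarith
      exact ⟨sm (s3 l) y (h3 (h4 u hu hy)), d1.trans d3, d2.trans d3⟩
  have b2 := qf_le_cor hc hA (hQ.ρ_pos i _ hz).posSemidef (hΛ u hu) hu w
  have b3 := qq_patch s3 hT hs.sm k₀ i hz
  have b4 := pg.ma_pt φ i _ hz (sm hs.sm _ hz)
  have b5 := (pg.vol_pos i _ hz).1
  have b6 := hν.nonneg (Q.pt i (c x + A x *ᵥ u))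
  rw [hT.ma _ _ (hs.sm _), hs.eq, eq_div_iff b5.ne'] at b4
  have b7 := qq_nonneg s3 (fun y => ⟨hs.sm y, (hT.psd φ y (hs.sm y)).1 fun j z hz _ =>
    (hT.pos ν φ hs j z hz).posSemidef⟩) k₀ (Q.pt i (c x + A x *ᵥ u))
  simp only [TT] at b1 b2
  change _ - c₀ * _ * (sl (fun _ => Q.om φ i _) _ _ / (Q.om φ i _).det.re) ≤ _ at b1
  rw [← b4, (eq_div_iff b5.ne').1 b3 |>.symm] at b1
  set q := qq C φ (fun l y => φ' l y - φ y) k₀ (Q.pt i (c x + A x *ᵥ u))
  set y₀ := Q.pt i (c x + A x *ᵥ u)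
  set E := exp (φ y₀) with hE
  have e0 : 0 < E := exp_pos _
  have b8 : q * Q.vol i (c x + A x *ᵥ u) / (E * (1 + ν y₀) * Q.vol i (c x + A x *ᵥ u)) =
      q / (1 + ν y₀) / E := by
    field_simp
  have b9 : c₀ * (N / N.factorial) * (q / (1 + ν y₀) / E) ≤
      c' * (N / N.factorial) * (q / (1 + ν y₀) / E) :=
    mul_le_mul_of_nonneg_right (mul_le_mul_of_nonneg_right hc' (by positivity)) (by positivity)
  have b10 := Finset.sum_le_sum fun l (_ : l ∈ Finset.univ) => (show exp (2 * (h x).re) * E * k u *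
      (φ' l (Q.pt i (c (x + e4 l • w) + A (x + e4 l • w) *ᵥ u)) + 2 * (h (x + e4 l • w)).re -
        (φ y₀ + 2 * (h x).re) + 1) ≤ exp (2 * (h (x + e4 l • w)).re) *
        (exp (φ' l (Q.pt i (c (x + e4 l • w) + A (x + e4 l • w) *ᵥ u))) * k u) by
    refine (mul_le_mul_of_nonneg_left (add_one_le_exp _)
      (mul_nonneg (by positivity) (hk.2.1 u))).trans_eq ?_
    rw [exp_sub, exp_add, exp_add, ← hE]
    field_simp)
  rw [b8] at b1
  refine le_trans ?_ (div_le_div_of_nonneg_right b10 four_pos.le)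
  have b11 : 0 ≤ exp (2 * (h x).re) * E * k u := mul_nonneg (by positivity) (hk.2.1 u)
  have b12 : ∀ a, a * (q / (1 + ν y₀)) = E * (a * (q / (1 + ν y₀) / E)) := fun a => by
    field_simp
  simp only [Fin.sum_univ_four] at b1 ⊢
  rw [b12]
  nlinarith [mul_le_mul_of_nonneg_left (add_le_add (add_le_add b1 b2) b9) b11]

theorem sum_terms (hA : PA C μ) {J : Type} [Fintype J] {ν₀ φ q : M → ℝ} {t : J → M → ℝ}
    {φ' : Fin 4 → M → ℝ} {b : ℝ} (h0 : Dens C ν₀) (ht : ∀ j, Dens C (t j)) (c1 : Continuous φ)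
    (c2 : ∀ l, Continuous (φ' l)) (c3 : Continuous q) (hq : ∀ y, 0 ≤ q y) (iq : Integrable q μ)
    (hb : 0 ≤ b) :
    ∫ y, (1 + (∑ l, (φ' l y - φ y)) / 4) * exp (φ y) * (ν₀ + ∑ j, t j) y ∂μ - b * ∫ y, q y ∂μ ≤
      (∑ l, ∫ y, exp (φ' l y) * ν₀ y ∂μ) / 4 + ∑ j, ∫ y, ((1 + (∑ l, (φ' l y - φ y)) / 4) *
        exp (φ y) - b * (q y / (1 + (ν₀ + ∑ j, t j) y))) * t j y ∂μ := by
  have p0 : ∀ y, 0 ≤ ∑ j, t j y := fun y => Finset.sum_nonneg fun j _ => (ht j).nonneg y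
  have c4 := (hA.dens_bd _ h0).1
  have c5 := fun j => (hA.dens_bd _ (ht j)).1
  have c6 : Continuous fun y => (1 + (∑ l, (φ' l y - φ y)) / 4) * exp (φ y) := by fun_prop
  simp only [Pi.add_apply, Finset.sum_apply]
  have i1 : Integrable (fun y => (1 + (∑ l, (φ' l y - φ y)) / 4) * exp (φ y) *
      (ν₀ y + ∑ j, t j y)) μ := by
    simp only [mul_add _ (ν₀ _), Finset.mul_sum]
    exact (hA.dens_int _ h0 _ c6).add (integrable_finsetSum _ fun j _ => hA.dens_int _ (ht j) _ c6)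
  have i2 := fun l => hA.dens_int _ h0 _ (c2 l).rexp
  have i3 := fun j => hA.dens_int _ (ht j) _ (c6.sub ((continuous_const (y := b)).mul
    (c3.div (g := fun y => 1 + (ν₀ y + ∑ j, t j y)) (by fun_prop)
      fun y => by linarith [h0.nonneg y, p0 y])))
  have i4 := (integrable_finsetSum Finset.univ fun l _ => i2 l).div_const 4
  have i5 := integrable_finsetSum Finset.univ fun j _ => i3 j
  have := integral_mono (i1.sub (iq.const_mul b)) (i4.add i5) fun y => by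
    have a1 : ∀ l, (1 + (φ' l y - φ y)) * exp (φ y) * ν₀ y ≤ exp (φ' l y) * ν₀ y := fun l => by
      have := add_one_le_exp (φ' l y - φ y)
      rw [exp_sub, le_div_iff₀ (exp_pos _), add_comm] at this
      exact mul_le_mul_of_nonneg_right this (h0.nonneg y)
    have a2 : q y / (1 + (ν₀ y + ∑ j, t j y)) * ∑ j, t j y ≤ q y := by
      have := h0.nonneg y
      have := p0 y
      rw [div_mul_eq_mul_div, div_le_iff₀ (by positivity)]
      exact mul_le_mul_of_nonneg_left (by linarith) (hq y)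
    simp only [Pi.add_apply, Pi.sub_apply, Pi.mul_apply, Pi.div_apply, ← Finset.mul_sum,
      Fin.sum_univ_four]
    nlinarith [a1 0, a1 1, a1 2, a1 3, mul_le_mul_of_nonneg_left a2 hb]
  rwa [integral_sub' i1 (iq.const_mul b), integral_add' i4 i5, integral_const_mul, integral_div,
    integral_finsetSum _ fun l _ => i2 l, integral_finsetSum _ fun j _ => i3 j] at this

end Vale.Agent.P284Y.Ps

namespace Vale.Agent.P284Y.P

open Vale.Agent.P272.K Vale.Agent.P284.H650 Vale.Agent.P284Z J L Ps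

theorem stS : StS := by
  intro N Γ M _ _ _ _ _ _ _ _ C μ h0 hB hμ hA hV hN hR hE hP hS Q hQ pg hT W _ _ _ O J _ ν₀ i k c A
    h Λ m t ν hO h₀ hk han hI ht hν hm
  have dt : ∀ j, ∀ θ ∈ O, Q.Dens (t j θ) := fun j θ hθ => ht j θ ▸
    pg.dens_smul _ _ (exp_pos _).le (pg.pm_dens _ _ _ _ (hk j) (hI j θ hθ).1)
  have dt' := fun j θ hθ => (hT.dens _).1 (dt j θ hθ)
  have dν : ∀ θ ∈ O, Dens C (ν θ) := fun θ hθ => (hT.dens _).1 (hν θ ▸
    pg.dens_add _ _ h₀ (pg.dens_sum J _ _ fun j _ => dt j θ hθ))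
  have d0 := (hT.dens _).1 h₀
  have evI : ∀ j, ∀ x ∈ O, ∀ᶠ θ in 𝓝 x, Q.In (i j) (c j θ) (A j θ) := fun j x hx =>
    mem_of_superset (hO.mem_nhds hx) fun θ hθ => (hI j θ hθ).1
  have fam : ∀ x ∈ O, ∃ K, IsCompact K ∧ (∀ᶠ θ in 𝓝 x, ∀ y ∉ K, ν θ y = 0) ∧
      ∀ γ a, ∀ z ∈ C.B 4 a,
        ContDiffAt ℝ ∞ (fun p : W × Cm N => ν p.1 (C.pt γ a p.2)) (x, z) := fun x hx => by
    choose K a1 a2 a3 using fun j => joint ((han j).1 x hx) (fun a b => (han j).2.1 a b x hx) hQ pg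
      hT (hk j) ((han j).2.2 x hx) (evI j x hx)
    obtain ⟨K₀, a4, a5⟩ := d0.cpt
    refine ⟨K₀ ∪ ⋃ j, K j, a4.union (isCompact_iUnion a1), ?_, fun γ a z hz => ?_⟩
    · filter_upwards [eventually_all.2 a2] with θ b y hy
      simp only [mem_union, mem_iUnion, not_or, not_exists] at hy
      simp [hν, ht, a5 y hy.1, b _ y (hy.2 _)]
    · simp only [hν, ht, Pi.add_apply, Finset.sum_apply, Pi.smul_apply, smul_eq_mul]
      exact (ContDiffAt.comp (x, z) (g := fun w => ν₀ (C.pt γ a w)) (d0.sm _ γ a z hz rfl)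
        contDiffAt_snd).add (ContDiffAt.sum fun j _ => a3 j γ a z hz)
  have cG : ContinuousOn (fun θ => GG C μ (ν θ)) O := fun x hx => by
    obtain ⟨K, a1, a2, a3⟩ := fam x hx
    refine ContinuousAt.continuousWithinAt (tendsto_iff_norm_sub_tendsto_zero.2 (squeeze_zero'
      (Eventually.of_forall fun _ => norm_nonneg _) ?_
      (int_small pg a1 a2 fun γ a z hz => (a3 γ a z hz).continuousAt)))
    exact mem_of_superset (hO.mem_nhds hx) fun θ hθ => hP.lip _ _ (dν x hx) (dν θ hθ)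
  have cl := fun j x hx => cor_levi ((han j).1 x hx) (fun a b => (han j).2.1 a b x hx) (Λ j)
  have cm := fun j x hx => (contDiffAt_const (c := m j)).mul (cl j x hx).1
  have cs := fun x hx => ContDiffAt.sum fun j (_ : j ∈ Finset.univ) => cm j x hx
  refine ⟨cG, four_psh (H := fun θ => GG C μ (ν θ) + ∑ j, m j * cor (Λ j) (c j) (A j) θ) hO
    (cG.add fun x hx => (cs x hx).continuousAt.continuousWithinAt) fun x hx η hη => ?_⟩
  obtain ⟨K, a1, a2, a3⟩ := fam x hx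
  have so := hV.sol _ (dν x hx)
  have st := hS W ν x K a1 (dν x hx) (Eventually.and (mem_of_superset (hO.mem_nhds hx) dν) a2) a3
  have m0 : ∀ j, 0 ≤ ∫ y, exp (phi C (ν x) y) * t j x y ∂μ := fun j =>
    integral_nonneg fun y => mul_nonneg (exp_pos _).le ((dt j x hx).nonneg y)
  have m1 : 0 ≤ ∑ j, m j := Finset.sum_nonneg fun j _ => (m0 j).trans (hm j x hx)
  choose c₀ b1 ε b2 b3 using fun j => one_term ((han j).1 x hx) (fun a b => (han j).2.1 a b x hx)
    ((han j).2.2 x hx) hQ pg hT (hk j) (evI j x hx) (hI j x hx).2 (ht j) (dν x hx) so ⟨0, h0⟩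
    (η := η / 2 / (∑ j, m j + 1)) (by positivity)
  obtain ⟨θ, ⟨b4, b5⟩, b6⟩ := (((eventually_all.2 fun j => ((continuous_pow (N - 1)).tendsto' 1 1
    (one_pow _)).eventually (le_mem_nhds (b1 j))).and (le_mem_nhds zero_lt_one)).filter_mono
    (nhdsWithin_le_nhds (s := Iio (1 : ℝ)))).and self_mem_nhdsWithin |>.exists
  obtain ⟨δ, b7, b8⟩ := near_psd hB so b6
  obtain ⟨δ', b9, b10⟩ := four_unif (isCompact_singleton (x := x))
    (fun y hy => cs y (hy ▸ hx)) (half_pos hη)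
  filter_upwards [eventually_all.2 b3, ball_mem_nhds 0 b9, eventually_all.2 fun l =>
    (tend_e4 x l).eventually ((st δ b7).and ((eventually_all.2 fun j => st (ε j) (b2 j)).and
      (hO.mem_nhds hx)))] with w e1 e2 e3
  have dl := fun l => dν _ (e3 l).2.2
  have sl := fun l => (hV.sol _ (dl l)).sm
  obtain ⟨f1, f2⟩ := g_four hA hV hN hR hE (dν x hx) dl ⟨b5, le_of_lt b6⟩ le_rfl
    (fun l => b8 _ (sl l) (e3 l).1) ⟨0, h0⟩
  have f3 := Finset.sum_le_sum fun j (_ : j ∈ Finset.univ) =>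
    e1 j _ (b4 j) _ sl fun l => (e3 l).2.1 j
  have s3 := fun l y => sm_sub (sl l y) (so.sm y)
  have f4 := sum_terms hA d0 (fun j => dt' j x hx) (hV.cont _ (dν x hx)) (fun l => hV.cont _ (dl l))
    (qq_cont s3 so.sm ⟨0, h0⟩) (qq_nonneg s3 (fun y => hA.op_sol _ _ y so) _) f1
    (b := θ ^ (N - 1) * (N / N.factorial)) (by positivity)
  have f5 := b10 x rfl w (mem_ball_zero_iff.1 e2)
  have f6 : ∀ l, ∫ y, exp (phi C (ν (x + e4 l • w)) y) * ν (x + e4 l • w) y ∂μ =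
      ∫ y, exp (phi C (ν (x + e4 l • w)) y) * ν₀ y ∂μ +
        ∑ j, ∫ y, exp (phi C (ν (x + e4 l • w)) y) * t j (x + e4 l • w) y ∂μ := fun l => by
    have i1 := fun j => hA.dens_int _ (dt' j _ (e3 l).2.2) _ (hV.cont _ (dl l)).rexp
    rw [← integral_finsetSum _ fun j _ => i1 j, ← integral_add
      (hA.dens_int _ d0 _ (hV.cont _ (dl l)).rexp) (integrable_finsetSum _ fun j _ => i1 j)]
    congr 1
    funext y
    rw [← Finset.mul_sum, ← mul_add, congrFun (hν (x + e4 l • w)) y, Pi.add_apply, Finset.sum_apply]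
  have f7 : ∑ j, (levi (cor (Λ j) (c j) (A j)) x w / 4 + η / 2 / (∑ j, m j + 1) * ‖w‖ ^ 2) *
      ∫ y, exp (phi C (ν x) y) * t j x y ∂μ ≤
      (∑ j, m j * levi (cor (Λ j) (c j) (A j)) x w) / 4 + η / 2 * ‖w‖ ^ 2 := by
    refine (Finset.sum_le_sum fun j _ => mul_le_mul_of_nonneg_left (hm j x hx) ?_).trans ?_
    · have p := (hQ.ρ_pos _ _ ((hI j x hx).1.2 0 (by simp))).posSemidef
      exact add_nonneg ((qf_nonneg p _).trans (qf_le_cor ((han j).1 x hx)
        (fun a b => (han j).2.1 a b x hx) p ((hI j x hx).2 0 (by simp)) (u := 0) (by simp) w))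
        (by positivity)
    · simp only [add_mul, Finset.sum_add_distrib, ← Finset.mul_sum, Finset.sum_div]
      refine add_le_add (le_of_eq (Finset.sum_congr rfl fun j _ => by ring)) ?_
      rw [mul_right_comm, div_mul_eq_mul_div, mul_div_assoc]
      exact mul_le_mul_of_nonneg_right (mul_le_of_le_one_right (half_pos hη).le
        (div_le_one_of_le₀ (by linarith) (by positivity))) (sq_nonneg _)
  rw [Lib.levi_sum _ fun j _ => cm j x hx,
    Finset.sum_congr rfl fun j _ => Lib.levi_const_mul (cl j x hx).1 (m j)] at f5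
  rw [← hν x] at f4
  rw [Finset.sum_sub_distrib, ← Finset.sum_div, Finset.sum_comm] at f3
  rw [Finset.sum_congr rfl fun l _ => f6 l, Finset.sum_add_distrib] at f2
  rw [Finset.sum_add_distrib]
  linarith

end Vale.Agent.P284Y.P
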