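import Vale.Agent.P284Y.P.Sk
import Vale.Agent.P284Y.Gen.PGBm
import Vale.Agent.P284Z.K.Bas

/-!
# P284Y, block P: smaller charts, and the volume of two compatible atlases
-/

open scoped ContDiff Topology ComplexOrder ENNReal Matrix
open Filter Set Function Metric MeasureTheory Real

noncomputable section

namespace Vale.Agent.P284Y.P

open Vale.Agent.P272.K Vale.Agent.P284.H650 Vale.Agent.P284Z J

namespace Shr

section vol

variable {N : ℕ} {M : Type} [TopologicalSpace M] {Q Q' : Pat N M}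

theorem inj (h : Q.Ok) (i : Q.ι) : InjOn (Q.pt i) (Q.U i) := fun z hz w hw e =>
  congrArg Subtype.val ((h.emb i).injective (a₁ := ⟨z, hz⟩) (a₂ := ⟨w, hw⟩) e)

theorem open_img (h : Q.Ok) (i : Q.ι) : IsOpen (Q.pt i '' Q.U i) := by
  convert (h.emb i).isOpen_range using 1
  ext y
  exact ⟨fun ⟨z, hz, e⟩ => ⟨⟨z, hz⟩, e⟩, fun ⟨z, e⟩ => ⟨z.1, z.2, e⟩⟩

theorem open_pre (h : Q.Ok) (i : Q.ι) {W : Set M} (hW : IsOpen W) :
    IsOpen (Q.U i ∩ Q.pt i ⁻¹' W) :=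
  (continuousOn_iff_continuous_domRestrict.2 (h.emb i).continuous).isOpen_inter_preimage (h.opn i) hW

/-- the change of variables between two patches -/
theorem change (h : Q.Ok) (h' : Q'.Ok) (t : Q.Tr Q') (i : Q.ι) (j : Q'.ι) (f : M → ℝ≥0∞) :
    ∫⁻ z in Q.U i ∩ Q.pt i ⁻¹' (Q'.pt j '' Q'.U j), f (Q.pt i z) * ENNReal.ofReal (Q.vol i z) =
      ∫⁻ w in Q'.U j ∩ Q'.pt j ⁻¹' (Q.pt i '' Q.U i),
        f (Q'.pt j w) * ENNReal.ofReal (Q'.vol j w) := by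
  set A := Q.U i ∩ Q.pt i ⁻¹' (Q'.pt j '' Q'.U j) with hA
  have hAo : IsOpen A := open_pre h i (open_img h' j)
  let Θ : Cm N → Cm N := fun z => invFunOn (Q'.pt j) (Q'.U j) (Q.pt i z)
  have h1 : ∀ z ∈ A, Θ z ∈ Q'.U j ∧ Q'.pt j (Θ z) = Q.pt i z := fun z hz => invFunOn_pos hz.2
  have h2 : ∀ z ∈ A, AnalyticAt ℂ Θ z ∧ Q.vol i z = ‖(jm Θ z).det‖ ^ 2 * Q'.vol j (Θ z) := by
    intro z hz
    obtain ⟨T, g, a1, a2, a3, a4⟩ := t i j z hz.1 _ (h1 z hz).1 (h1 z hz).2.symm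
    have a5 : T =ᶠ[𝓝 z] Θ := by
      filter_upwards [a4, hAo.mem_nhds hz,
        a1.continuousAt.eventually ((h'.opn j).mem_nhds (a3 ▸ (h1 z hz).1))] with w b1 b2 b3
      exact inj h' j b3 (h1 w b2).1 (b1.1.trans (h1 w b2).2.symm)
    refine ⟨a1.congr a5, ?_⟩
    have a6 : ContDiffAt ℝ 2 (Q'.ρ j) (T z) := (h'.ρ_sm j _ (a3 ▸ (h1 z hz).1)).of_le two_le
    have a7 := C2.cHess_congr (a4.mono fun w hw => hw.2)
    have a8 : ContDiffAt ℝ 2 (fun w => Q'.ρ j (T w)) z := a6.comp z (JGx.an_sm a1)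
    have a9 : ContDiffAt ℝ 2 (fun w => (g w).re) z :=
      Complex.reCLM.contDiff.contDiffAt.comp z ((a2.contDiffAt (n := 2)).restrict_scalars ℝ)
    rw [C2.cHess_add a8 a9, hess_re a2, add_zero, hess_comp a1 a6, JGx.jm_congr a5, a3] at a7
    rw [Pat.vol, Pat.vol, a7, JGx.det_pb, Complex.re_ofReal_mul]
  have h3 : Θ '' A = Q'.U j ∩ Q'.pt j ⁻¹' (Q.pt i '' Q.U i) := by
    ext w
    constructor
    · rintro ⟨z, hz, rfl⟩
      exact ⟨(h1 z hz).1, z, hz.1, (h1 z hz).2.symm⟩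
    · rintro ⟨hw, z, hz, e⟩
      have hz' : z ∈ A := ⟨hz, w, hw, e.symm⟩
      exact ⟨z, hz', inj h' j (h1 z hz').1 hw ((h1 z hz').2.trans e)⟩
  rw [← h3, cov hAo.measurableSet (fun z hz => (h2 z hz).1.differentiableAt) fun z hz w hw e =>
    inj h i hz.1 hw.1 (by rw [← (h1 z hz).2, ← (h1 w hw).2, e])]
  refine setLIntegral_congr_fun hAo.measurableSet fun z hz => ?_
  rw [(h1 z hz).2, (h2 z hz).2, ENNReal.ofReal_mul (sq_nonneg _), mul_left_comm]

variable [MeasurableSpace M] [BorelSpace M] {μ μ' : Measure M}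

theorem set_vol (h : Q.Ok) (hμ : Q.Vol μ) (i : Q.ι) {W : Set M} (hW : IsOpen W) {f : M → ℝ≥0∞}
    (hf : Measurable f) : ∫⁻ y in W ∩ Q.pt i '' Q.U i, f y ∂μ =
      ∫⁻ z in Q.U i ∩ Q.pt i ⁻¹' W, f (Q.pt i z) * ENNReal.ofReal (Q.vol i z) := by
  rw [← setLIntegral_indicator hW.measurableSet, hμ i _ (hf.indicator hW.measurableSet)]
  conv_rhs => rw [← inter_eq_self_of_subset_left (inter_subset_left (t := Q.pt i ⁻¹' W)),
    ← setLIntegral_indicator (open_pre h i hW).measurableSet]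
  refine setLIntegral_congr_fun (h.opn i).measurableSet fun z hz => ?_
  by_cases e : Q.pt i z ∈ W
  · simp only [indicator_of_mem e, indicator_of_mem (show z ∈ Q.U i ∩ Q.pt i ⁻¹' W from ⟨hz, e⟩)]
  · simp only [indicator_of_notMem e, zero_mul,
      indicator_of_notMem (show z ∉ Q.U i ∩ Q.pt i ⁻¹' W from fun h => e h.2)]

/-- two compatible atlases have the same volume -/
theorem vol_eq (h : Q.Ok) (h' : Q'.Ok) (t : Q.Tr Q') (hμ : Q.Vol μ) (hμ' : Q'.Vol μ') :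
    μ = μ' := by
  have := h.cnt
  have := h'.cnt
  refine Measure.ext_of_iUnion_eq_univ
    (s := fun p : Q.ι × Q'.ι => Q'.pt p.2 '' Q'.U p.2 ∩ Q.pt p.1 '' Q.U p.1)
    (eq_univ_of_forall fun y => ?_) fun p => Measure.ext_of_lintegral _ fun f hf => ?_
  · obtain ⟨i, hi⟩ := h.cover y
    obtain ⟨j, hj⟩ := h'.cover y
    exact mem_iUnion.2 ⟨(i, j), hj, hi⟩
  · rw [set_vol h hμ _ (open_img h' _) hf, change h h' t, inter_comm (Q'.pt p.2 '' _),
      set_vol h' hμ' _ (open_img h _) hf]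

end vol

variable {N : ℕ} {Γ M : Type} [Group Γ] [TopologicalSpace M] [MulAction Γ M] (C : Cov N Γ M)

theorem exists_t : ∃ t : ℝ, 0 < t ∧ t < 1 ∧
    ∀ y : M, ∃ (γ : Γ) (a : C.I), ∃ z ∈ ball (C.c a) (t * C.r a), y = γ • (C.e a).symm z := by
  have : Nonempty (Ioo (0 : ℝ) 1) := ⟨⟨1 / 2, by norm_num, by norm_num⟩⟩
  obtain ⟨t, ht⟩ := (isCompact_iUnion fun a => JGx.cp_compact (C := C) 1 a).elim_directed_cover
    (fun t : Ioo (0 : ℝ) 1 => ⋃ γ, ⋃ a, C.pt γ a '' C.B t a)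
    (fun t => isOpen_iUnion fun γ => isOpen_iUnion fun a =>
      (JGx.ch C γ a).isOpen_image_symm_of_subset_target isOpen_ball
        (ball_subset_ball (by nlinarith [C.r_pos a, t.2.2])))
    (fun y _ => by
      obtain ⟨γ, a, z, hz, rfl⟩ := C.cover y
      have h0 := C.r_pos a
      have h1 : dist z (C.c a) / C.r a < 1 := (div_lt_one h0).2 hz
      have h2 : 0 ≤ dist z (C.c a) / C.r a := div_nonneg dist_nonneg h0.le
      refine mem_iUnion.2 ⟨⟨(dist z (C.c a) / C.r a + 1) / 2, by linarith, by linarith⟩,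
        mem_iUnion₂.2 ⟨γ, a, z, ?_, rfl⟩⟩
      exact (div_lt_iff₀ h0).1 (show _ < (dist z (C.c a) / C.r a + 1) / 2 by linarith))
    (Monotone.directed_le fun t t' h => iUnion₂_mono fun γ a => image_mono
      (ball_subset_ball (mul_le_mul_of_nonneg_right h (C.r_pos a).le)))
  refine ⟨t, t.2.1, t.2.2, fun y => ?_⟩
  obtain ⟨γ, a, h⟩ := JGx.cp_cover (C := C) y
  obtain ⟨g, b, z, hz, e⟩ := mem_iUnion₂.1 (ht (mem_iUnion.2 ⟨a, JGx.mem_cp.2 h⟩))
  refine ⟨γ * g, b, z, hz, ?_⟩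
  rw [mul_smul, ← inv_smul_eq_iff]
  exact e.symm

theorem sub {t : ℝ} (h1 : t < 1) (a : C.I) :
    closedBall (C.c a) (4 * (t * C.r a)) ⊆ ball (C.c a) (4 * C.r a) :=
  closedBall_subset_ball (by nlinarith [C.r_pos a])

/-- the smaller charts -/
def shr {t : ℝ} (h0 : 0 < t) (h1 : t < 1)
    (h : ∀ y : M, ∃ (γ : Γ) (a : C.I), ∃ z ∈ ball (C.c a) (t * C.r a), y = γ • (C.e a).symm z) :
    Cov N Γ M where
  I := C.I
  fin := C.fin
  e a := ((C.e a).symm.restrOpen (ball (C.c a) (4 * (t * C.r a))) isOpen_ball).symm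
  c := C.c
  r a := t * C.r a
  r_pos a := mul_pos h0 (C.r_pos a)
  tgt a := by
    change (C.e a).target ∩ _ = _
    rw [C.tgt]
    exact inter_eq_right.2 (ball_subset_closedBall.trans (sub C h1 a))
  cont := C.cont
  free := C.free
  disj γ a y h2 h3 := C.disj γ a y h2.1 h3.1
  cover := h
  hol γ a b z h2 h3 := C.hol γ a b z (sub C h1 a (ball_subset_closedBall h2)) h3.1
  proper := C.proper
  ρ := C.ρ
  ρ_sm a z h2 := C.ρ_sm a z (sub C h1 a (ball_subset_closedBall h2))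
  ρ_pos a z h2 := C.ρ_pos a z (sub C h1 a (ball_subset_closedBall h2))
  ρ_ch γ a b z h2 h3 := C.ρ_ch γ a b z (sub C h1 a (ball_subset_closedBall h2)) h3.1

theorem dom {I : Type} [Fintype I] {K : I → Set (Cm N)} (hK : ∀ a, IsCompact (K a))
    {A B : I → Cm N → Mx N} (hA : ∀ a, ContinuousOn (A a) (K a))
    (hB : ∀ a, ContinuousOn (B a) (K a)) (h1 : ∀ a, ∀ z ∈ K a, (A a z).PosDef)
    (h2 : ∀ a, ∀ z ∈ K a, (B a z).PosDef) :
    ∃ c : ℝ, 0 < c ∧ ∀ a, ∀ z ∈ K a, ((c : ℂ) • B a z - A a z).PosSemidef := by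
  choose c c1 c2 using fun a => P284Z.K.exists_dom (hK a) (hA a) (hB a)
    (fun z hz => (h1 a z hz).isHermitian) (h2 a)
  obtain ⟨d, hd⟩ := (finite_range c).bddAbove
  refine ⟨max d 1, lt_max_of_lt_right one_pos, fun a z hz => ?_⟩
  have := (c2 a z hz).add (psd_smul (h2 a z hz).posSemidef
    (sub_nonneg.2 ((hd ⟨a, rfl⟩).trans (le_max_left d 1))))
  rwa [Complex.ofReal_sub, sub_smul, sub_add_sub_cancel'] at this

theorem bdd {t : ℝ} (h0 : 0 < t) (h1 : t < 1) (h) : Bdd (shr C h0 h1 h) := by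
  have k1 : ∀ a, ContinuousOn (cHess (C.ρ a)) (closedBall (C.c a) (4 * (t * C.r a))) :=
    fun a z hz => (K.cont_cHess (C.ρ_sm a z (sub C h1 a hz))).continuousWithinAt
  have k2 := fun a z hz => C.ρ_pos a z (sub C h1 a hz)
  obtain ⟨c, c0, c1⟩ := dom (fun a => isCompact_closedBall _ _) (A := fun _ _ => 1)
    (fun _ => continuousOn_const) k1 (fun _ _ _ => Matrix.PosDef.one) k2
  obtain ⟨d, -, d1⟩ := dom (fun a => isCompact_closedBall _ _) (B := fun _ _ => 1) k1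
    (fun _ => continuousOn_const) k2 (fun _ _ _ => Matrix.PosDef.one)
  refine ⟨c⁻¹, inv_pos.2 c0, d, fun a z hz => ⟨?_, d1 a z (ball_subset_closedBall hz)⟩⟩
  have := psd_smul (c1 a z (ball_subset_closedBall hz)) (inv_pos.2 c0).le
  rwa [smul_sub, smul_smul, ← Complex.ofReal_mul, inv_mul_cancel₀ c0.ne', Complex.ofReal_one,
    one_smul] at this

end Shr

open Shr in
/-- row **H** -/
theorem stH : StH := by
  intro N Γ M _ _ _ _ _ _ _ C Q μ hQ t1 t2 hv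
  obtain ⟨t, h0, h1, h⟩ := exists_t C
  have t3 : Q.Tr (QE (shr C h0 h1 h)) := fun i j z hz z' hz' e =>
    t2 i j z hz z' (sub C h1 _ (ball_subset_closedBall hz')) e
  obtain ⟨μ', hμ⟩ := JGx.vol jb (shr C h0 h1 h)
  refine ⟨shr C h0 h1 h, bdd C h0 h1 h, ?_, fun i j z hz z' hz' e =>
    t1 i j z (sub C h1 _ (ball_subset_closedBall hz)) z' hz' e, t3⟩
  rw [vol_eq hQ (stQE N Γ M _).1 t3 hv fun i => hμ i.1 i.2]
  exact hμ

end Vale.Agent.P284Y.P
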