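import Vale.Agent.P284Y.P.Sk
import Vale.Agent.P284Y.P.PshT
import Vale.Agent.P284.H636.CY.I

/-!
# P284Y, block P, row St: stability of the solution in `C²`
-/

set_option maxSynthPendingDepth 3
set_option linter.all false

open scoped ContDiff Topology ComplexOrder ENNReal Matrix
open Filter Set Function Metric MeasureTheory Real

noncomputable section

namespace Vale.Agent.P284Y.P

open Vale.Agent.P272.K Vale.Agent.P284.H650 Vale.Agent.P284Z J L

section par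
variable {W V : Type} [NormedAddCommGroup W] [NormedSpace ℝ W] [NormedAddCommGroup V]
  [NormedSpace ℝ V] {F : W × V → ℝ}

theorem ifd_slice {q : W} {z : V} (h : ContDiffAt ℝ 3 F (q, z)) {k : ℕ} (hk : k ≤ 3) :
    ‖iteratedFDeriv ℝ k (fun w => F (q, w)) z‖ ≤ ‖iteratedFDeriv ℝ k F (q, z)‖ := by
  set G : W × V → ℝ := fun x => F ((q, 0) + x) with hG
  have e : ((q, 0) : W × V) + (ContinuousLinearMap.inr ℝ W V) z = (q, z) := by simp
  have h1 : ContDiffAt ℝ 3 G (ContinuousLinearMap.inr ℝ W V z) :=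
    ContDiffAt.comp (g := F) _ (by rwa [e]) (by fun_prop)
  obtain ⟨s, hs, hs'⟩ := h1.contDiffOn le_rfl (by simp)
  obtain ⟨t, hts, ht, hzt⟩ := _root_.mem_nhds_iff.1 hs
  have ho := ht.preimage (ContinuousLinearMap.inr ℝ W V).continuous
  have h2 := (ContinuousLinearMap.inr ℝ W V).iteratedFDerivWithin_comp_right (hs'.mono hts)
    ht.uniqueDiffOn ho.uniqueDiffOn hzt (i := k) (by exact_mod_cast hk)
  rw [iteratedFDerivWithin_of_isOpen k ho hzt, iteratedFDerivWithin_of_isOpen k ht hzt] at h2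
  have h3 : (fun w => F (q, w)) = G ∘ ContinuousLinearMap.inr ℝ W V := by
    funext w
    simp [hG]
  rw [h3, h2, hG, iteratedFDeriv_comp_add_left, e]
  refine (ContinuousMultilinearMap.norm_compContinuousLinearMap_le _ _).trans
    (mul_le_of_le_one_right (norm_nonneg _) (Finset.prod_le_one (fun _ _ => norm_nonneg _)
      fun _ _ => ?_))
  exact ContinuousLinearMap.norm_inr_le_one ℝ W V

theorem ifd_bound {q₀ : W} {K : Set V} (hK : IsCompact K)
    (h : ∀ z ∈ K, ContDiffAt ℝ 3 F (q₀, z)) : ∃ A : ℝ, ∀ᶠ q in 𝓝 q₀, ∀ z ∈ K, ∀ k ≤ 3,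
      ‖iteratedFDeriv ℝ k (fun w => F (q, w)) z‖ ≤ A := by
  set D : W × V → ℝ := fun x => ∑ k ∈ Finset.range 4, ‖iteratedFDeriv ℝ k F x‖ with hD
  have hc : ∀ z ∈ K, ContinuousAt D (q₀, z) := fun z hz =>
    tendsto_finset_sum _ fun k hk => ((h z hz).iteratedFDeriv_right (m := 0) (i := k) (by
      have := Finset.mem_range.1 hk
      rw [zero_add]
      exact_mod_cast Nat.lt_succ_iff.1 this)).continuousAt.norm
  obtain ⟨A, hA⟩ := hK.exists_bound_of_continuousOn (f := fun z => D (q₀, z)) fun z hz =>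
    (ContinuousAt.comp (g := D) (hc z hz) (by fun_prop)).continuousWithinAt
  refine ⟨A + 1, hK.eventually_forall_of_forall_eventually fun z hz => ?_⟩
  filter_upwards [(hc z hz).eventually (ge_mem_nhds (show D (q₀, z) < A + 1 from
    lt_of_le_of_lt ((le_abs_self _).trans (hA z hz)) (lt_add_one A))),
    (h z hz).eventually (by simp)] with x h1 h2 k hk
  refine (ifd_slice h2 hk).trans (le_trans ?_ h1)
  exact Finset.single_le_sum (f := fun k => ‖iteratedFDeriv ℝ k F x‖) (fun _ _ => norm_nonneg _)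
    (Finset.mem_range.2 (by omega))

end par

variable {N : ℕ} {Γ M : Type} [Group Γ] [TopologicalSpace M] [MulAction Γ M] {C : Cov N Γ M}

theorem fin_cB {K : Set M} (hK : IsCompact K) {k : ℝ} (hk : k < 4) :
    ∃ S : Finset Γ, ∀ γ ∉ S, ∀ a, ∀ z ∈ C.cB k a, C.pt γ a z ∉ K := by
  have h := C.proper (K ∪ ⋃ a, C.pt 1 a '' C.cB k a) (hK.union (isCompact_iUnion fun a =>
    C.isCompact_image_pt 1 (C.isCompact_cB k a) (C.cB_sub_B hk a)))
  refine ⟨h.toFinset, fun γ hγ a z hz ha => hγ (h.mem_toFinset.2 ⟨C.pt 1 a z, ?_, ?_⟩)⟩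
  · exact Or.inr (mem_iUnion.2 ⟨a, z, hz, rfl⟩)
  · rw [← C.pt_eq]
    exact Or.inl ha

theorem stSt : StSt := by
  intro N Γ M _ _ _ _ _ _ _ _ C μ _ _ _ hA hE hV W _ _ ν q₀ K hK h0 hν hs δ hδ
  obtain ⟨S, hS⟩ := fin_cB (C := C) hK (k := 31 / 8) (by norm_num)
  have s4 : ∀ a, C.cB (15 / 4) a ⊆ C.B 4 a := fun a => C.cB_sub_B (by norm_num) a
  -- the uniform bound
  have b1 : ∀ p : S × C.I, ∃ A : ℝ, ∀ᶠ q in 𝓝 q₀, ∀ z ∈ C.cB (15 / 4) p.2, ∀ k ≤ 3,
      ‖iteratedFDeriv ℝ k (fun w => log (1 + ν q (C.pt p.1 p.2 w))) z‖ ≤ A := fun p =>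
    ifd_bound (F := fun x => log (1 + ν x.1 (C.pt p.1 p.2 x.2))) (C.isCompact_cB _ _)
      fun z hz => ((contDiffAt_const.add (hs _ _ z (s4 _ hz))).log
        (by linarith [h0.nonneg (C.pt p.1 p.2 z)])).of_le (by norm_cast)
  choose A hA' using b1
  obtain ⟨A₀, hA₀⟩ := (finite_range A).bddAbove
  obtain ⟨B, hB⟩ := hE.ue (max A₀ 0)
  have b2 : ∀ᶠ q in 𝓝 q₀, Dens C (ν q) ∧ ∀ γ a, ∀ z ∈ C.cB (7 / 2) a, ∀ z' ∈ C.cB (7 / 2) a,
      ‖fderiv ℝ (fderiv ℝ fun w => phi C (ν q) (C.pt γ a w)) z -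
        fderiv ℝ (fderiv ℝ fun w => phi C (ν q) (C.pt γ a w)) z'‖ ≤ B * ‖z - z'‖ ^ (1 / 2 : ℝ) := by
    filter_upwards [hν, eventually_all.2 hA'] with q h1 h2
    refine ⟨h1.1, hB _ _ h1.1 (hV.sol _ h1.1) fun γ a z hz k hk => ?_⟩
    by_cases hγ : γ ∈ S
    · exact (h2 (⟨γ, hγ⟩, a) z hz k hk).trans ((hA₀ (mem_range_self _)).trans (le_max_left _ _))
    · have e : (fun w => log (1 + ν q (C.pt γ a w))) =ᶠ[𝓝 z] fun _ => 0 := by
        filter_upwards [(C.isOpen_B (31 / 8) a).mem_nhds (C.cB_sub_B (by norm_num) a hz)] with w hw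
        rw [h1.2 _ (hS γ hγ a w (C.B_sub_cB _ _ hw)), add_zero, log_one]
      rw [(e.iteratedFDeriv ℝ k).self_of_nhds]
      simp
  -- interpolation
  have b3 := fun a : C.I => P284.H636.CY.iStmt N (C.c a) (3 * C.r a) (7 / 2 * C.r a) (1 / 4) (1 / 2)
    (B + B) (by linarith [C.r_pos a]) (by linarith [C.r_pos a]) (by norm_num) (by norm_num)
    (by norm_num) δ hδ
  choose ε hε hε' using b3
  have b4 : ∀ e > (0 : ℝ), ∀ᶠ q in 𝓝 q₀, ∀ y, |ν q y - ν q₀ y| ≤ e := fun e he => by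
    have b5 : ∀ p : S × C.I, ∀ᶠ q in 𝓝 q₀, ∀ z ∈ C.cB 1 p.2,
        |ν q (C.pt p.1 p.2 z) - ν q₀ (C.pt p.1 p.2 z)| ≤ e := fun p =>
      (C.isCompact_cB _ _).eventually_forall_of_forall_eventually fun z hz => by
        have hz' : z ∈ C.B 4 p.2 := C.cB_sub_B (by norm_num) _ hz
        have c1 := (hs p.1 p.2 z hz').continuousAt
        have c2 : ContinuousAt (fun x : W × Cm N => ν q₀ (C.pt p.1 p.2 x.2)) (q₀, z) :=
          ContinuousAt.comp (g := fun w => ν q₀ (C.pt p.1 p.2 w))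
            (h0.sm _ _ _ z hz' rfl).continuousAt continuousAt_snd
        exact (c1.sub c2).abs.eventually (ge_mem_nhds (by simpa using he))
    filter_upwards [hν, eventually_all.2 b5] with q h1 h2 y
    obtain ⟨γ, a, z, hz, rfl⟩ := C.exists_pt y
    by_cases hγ : γ ∈ S
    · exact h2 (⟨γ, hγ⟩, a) z (C.B_sub_cB _ _ hz)
    · have := hS γ hγ a z (C.B_sub_cB _ _ (C.B_mono (by norm_num) a hz))
      rw [h1.2 _ this, hν.self_of_nhds.2 _ this, sub_zero, abs_zero]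
      exact he.le
  filter_upwards [b2, eventually_all.2 fun a => b4 (ε a) (hε a)] with q h1 h2 γ a z hz
  have s7 : C.cB (7 / 2) a ⊆ C.B 4 a := C.cB_sub_B (by norm_num) a
  have d1 : ∀ w ∈ C.cB (7 / 2) a, ContDiffAt ℝ 2 (fun w => phi C (ν q) (C.pt γ a w)) w :=
    fun w hw => ((hV.sol _ h1.1).sm _ γ a w (s7 hw) rfl).of_le two_le
  have d2 : ∀ w ∈ C.cB (7 / 2) a, ContDiffAt ℝ 2 (fun w => phi C (ν q₀) (C.pt γ a w)) w :=
    fun w hw => ((hV.sol _ h0).sm _ γ a w (s7 hw) rfl).of_le two_le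
  have d3 : ∀ w ∈ C.cB (7 / 2) a, fderiv ℝ (fderiv ℝ fun w => phi C (ν q) (C.pt γ a w) -
      phi C (ν q₀) (C.pt γ a w)) w = fderiv ℝ (fderiv ℝ fun w => phi C (ν q) (C.pt γ a w)) w -
        fderiv ℝ (fderiv ℝ fun w => phi C (ν q₀) (C.pt γ a w)) w := fun w hw => by
    rw [← fderiv_fun_sub (Ps.dfd (d1 w hw)) (Ps.dfd (d2 w hw))]
    refine EventuallyEq.fderiv_eq ?_
    filter_upwards [(d1 w hw).eventually (by simp), (d2 w hw).eventually (by simp)] with x x1 x2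
    exact fderiv_fun_sub (x1.differentiableAt two_ne_zero) (x2.differentiableAt two_ne_zero)
  have := (hε' a (fun w => phi C (ν q) (C.pt γ a w) - phi C (ν q₀) (C.pt γ a w))
    (fun w hw => (d1 w hw).sub (d2 w hw)) (fun w _ => hV.lip _ _ h1.1 h0 _ (h2 a) _)
    (fun w hw w' hw' => by
      rw [d3 w hw, d3 w' hw', sub_sub_sub_comm, add_mul]
      exact (norm_sub_le _ _).trans
        (add_le_add (h1.2 γ a w hw w' hw') (b2.self_of_nhds.2 γ a w hw w' hw')))).1 z hz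
  exact ⟨(norm_fst_le _).trans this, (norm_fst_le _).trans ((norm_snd_le _).trans this),
    (norm_snd_le _).trans ((norm_snd_le _).trans this)⟩

end Vale.Agent.P284Y.P
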