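import Vale.Agent.P284Y.P.Sk

/-!
# P284Y, block P, row T: transfer from the charts of the covering to the patches
-/

open scoped ContDiff Topology ComplexOrder ENNReal Matrix
open Filter Set Function Metric MeasureTheory Real

noncomputable section

namespace Vale.Agent.P284Y.P

open Vale.Agent.P272.K Vale.Agent.P284.H650 Vale.Agent.P284Z J L

namespace Tq

/-- the first two derivatives of a composition -/
theorem comp2 {E : Type} [NormedAddCommGroup E] [NormedSpace ℝ E] {F : E → ℝ} {T : E → E} {z : E}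
    (hF : ContDiffAt ℝ 2 F (T z)) (hT : ContDiffAt ℝ 2 T z) :
    ‖fderiv ℝ (fun w => F (T w)) z‖ ≤ ‖fderiv ℝ F (T z)‖ * ‖fderiv ℝ T z‖ ∧
    ‖fderiv ℝ (fderiv ℝ fun w => F (T w)) z‖ ≤
      ‖fderiv ℝ F (T z)‖ * ‖fderiv ℝ (fderiv ℝ T) z‖ +
      ‖fderiv ℝ (fderiv ℝ F) (T z)‖ * ‖fderiv ℝ T z‖ * ‖fderiv ℝ T z‖ := by
  have h1 : ∀ᶠ w in 𝓝 z, fderiv ℝ (fun w => F (T w)) w = (fderiv ℝ F (T w)).comp (fderiv ℝ T w) := by
    filter_upwards [hT.continuousAt.eventually (hF.eventually (by simp)), hT.eventually (by simp)]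
      with w k1 k2
    exact fderiv_fun_comp w (k1.differentiableAt (by simp)) (k2.differentiableAt (by simp))
  have h2 : HasFDerivAt (fderiv ℝ T) (fderiv ℝ (fderiv ℝ T) z) z :=
    ((hT.fderiv_right (m := 1) (by norm_num)).differentiableAt (by simp)).hasFDerivAt
  have h3 : HasFDerivAt (fderiv ℝ F) (fderiv ℝ (fderiv ℝ F) (T z)) (T z) :=
    ((hF.fderiv_right (m := 1) (by norm_num)).differentiableAt (by simp)).hasFDerivAt
  have h4 := (h3.comp z (hT.differentiableAt (by simp)).hasFDerivAt).clm_comp h2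
  refine ⟨h1.self_of_nhds ▸ ContinuousLinearMap.opNorm_comp_le _ _, ?_⟩
  rw [(h4.congr_of_eventuallyEq h1).fderiv]
  refine ContinuousLinearMap.opNorm_le_bound _ (by positivity) fun v => ?_
  have k1 := (fderiv ℝ F (T z)).opNorm_comp_le (fderiv ℝ (fderiv ℝ T) z v)
  have k2 := (fderiv ℝ (fderiv ℝ F) (T z) (fderiv ℝ T z v)).opNorm_comp_le (fderiv ℝ T z)
  have k3 := (fderiv ℝ (fderiv ℝ T) z).le_opNorm v
  have k4 := (fderiv ℝ (fderiv ℝ F) (T z)).le_opNorm (fderiv ℝ T z v)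
  have k5 := (fderiv ℝ T z).le_opNorm v
  refine (norm_add_le ((fderiv ℝ F (T z)).comp (fderiv ℝ (fderiv ℝ T) z v))
    ((fderiv ℝ (fderiv ℝ F) (T z) (fderiv ℝ T z v)).comp (fderiv ℝ T z))).trans ?_
  rw [add_mul]
  refine add_le_add (k1.trans ?_) (k2.trans ?_)
  · rw [mul_assoc]
    gcongr
  · rw [mul_right_comm _ _ ‖v‖, mul_assoc _ _ ‖v‖]
    gcongr
    exact k4.trans (by gcongr)

theorem ev_lt {E F : Type} [TopologicalSpace E] [NormedAddCommGroup F] {f : E → F} {z : E}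
    (h : ContinuousAt f z) : ∀ᶠ w in 𝓝 z, ‖f w‖ < ‖f z‖ + 1 :=
  h.norm.eventually_lt_const (lt_add_one _)

theorem ev_bd {E : Type} [NormedAddCommGroup E] [NormedSpace ℝ E] {T : E → E} {z : E}
    (h : ContDiffAt ℝ ∞ T z) : ∃ A : ℝ, 0 ≤ A ∧
      ∀ᶠ w in 𝓝 z, ‖fderiv ℝ T w‖ ≤ A ∧ ‖fderiv ℝ (fderiv ℝ T) w‖ ≤ A := by
  have h2 : ContDiffAt ℝ ∞ (fderiv ℝ T) z := h.fderiv_right (by simp)
  have h3 : ContDiffAt ℝ ∞ (fderiv ℝ (fderiv ℝ T)) z := h2.fderiv_right (by simp)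
  refine ⟨‖fderiv ℝ T z‖ + ‖fderiv ℝ (fderiv ℝ T) z‖ + 1, by positivity, ?_⟩
  filter_upwards [ev_lt h2.continuousAt, ev_lt h3.continuousAt] with w k1 k2
  exact ⟨by linarith [norm_nonneg (fderiv ℝ (fderiv ℝ T) z)],
    by linarith [norm_nonneg (fderiv ℝ T z)]⟩

theorem psd_of_pb {n : ℕ} {S H : Mx n} (hS : S.det ≠ 0) (h : (pb S H).PosSemidef) :
    H.PosSemidef := by
  have h1 := pb_psd S⁻¹ h
  rw [← JGx.pb_mul, Matrix.mul_nonsing_inv _ (isUnit_iff_ne_zero.2 hS)] at h1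
  simpa [pb] using h1

theorem re_det_pb {n : ℕ} (S H : Mx n) : (pb S H).det.re = ‖S.det‖ ^ 2 * H.det.re := by
  rw [JGx.det_pb, Complex.re_ofReal_mul]

theorem an_sm {n : ℕ} {T : Cm n → Cm n} {z : Cm n} (h : AnalyticAt ℂ T z) : ContDiffAt ℝ ∞ T z :=
  (h.contDiffAt (n := ∞)).restrict_scalars ℝ

variable {N : ℕ} {Γ M : Type} [Group Γ] [TopologicalSpace M] [MulAction Γ M] {C : Cov N Γ M}
  {Q : Pat N M}

theorem chart (hQ : Q.Ok) (t2 : Q.Tr (QE C)) (i : Q.ι) (z : Cm N) (hz : z ∈ Q.U i) :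
    ∃ (γ : Γ) (a : C.I) (T : Cm N → Cm N), AnalyticAt ℂ T z ∧
    T z ∈ C.B 1 a ∧ (jm T z).det ≠ 0 ∧ (∀ᶠ w in 𝓝 z, C.pt γ a (T w) = Q.pt i w) ∧
    (∀ u, C.SmAt u (Q.pt i z) → Q.om u i z = pb (jm T z) (C.om 1 u γ a (T z))) ∧
    cHess (Q.ρ i) z = pb (jm T z) (cHess (C.ρ a) (T z)) := by
  obtain ⟨γ, a, z', hz', e⟩ := C.exists_pt (Q.pt i z)
  obtain ⟨T, g, hT, hg, rfl, hev⟩ := t2 i (γ, a) z hz z' (C.B14 hz') e
  have key : ∀ u, C.SmAt u (Q.pt i z) → Q.om u i z = pb (jm T z) (C.om 1 u γ a (T z)) := by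
    intro u hu
    have h3 : ContDiffAt ℝ 2 (fun w => 1 * C.ρ a w + u (C.pt γ a w)) (T z) :=
      ((contDiffAt_const.mul (C.ρ_sm a _ (C.B14 hz'))).add
        (hu γ a _ (C.B14 hz') e.symm)).of_le two_le
    have h5 : (fun w => Q.ρ i w + u (Q.pt i w)) =ᶠ[𝓝 z] fun w =>
        (1 * C.ρ a (T w) + u (C.pt γ a (T w))) + (g w).re := by
      filter_upwards [hev] with w k
      rw [k.2, ← k.1, one_mul]
      exact add_right_comm _ _ _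
    have h6 : ContDiffAt ℝ 2 (fun w => 1 * C.ρ a (T w) + u (C.pt γ a (T w))) z :=
      h3.comp z ((an_sm hT).of_le two_le)
    have h7 : ContDiffAt ℝ 2 (fun w => (g w).re) z :=
      Complex.reCLM.contDiff.contDiffAt.comp z ((hg.contDiffAt (n := 2)).restrict_scalars ℝ)
    have h8 := C2.cHess_congr h5
    rw [C2.cHess_add h6 h7, (jb.hess_re N _ z hg).1, add_zero,
      jb.hess_comp N N _ (fun w => 1 * C.ρ a w + u (C.pt γ a w)) z hT h3] at h8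
    exact h8
  have hρ : cHess (Q.ρ i) z = pb (jm T z) (cHess (C.ρ a) (T z)) := by
    simpa only [Pat.om, Cov.om, one_mul, add_zero] using key (fun _ => 0) (sm_const 0)
  refine ⟨γ, a, T, hT, hz', fun h => ?_, hev.mono fun w k => k.1, key, hρ⟩
  have h1 := (hQ.ρ_pos i z hz).det_pos.ne'
  rw [hρ, JGx.det_pb, h] at h1
  simp at h1

theorem chart' (t1 : (QE C).Tr Q) (γ : Γ) (a : C.I) (z : Cm N) (hz : z ∈ C.B 4 a) (i : Q.ι)
    (z' : Cm N) (hz' : z' ∈ Q.U i) (e : C.pt γ a z = Q.pt i z') :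
    ∃ T : Cm N → Cm N, AnalyticAt ℂ T z ∧ T z = z' ∧ ∀ᶠ w in 𝓝 z, Q.pt i (T w) = C.pt γ a w := by
  obtain ⟨T, g, hT, -, h1, hev⟩ := t1 (γ, a) i z hz z' hz' e
  exact ⟨T, hT, h1, hev.mono fun w k => k.1⟩

theorem sm (hQ : Q.Ok) (t1 : (QE C).Tr Q) (t2 : Q.Tr (QE C)) (f : M → ℝ) (y : M) :
    Q.SmAt f y ↔ C.SmAt f y := by
  refine ⟨fun h γ a z hz e => ?_, fun h i z hz e => ?_⟩
  · obtain ⟨i, z', hz', e'⟩ := hQ.cover y
    obtain ⟨T, hT, rfl, hev⟩ := chart' t1 γ a z hz i z' hz' (e.trans e'.symm)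
    exact ((h i _ hz' e').comp z (an_sm hT)).congr_of_eventuallyEq
      (hev.mono fun w k => (congrArg f k).symm)
  · obtain ⟨γ, a, T, hT, h1, -, hev, -⟩ := chart hQ t2 i z hz
    exact ((h γ a _ (C.B14 h1) (hev.self_of_nhds.trans e)).comp z (an_sm hT)).congr_of_eventuallyEq
      (hev.mono fun w k => (congrArg f k).symm)

theorem psd (hQ : Q.Ok) (t2 : Q.Tr (QE C)) (u : M → ℝ) (y : M) (hu : C.SmAt u y) :
    Q.PsdAt u y ↔ Psd C (C.om 1 u) {y} := by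
  refine ⟨fun h γ a z hz e => ?_, fun h i z hz e => ?_⟩
  · obtain ⟨i, z', hz', rfl⟩ := hQ.cover y
    obtain ⟨γ', a', T, -, h1, h2, hev, h3, -⟩ := chart hQ t2 i z' hz'
    have h4 := h i z' hz' rfl
    rw [h3 u hu] at h4
    have e' : C.pt γ a z = Q.pt i z' := e
    exact psd_chart (JGx.fm_om jb 1 (e' ▸ hu)) hz (C.B14 h1) (e'.trans hev.self_of_nhds.symm)
      (psd_of_pb h2 h4)
  · obtain ⟨γ, a, T, -, h1, -, hev, h3, -⟩ := chart hQ t2 i z hz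
    rw [h3 u (e ▸ hu)]
    exact pb_psd _ (h γ a _ (C.B14 h1) (hev.self_of_nhds.trans e))

theorem pos (hQ : Q.Ok) (t2 : Q.Tr (QE C)) (ν φ : M → ℝ) (h : Sol C ν φ) (i : Q.ι) (z : Cm N)
    (hz : z ∈ Q.U i) : (Q.om φ i z).PosDef := by
  obtain ⟨γ, a, T, -, h1, -, -, h3, h4⟩ := chart hQ t2 i z hz
  obtain ⟨c, hc, h5⟩ := h.pos
  have h6 := pb_psd (jm T z) (h5 γ a _ (C.B14 h1) (mem_univ _))
  have h7 : Q.om φ i z = pb (jm T z) ((C.om 1 φ - (c : ℂ) • C.om 1 fun _ => 0) γ a (T z)) +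
      (c : ℂ) • cHess (Q.ρ i) z := by
    rw [h3 φ (h.sm _), h4]
    simp only [Pi.sub_apply, Pi.smul_apply, Cov.om, one_mul, add_zero, pb, Matrix.mul_sub,
      Matrix.sub_mul, Matrix.mul_smul, Matrix.smul_mul, sub_add_cancel]
  rw [h7]
  exact ((hQ.ρ_pos i z hz).smul (Complex.zero_lt_real.2 hc)).posSemidef_add h6

theorem b2 (hQ : Q.Ok) (t2 : Q.Tr (QE C)) (i : Q.ι) (K : Set (Cm N)) (hK : IsCompact K)
    (hKU : K ⊆ Q.U i) : ∃ L ≥ (0 : ℝ), ∀ ψ δ,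
    (∀ y, C.SmAt ψ y) → B2 C 1 ψ δ → ∀ z ∈ K, |ψ (Q.pt i z)| ≤ δ ∧
      ‖fderiv ℝ (fun w => ψ (Q.pt i w)) z‖ ≤ L * δ ∧
      ‖fderiv ℝ (fderiv ℝ fun w => ψ (Q.pt i w)) z‖ ≤ L * δ := by
  refine hK.induction_on (p := fun K => ∃ L ≥ (0 : ℝ), ∀ ψ δ,
    (∀ y, C.SmAt ψ y) → B2 C 1 ψ δ → ∀ z ∈ K, |ψ (Q.pt i z)| ≤ δ ∧
      ‖fderiv ℝ (fun w => ψ (Q.pt i w)) z‖ ≤ L * δ ∧
      ‖fderiv ℝ (fderiv ℝ fun w => ψ (Q.pt i w)) z‖ ≤ L * δ) ?_ ?_ ?_ ?_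
  · exact ⟨0, le_rfl, fun _ _ _ _ z hz => hz.elim⟩
  · rintro s t hst ⟨L, h1, h2⟩
    exact ⟨L, h1, fun ψ δ k1 k2 z hz => h2 ψ δ k1 k2 z (hst hz)⟩
  · rintro s t ⟨L, h1, h2⟩ ⟨L', h1', h2'⟩
    refine ⟨L + L', by positivity, fun ψ δ k1 k2 z hz => ?_⟩
    rcases hz with hz | hz
    · obtain ⟨k3, k4, k5⟩ := h2 ψ δ k1 k2 z hz
      have k6 : 0 ≤ L' * δ := mul_nonneg h1' ((abs_nonneg _).trans k3)
      exact ⟨k3, by linarith, by linarith⟩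
    · obtain ⟨k3, k4, k5⟩ := h2' ψ δ k1 k2 z hz
      have k6 : 0 ≤ L * δ := mul_nonneg h1 ((abs_nonneg _).trans k3)
      exact ⟨k3, by linarith, by linarith⟩
  · intro z₀ hz₀
    obtain ⟨γ, a, T, hT, h1, -, hev, -⟩ := chart hQ t2 i z₀ (hKU hz₀)
    obtain ⟨A, hA0, hA⟩ := ev_bd (an_sm hT)
    have h4 := (hT.eventually_analyticAt.and hev.eventually_nhds).and
      ((hT.continuousAt.eventually ((C.isOpen_B 1 a).mem_nhds h1)).and hA)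
    refine ⟨_, mem_nhdsWithin_of_mem_nhds h4, A + A * A, by positivity, ?_⟩
    rintro ψ δ k1 k2 z ⟨⟨k3, k4⟩, k5, k6, k7⟩
    obtain ⟨m1, m2, m3⟩ := k2 γ a (T z) k5
    have hδ : 0 ≤ δ := (abs_nonneg _).trans m1
    have e : (fun w => ψ (Q.pt i w)) =ᶠ[𝓝 z] fun w => ψ (C.pt γ a (T w)) :=
      k4.mono fun w k => (congrArg ψ k).symm
    obtain ⟨m4, m5⟩ := comp2 (F := fun w => ψ (C.pt γ a w))
      ((k1 _ γ a _ (C.B14 k5) rfl).of_le two_le) ((an_sm k3).of_le two_le)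
    rw [e.fderiv.fderiv_eq, e.fderiv_eq, ← k4.self_of_nhds]
    have m6 : 0 ≤ A * A * δ := by positivity
    refine ⟨m1, m4.trans ?_, m5.trans ?_⟩
    · calc _ ≤ δ * A := by gcongr
        _ ≤ _ := by linarith
    · calc _ ≤ δ * A + δ * A * A := by gcongr
        _ = _ := by ring

end Tq

/-- **Row T.** -/
theorem stT : StT := by
  intro N Γ M _ _ _ _ _ _ _ _ C μ _ _ _ pa Q hQ t1 t2 pg
  refine ⟨Tq.chart hQ t2, Tq.chart' t1, Tq.sm hQ t1 t2, fun ν => ⟨fun h => ?_, fun h => ?_⟩,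
    Tq.psd hQ t2, fun u y hu => ?_, Tq.pos hQ t2, Tq.b2 hQ t2⟩
  · exact ⟨fun y => (Tq.sm hQ t1 t2 ν y).1 (h.sm y), h.nonneg, _, h.cpt,
      fun y hy => image_eq_zero_of_notMem_tsupport hy⟩
  · obtain ⟨K, h1, h2⟩ := h.cpt
    exact ⟨fun y => (Tq.sm hQ t1 t2 ν y).2 (h.sm y), h.nonneg, HasCompactSupport.intro h1 h2⟩
  · obtain ⟨i, z, hz, rfl⟩ := hQ.cover y
    obtain ⟨γ, a, T, -, h1, h2, hev, h3, h4⟩ := Tq.chart hQ t2 i z hz
    have e := hev.self_of_nhds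
    rw [pg.ma_pt u i z hz (((Tq.sm hQ t1 t2 u _).2 hu i z hz rfl).of_le two_le), Pat.vol, h3 u hu,
      h4, Tq.re_det_pb, Tq.re_det_pb, mul_div_mul_left _ _ (pow_ne_zero 2 (norm_ne_zero_iff.2 h2)),
      ← e, pa.ma_pt u γ a _ (C.B14 h1) (e ▸ hu)]

end Vale.Agent.P284Y.P
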