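import Vale.Agent.P284Y.P.Sk

/-!
# P284Y, block P: the comparison principle and the increments of the energy
-/

open scoped ContDiff Topology ComplexOrder ENNReal Matrix
open Filter Set Function Metric MeasureTheory Real

noncomputable section

namespace Vale.Agent.P284Y.P

open Vale.Agent.P272.K Vale.Agent.P284.H650 Vale.Agent.P284Z J L

variable {N : ℕ} {Γ M : Type} [Group Γ] [TopologicalSpace M] [MulAction Γ M] {C : Cov N Γ M}

theorem Sol.cont {ν φ : M → ℝ} (h : Sol C ν φ) : Continuous φ :=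
  continuous_iff_continuousAt.2 fun y => JGx.sm_cont (h.sm y)

variable [MeasurableSpace M] {μ : Measure M}

/-- a global nonpositive subsolution lies below the solution -/
theorem Sol.sub_le (a : PA C μ) {ν φ ψ : M → ℝ} (h : Sol C ν φ) (h1 : ∀ y, OP C ψ y)
    (h2 : ∀ y, ψ y ≤ 0) (h3 : ∀ y, φ y < ψ y → exp (φ y) * (1 + ν y) < ma C ψ y) (y : M) :
    ψ y ≤ φ y := by
  have c : Continuous ψ := continuous_iff_continuousAt.2 fun y => JGx.sm_cont (h1 y).1
  refine a.mp univ ψ φ isOpen_univ (c.sub h.cont).continuousOn.upperSemicontinuousOn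
    (fun y hy => by simp at hy) (fun ε hε => ?_) (fun y _ hy => ⟨h.sm y, ψ, h1 y, rfl,
      Eventually.of_forall fun _ => le_rfl, (h.eq y).trans_lt (h3 y hy)⟩) y (mem_univ y)
  obtain ⟨K, hK, h4⟩ := h.decay ε hε
  exact ⟨K, hK, fun y _ hy => by linarith [h4 y hy, h2 y]⟩

theorem Sol.cmp (a : PA C μ) {ν ν' φ φ' : M → ℝ} (h : Sol C ν φ) (h' : Sol C ν' φ')
    (hν : ∀ y, 0 ≤ ν y) {c : ℝ} (hc : 0 ≤ c) (hle : ∀ y, 1 + ν' y ≤ exp c * (1 + ν y)) (y : M) :
    φ y - c ≤ φ' y := by
  have e : ∀ y, ∀ᶠ x in 𝓝 y, φ x - c = φ x + -c := fun y =>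
    Eventually.of_forall fun x => sub_eq_add_neg _ _
  refine h'.sub_le a (ψ := fun x => φ x - c)
    (fun y => a.op_congr _ _ y _ (e y) (a.op_sol ν φ y h)) (fun y => ?_) (fun y hy => ?_) y
  · linarith [h.nonpos y]
  · rw [a.ma_congr _ _ y _ (e y), h.eq y]
    refine (mul_le_mul_of_nonneg_left (hle y) (exp_pos _).le).trans_lt ?_
    rw [← mul_assoc, ← exp_add]
    exact mul_lt_mul_of_pos_right (exp_lt_exp.2 (by linarith)) (by linarith [hν y])

theorem stV : StV := by
  intro N G M _ _ _ _ _ _ _ _ C μ h0 hB hμ a e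
  have so : ∀ ν, Dens C ν → Sol C ν (phi C ν) := fun ν hν => by
    rw [phi, dif_pos (e.ex ν hν)]
    exact (e.ex ν hν).choose_spec
  have one : ∀ ν ν', Dens C ν → Dens C ν' → ∀ c : ℝ, (∀ y, |ν y - ν' y| ≤ c) →
      ∀ y, phi C ν y - c ≤ phi C ν' y := fun ν ν' hν hν' c hc y => by
    have c0 : 0 ≤ c := (abs_nonneg _).trans (hc y)
    refine (so ν hν).cmp a (so ν' hν') hν.nonneg c0 (fun x => ?_) y
    have h1 := (abs_le.1 (hc x)).1
    have h2 := hν.nonneg x
    have h3 := mul_le_mul_of_nonneg_right (add_one_le_exp c) (by linarith : 0 ≤ 1 + ν x)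
    nlinarith [mul_nonneg c0 h2]
  refine ⟨so, fun ν hν => (so ν hν).cont, fun ν ν' hν hν' c hc h =>
    (so ν hν).cmp a (so ν' hν') hν.nonneg hc h, funext fun y => ?_, fun ν ν' hν hν' c hc y => ?_⟩
  · refine le_antisymm ((so 0 a.dens_zero).nonpos y) ((so 0 a.dens_zero).sub_le a
      (ψ := fun _ => 0) (a.op_const 0) (fun _ => le_rfl) (fun y hy => ?_) y)
    rw [a.ma_zero, Pi.zero_apply, add_zero, mul_one]
    exact exp_lt_one_iff.2 hy
  · have h1 := one ν ν' hν hν' c hc y
    have h2 := one ν' ν hν' hν c (fun x => (abs_sub_comm _ _).trans_le (hc x)) y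
    exact abs_le.2 ⟨by linarith, by linarith⟩

theorem stG : StG := by
  intro N G M _ _ _ _ _ _ _ _ C μ h0 hB hμ a v n en
  have ie : ∀ ν ν', Dens C ν → Dens C ν' → Integrable (fun y => exp (phi C ν y) * ν' y) μ :=
    fun ν ν' hν hν' => a.dens_int ν' hν' _ (continuous_exp.comp (v.cont ν hν))
  have ie' : ∀ ν ν', Dens C ν → Dens C ν' →
      Integrable (fun y => exp (phi C ν y) * (ν' y - ν y)) μ := fun ν ν' hν hν' => by
    simp only [mul_sub]
    exact (ie ν ν' hν hν').sub (ie ν ν hν hν)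
  have star : ∀ ν ν', Dens C ν → Dens C ν' →
      GG C μ ν' - GG C μ ν ≤ ∫ y, exp (phi C ν y) * (ν' y - ν y) ∂μ := fun ν ν' hν hν' => by
    have g := n.gd ν hν
    have g' := n.gd ν' hν'
    have h1 := en.coc _ _ g' g
    have h2 := en.up _ _ g' g (fun y => a.op_sol _ _ y (v.sol ν' hν'))
      fun y => a.op_sol _ _ y (v.sol ν hν)
    have i1 := (ie ν ν hν hν).sub (n.int ν hν)
    have i2 := (ie ν' ν' hν' hν').sub (n.int ν' hν')
    have h3 := integral_mono (en.int _ _ g' (g.int.sub g'.int))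
      (((ie' ν ν' hν hν').add i1).sub i2) fun y => by
        have h4 := mul_le_mul_of_nonneg_right (add_one_le_exp (phi C ν y - phi C ν' y))
          (mul_nonneg (exp_pos (phi C ν' y)).le (by linarith [hν'.nonneg y] : 0 ≤ 1 + ν' y))
        rw [← mul_assoc (exp _), ← exp_add, sub_add_cancel] at h4
        simp only [Pi.sub_apply, Pi.add_apply, (v.sol ν' hν').eq y]
        linarith
    rw [integral_sub' ((ie' ν ν' hν hν').add i1) i2, integral_add' (ie' ν ν' hν hν') i1,
      integral_sub' (ie ν ν hν hν) (n.int ν hν), integral_sub' (ie ν' ν' hν' hν') (n.int ν' hν'),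
      n.mi ν hν, n.mi ν' hν'] at h3
    simp only [Pi.sub_apply] at h3
    unfold GG
    linarith
  have ab : ∀ ν ν', Dens C ν → Dens C ν' →
      GG C μ ν' - GG C μ ν ≤ ∫ y, |ν' y - ν y| ∂μ := fun ν ν' hν hν' => by
    have i : ∀ ν, Dens C ν → Integrable ν μ := fun ν hν => by
      simpa only [one_mul] using a.dens_int ν hν (fun _ => 1) continuous_const
    refine (star ν ν' hν hν').trans (integral_mono (ie' ν ν' hν hν')
      ((i ν' hν').sub (i ν hν)).abs fun y => ?_)
    exact (mul_le_mul_of_nonneg_left (le_abs_self _) (exp_pos _).le).trans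
      (mul_le_of_le_one_left (abs_nonneg _) (exp_le_one_iff.2 ((v.sol ν hν).nonpos y)))
  refine ⟨by simp [GG, En, v.zero], star, fun ν ν' hν hν' => ⟨?_, ?_⟩, fun ν ν' hν hν' => ?_⟩
  · have h := star _ ν (a.dens_add ν ν' hν hν') hν
    simp only [Pi.add_apply, sub_add_cancel_left, mul_neg, integral_neg] at h
    linarith
  · simpa only [Pi.add_apply, add_sub_cancel_left] using star ν _ hν (a.dens_add ν ν' hν hν')
  · have h := ab ν' ν hν' hν
    simp only [abs_sub_comm (ν _)] at h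
    exact abs_le.2 ⟨by linarith, ab ν ν' hν hν'⟩

end Vale.Agent.P284Y.P
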