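import Vale.Agent.P284Y.P.A
import Vale.Agent.P284Y.P.Cut
import Vale.Agent.P284Y.P.Mc
import Vale.Agent.P284Y.P.Br
import Vale.Agent.P284Y.P.V
import Vale.Agent.P284Y.P.Green
import Vale.Agent.P284Y.P.Mi
import Vale.Agent.P284Y.P.En
import Vale.Agent.P284Y.P.Tq
import Vale.Agent.P284Y.P.Shr
import Vale.Agent.P284Y.P.St
import Vale.Agent.P284Y.P.Psh
import Vale.Agent.P284Y.Gen.PG

/-!
# P284Y, block P: the equation `MA φ = exp φ (1 + ν)` on a covering
-/

namespace Vale.Agent.P284Y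

/-- **P** -/
theorem stP : StP :=
  P.stP_of stPG P.stH P.stA P.stC P.stM P.stE P.stV P.stR P.stN P.stEn P.stG P.stSt P.stT P.stS

end Vale.Agent.P284Y
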