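import Vale.Agent.P284Y.P.Sk

/-!
# P284Y, block P, row A: pointwise facts on the Monge-Ampère operator
-/

open scoped ContDiff Topology ComplexOrder ENNReal Matrix
open Filter Set Function Metric MeasureTheory Real

noncomputable section

namespace Vale.Agent.P284Y.P

open Vale.Agent.P272.K Vale.Agent.P284.H650 Vale.Agent.P284Z J L

namespace A

section loc
variable {n : ℕ}

theorem cHess_add_const (f : Cm n → ℝ) (c : ℝ) (z : Cm n) :
    cHess (fun w => f w + c) z = cHess f z := by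
  have h : ∀ k, (dzb k fun y => ((f y + c : ℝ) : ℂ)) = dzb k fun y => (f y : ℂ) := fun k => by
    funext w
    simp only [dzb, Complex.ofReal_add, fderiv_add_const]
  simp only [cHess, h]

theorem det_nonneg {X : Mx n} (hX : X.PosSemidef) : 0 ≤ X.det.re :=
  (Complex.le_def.1 hX.det_nonneg).1

theorem det_mono {X Y : Mx n} (hX : X.PosSemidef) (h : (Y - X).PosSemidef) :
    X.det.re ≤ Y.det.re := by
  have h1 := md_mono (X := fun _ => X) (Y := fun _ => Y) (fun _ => hX) fun _ => h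
  rw [md_const, md_const] at h1
  exact le_of_mul_le_mul_left h1 (by positivity)

theorem md_tele (X Y : Mx n) : md (fun _ => Y) - md (fun _ => X) =
    ∑ k, md (update (fun i => if i < k then Y else X) k (Y - X)) := by
  let Z : ℕ → Fin n → Mx n := fun m i => if (i : ℕ) < m then Y else X
  have h1 : ∀ k : Fin n, md (update (fun i => if i < k then Y else X) k (Y - X)) =
      md (Z (k + 1)) - md (Z k) := fun k => by
    rw [← sl_apply, map_sub, sl_apply, sl_apply]
    congr 2 <;> funext i <;> by_cases hi : i = k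
    · subst hi
      simp [Z]
    · have : (i : ℕ) ≠ k := fun e => hi (Fin.ext e)
      have h2 : (i : ℕ) < k + 1 ↔ i < k := by rw [Fin.lt_def]; omega
      simp only [update_of_ne hi, Z, h2]
    · subst hi
      simp [Z]
    · simp only [update_of_ne hi, Z, Fin.lt_def]
  rw [Finset.sum_congr rfl fun k _ => h1 k,
    Fin.sum_univ_eq_sum_range (fun m => md (Z (m + 1)) - md (Z m)) n,
    Finset.sum_range_sub (fun m => md (Z m))]
  congr 2
  funext i
  simp [Z]

end loc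

variable {N : ℕ} {Γ M : Type} [Group Γ] [TopologicalSpace M] [MulAction Γ M] {C : Cov N Γ M}
  {γ : Γ} {a : C.I} {z : Cm N} {y : M} {u v : M → ℝ}

theorem om_congr (hz : z ∈ C.B 4 a) (A : ℝ) {c : ℝ}
    (h : ∀ᶠ x in 𝓝 (C.pt γ a z), u x = v x + c) : C.om A u γ a z = C.om A v γ a z := by
  rw [Cov.om, Cov.om, ← cHess_add_const (fun w => A * C.ρ a w + v (C.pt γ a w)) c]
  exact C2.cHess_congr (((C.ev_pt hz γ).1 h).mono fun w hw => by simp only [hw, add_assoc])

theorem om_const (c : ℝ) : C.om 1 (fun _ => c) γ a z = cHess (C.ρ a) z := by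
  rw [Cov.om, cHess_add_const]
  simp only [one_mul]

theorem om_sub (hz : z ∈ C.B 4 a) (A : ℝ) (hu : C.SmAt u (C.pt γ a z))
    (hv : C.SmAt v (C.pt γ a z)) :
    C.om A v γ a z - C.om A u γ a z = C.om 0 (fun x => v x - u x) γ a z := by
  rw [om_eq A hz hu, om_eq A hz hv, add_sub_add_left_eq_sub, ← hs_eq]
  exact (C2.cHess_sub ((hv γ a z hz rfl).of_le two_le) ((hu γ a z hz rfl).of_le two_le)).symm

theorem mD_re (X : Fin N → C.Fm) (y : M) : (C.mD X y).re =
    md (fun i => X i (C.ch₀ y).1 (C.ch₀ y).2.1 (C.ch₀ y).2.2) /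
      (cHess (C.ρ (C.ch₀ y).2.1) (C.ch₀ y).2.2).det.re := by
  rw [md, ← Complex.div_ofReal_re, (JGx.det_re (JGx.ch₀_spec y).1).2, Cov.mD]

theorem mD_re_pt {X : Fin N → C.Fm} (hz : z ∈ C.B 4 a) (h : ∀ i, C.FmAt (X i) (C.pt γ a z)) :
    (C.mD X (C.pt γ a z)).re = md (fun i => X i γ a z) / (cHess (C.ρ a) z).det.re := by
  rw [md, ← Complex.div_ofReal_re, (JGx.det_re hz).2, JGx.mD_pt jb X γ a z hz h]

theorem ma_mD (u : M → ℝ) (y : M) :
    ma C u y = (C.mD (fun _ => C.om 1 u) y).re / N.factorial := by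
  rw [mD_re, md_const, mul_div_assoc, mul_div_cancel_left₀ _ (by positivity), ma]

theorem ma_pt (hz : z ∈ C.B 4 a) (h : C.SmAt u (C.pt γ a z)) :
    ma C u (C.pt γ a z) = (C.om 1 u γ a z).det.re / (cHess (C.ρ a) z).det.re := by
  rw [ma_mD, mD_re_pt hz fun _ => JGx.fm_om jb 1 h, md_const, mul_div_assoc,
    mul_div_cancel_left₀ _ (by positivity)]

theorem ma_cont {D : Set M} (hD : IsOpen D) (h : ∀ y ∈ D, C.SmAt u y) :
    ContinuousOn (ma C u) D := by
  have h1 := JGx.cf_om jb 1 u D h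
  rw [funext (ma_mD u)]
  exact (Complex.continuous_re.comp_continuousOn (JGx.mD_cont jb _ D hD (fun _ => h1.1)
    fun _ γ a => continuousOn_pi.2 fun i => continuousOn_pi.2 fun j z hz =>
      ((h1.2 γ a).sm z hz i j).continuousAt.continuousWithinAt)).div_const _

theorem ma_congr {c : ℝ} (h : ∀ᶠ x in 𝓝 y, u x = v x + c) : ma C u y = ma C v y := by
  obtain ⟨h1, h2⟩ := JGx.ch₀_spec (C := C) y
  rw [ma, ma, om_congr h1 1 (h2.symm ▸ h)]

theorem ma_zero (c : ℝ) (y : M) : ma C (fun _ => c) y = 1 := by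
  rw [ma, om_const, div_self (JGx.det_re (JGx.ch₀_spec y).1).1.ne']

theorem ma_nonneg (h : OP C u y) : 0 ≤ ma C u y := by
  obtain ⟨h1, h2⟩ := JGx.ch₀_spec (C := C) y
  exact div_nonneg (det_nonneg (h.2 _ _ _ h1 h2)) (JGx.det_re h1).1.le

theorem op_chart (hz : z ∈ C.B 4 a) (h : ContDiffAt ℝ ∞ (fun w => u (C.pt γ a w)) z)
    (hp : (C.om 1 u γ a z).PosSemidef) : OP C u (C.pt γ a z) :=
  ⟨smAt_of_chart hz h, fun _ _ _ hz' e => psd_chart (JGx.fm_om jb 1
    ((mem_singleton_iff.1 e).symm ▸ smAt_of_chart hz h)) hz' hz e hp⟩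

theorem op_congr {c : ℝ} (h : ∀ᶠ x in 𝓝 y, u x = v x + c) (hv : OP C v y) : OP C u y :=
  ⟨JGx.sm_congr (sm_add hv.1 (sm_const c)) h, fun γ a z hz e => by
    rw [om_congr hz 1 ((mem_singleton_iff.1 e).symm ▸ h)]
    exact hv.2 γ a z hz e⟩

theorem op_const (c : ℝ) (y : M) : OP C (fun _ => c) y :=
  ⟨sm_const c, fun _ a z hz _ => om_const (C := C) c ▸ (C.ρ_pos a z hz).posSemidef⟩

theorem op_sol {ν φ : M → ℝ} (h : Sol C ν φ) (y : M) : OP C φ y := by
  obtain ⟨c, hc, hp⟩ := h.pos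
  refine ⟨h.sm y, fun γ a z hz e => ?_⟩
  have h1 := (hp γ a z hz (mem_univ _)).add (psd_smul ((op_const 0 y).2 γ a z hz e) hc.le)
  simpa only [Pi.sub_apply, Pi.smul_apply, sub_add_cancel] using h1

theorem ma_mono (hu : OP C u y) (hv : C.SmAt v y) (h : Psd C (C.om 1 v - C.om 1 u) {y}) :
    OP C v y ∧ ma C u y ≤ ma C v y := by
  refine ⟨⟨hv, fun γ a z hz e => ?_⟩, ?_⟩
  · simpa only [Pi.sub_apply, sub_add_cancel] using (h γ a z hz e).add (hu.2 γ a z hz e)
  · obtain ⟨h1, h2⟩ := JGx.ch₀_spec (C := C) y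
    exact div_le_div_of_nonneg_right (det_mono (hu.2 _ _ _ h1 h2) (h _ _ _ h1 h2))
      (JGx.det_re h1).1.le

theorem psd_max (hu : C.SmAt u y) (hv : C.SmAt v y) (h : IsLocalMax (fun x => u x - v x) y) :
    Psd C (C.om 1 v - C.om 1 u) {y} := fun γ a z hz e => by
  obtain rfl : C.pt γ a z = y := e
  have h1 := (hu γ a z hz rfl).of_le two_le
  have h2 := (hv γ a z hz rfl).of_le two_le
  have h3 := P272.K.N.neg_cHess_posSemidef (h1.sub h2)
    (h.comp_continuous (C.continuousAt_pt hz γ))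
  rw [C2.cHess_sub h1 h2, neg_sub] at h3
  rw [Pi.sub_apply, Pi.sub_apply, Pi.sub_apply, om_eq 1 hz hu, om_eq 1 hz hv,
    add_sub_add_left_eq_sub]
  exact h3

theorem ma_max (hu : OP C u y) (hv : C.SmAt v y) (h : IsLocalMax (fun x => u x - v x) y) :
    OP C v y ∧ ma C u y ≤ ma C v y := ma_mono hu hv (psd_max hu.1 hv h)

theorem op_glue {e : ℝ} (he : 0 < e) (hu : OP C u y) (hv : OP C v y) :
    OP C (fun x => u x + e * Gc ((v x - u x) / e)) y := by
  refine ⟨sm_add hu.1 (sm_mul (sm_const e) (sm_comp (f := fun x => (v x - u x) / e)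
    contDiff_Gc.contDiffAt fun γ a z hz h =>
      ((hv.1 γ a z hz h).sub (hu.1 γ a z hz h)).div_const e)), fun γ a z hz h => ?_⟩
  have s : ∀ f : M → ℝ, C.SmAt f y → ContDiffAt ℝ 2 (fun w => 1 * C.ρ a w + f (C.pt γ a w)) z :=
    fun f hf => ((contDiffAt_const.mul (C.ρ_sm a z hz)).add (hf γ a z hz h)).of_le two_le
  have p : ∀ f : M → ℝ, OP C f y →
      (cHess (fun w => e⁻¹ * (1 * C.ρ a w + f (C.pt γ a w))) z).PosSemidef := fun f hf => by
    rw [C2.cHess_const_mul _ (s f hf.1)]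
    exact psd_smul (hf.2 γ a z hz h) (inv_pos.2 he).le
  have h1 := contDiffAt_const.mul (s u hu.1) (f := fun _ => e⁻¹)
  have h2 := contDiffAt_const.mul (s v hv.1) (f := fun _ => e⁻¹)
  have h3 := psd_smul (psd_glue' h1 h2 (p u hu) (p v hv)) he.le
  rw [← C2.cHess_const_mul e (by
    exact h1.add (ContDiffAt.comp z (g := Gc) (contDiff_Gc.of_le two_le).contDiffAt
      (h2.sub h1)))] at h3
  refine (congrArg (fun f => (cHess f z).PosSemidef) (funext fun w => ?_)).mp h3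
  rw [mul_add, mul_inv_cancel_left₀ he.ne', add_assoc, ← mul_sub, add_sub_add_left_eq_sub,
    ← div_eq_inv_mul]

theorem tele (hu : C.SmAt u y) (hv : C.SmAt v y) : N.factorial * (ma C v y - ma C u y) =
    ∑ k, (C.mD (update (fun i => if i < k then C.om 1 v else C.om 1 u) k
      (C.om 0 fun x => v x - u x)) y).re := by
  obtain ⟨h1, h2⟩ := JGx.ch₀_spec (C := C) y
  rw [ma_mD, ma_mD, ← sub_div, mul_div_cancel₀ _ (by positivity), mD_re, mD_re, ← sub_div, md_tele,
    Finset.sum_div]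
  refine Finset.sum_congr rfl fun k _ => ?_
  rw [mD_re, JGx.upd, om_sub h1 1 (h2.symm ▸ hu) (h2.symm ▸ hv)]
  congr 3
  funext i
  split_ifs <;> rfl

theorem mp {D : Set M} {ψ v : M → ℝ} (hD : IsOpen D)
    (hc : UpperSemicontinuousOn (fun y => ψ y - v y) (closure D))
    (hb : ∀ y ∈ frontier D, ψ y ≤ v y)
    (hi : ∀ ε > (0 : ℝ), ∃ K, IsCompact K ∧ ∀ y ∈ D, y ∉ K → ψ y ≤ v y + ε)
    (h : ∀ y ∈ D, v y < ψ y → C.SmAt v y ∧ ∃ u, OP C u y ∧ u y = ψ y ∧
      (∀ᶠ x in 𝓝 y, u x ≤ ψ x) ∧ ma C v y < ma C u y) : ∀ y ∈ D, ψ y ≤ v y := by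
  intro y₀ h0
  by_contra hlt
  rw [not_le] at hlt
  obtain ⟨K, hK, hK'⟩ := hi ((ψ y₀ - v y₀) / 2) (by linarith)
  have h1 : y₀ ∈ K := by_contra fun k => by linarith [hK' y₀ h0 k]
  obtain ⟨y, hy, hm⟩ := UpperSemicontinuousOn.exists_isMaxOn (s := closure D ∩ K)
    ⟨y₀, subset_closure h0, h1⟩ (hK.inter_left isClosed_closure) (hc.mono inter_subset_left)
  have h2 : ψ y₀ - v y₀ ≤ ψ y - v y := hm ⟨subset_closure h0, h1⟩
  have h3 : y ∈ D := by_contra fun k => by
    linarith [hb y ⟨hy.1, by rwa [hD.interior_eq]⟩]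
  obtain ⟨s, u, h4, h5, h6, h7⟩ := h y h3 (by linarith)
  refine h7.not_ge (ma_max h4 s ?_).2
  filter_upwards [h6, hD.mem_nhds h3] with x k1 k2
  have h8 : ψ x - v x ≤ ψ y - v y := by
    by_cases k : x ∈ K
    · exact hm ⟨subset_closure k2, k⟩
    · linarith [hK' x k2 k]
  linarith

theorem dens_add {ν ν' : M → ℝ} (h : Dens C ν) (h' : Dens C ν') : Dens C (ν + ν') := by
  obtain ⟨K, hK, k⟩ := h.cpt
  obtain ⟨K', hK', k'⟩ := h'.cpt
  exact ⟨fun y => sm_add (h.sm y) (h'.sm y), fun y => add_nonneg (h.nonneg y) (h'.nonneg y),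
    K ∪ K', hK.union hK', fun y hy => by
      rw [Pi.add_apply, k y fun e => hy (Or.inl e), k' y fun e => hy (Or.inr e), add_zero]⟩

theorem dens_smul {ν : M → ℝ} {c : ℝ} (hc : 0 ≤ c) (h : Dens C ν) : Dens C (c • ν) := by
  obtain ⟨K, hK, k⟩ := h.cpt
  exact ⟨fun y => sm_mul (sm_const c) (h.sm y), fun y => mul_nonneg hc (h.nonneg y), K, hK,
    fun y hy => by rw [Pi.smul_apply, k y hy, smul_zero]⟩

theorem dens_zero : Dens C 0 :=
  ⟨fun _ => sm_const 0, fun _ => le_rfl, ∅, isCompact_empty, fun _ _ => rfl⟩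

theorem dens_cont {ν : M → ℝ} (h : Dens C ν) : Continuous ν :=
  continuous_iff_continuousAt.2 fun y => JGx.sm_cont (h.sm y)

theorem dens_bd {ν : M → ℝ} (h : Dens C ν) : ∃ A ≥ (0 : ℝ), ∀ y, ν y ≤ A := by
  obtain ⟨K, hK, k⟩ := h.cpt
  obtain ⟨A, hA⟩ := hK.bddAbove_image (dens_cont h).continuousOn
  refine ⟨max A 0, le_max_right _ _, fun y => ?_⟩
  by_cases hy : y ∈ K
  · exact (hA ⟨y, hy, rfl⟩).trans (le_max_left _ _)
  · exact (k y hy).trans_le (le_max_right _ _)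

variable [T2Space M] [MeasurableSpace M] [BorelSpace M] {μ : Measure M}

theorem int_cpt (hμ : C.Vol μ) {K : Set M} {f : M → ℝ} (hK : IsCompact K)
    (hf : ContinuousOn f K) : IntegrableOn f K μ :=
  haveI : IsFiniteMeasureOnCompacts μ := ⟨fun K hK => JGx.fin hμ K hK⟩
  hf.integrableOn_compact hK

theorem dens_int (hμ : C.Vol μ) {ν f : M → ℝ} (h : Dens C ν) (hf : Continuous f) :
    Integrable (fun y => f y * ν y) μ := by
  obtain ⟨K, hK, k⟩ := h.cpt
  exact JGx.integ hμ hK (hf.mul (dens_cont h)).continuousOn fun y hy => by rw [k y hy, mul_zero]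

end A

theorem stA : StA := by
  intro N Γ M _ _ _ _ _ _ _ _ C μ _ _ hμ
  exact
    { ma_pt := fun _ _ _ _ hz h => A.ma_pt hz h
      ma_mD := A.ma_mD
      ma_cont := fun _ _ => A.ma_cont
      ma_congr := fun _ _ _ _ => A.ma_congr
      ma_zero := A.ma_zero
      ma_nonneg := fun _ _ => A.ma_nonneg
      op_chart := fun _ _ _ _ => A.op_chart
      op_congr := fun _ _ _ _ => A.op_congr
      op_const := A.op_const
      op_sol := fun _ _ y h => A.op_sol h y
      ma_mono := fun _ _ _ => A.ma_mono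
      ma_max := fun _ _ _ => A.ma_max
      op_glue := fun _ _ _ _ => A.op_glue
      tele := fun _ _ _ => A.tele
      mp := fun _ _ _ => A.mp
      dens_add := fun _ _ => A.dens_add
      dens_smul := fun _ _ => A.dens_smul
      dens_zero := A.dens_zero
      dens_bd := fun _ h => ⟨A.dens_cont h, A.dens_bd h⟩
      int_cpt := fun _ _ => A.int_cpt hμ
      dens_int := fun _ h _ hf => A.dens_int hμ h hf }

end Vale.Agent.P284Y.P
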