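import Vale.Agent.P284Y.P.Sk
import Vale.Agent.P284Z.A.Tr
import Vale.Agent.P284Z.A.PU
import Vale.Agent.P284.H639.CY.M2
import Vale.Agent.P272.K.EST.Local
import Vale.Agent.P272.K.N.MaxP

/-!
# P284Y, block P, row E: the data `Coc`, `KM` of a covering `Cov`, the uniform `C²` estimate
-/

open scoped ContDiff Topology ComplexOrder ComplexConjugate
open Filter Set Metric

noncomputable section

namespace Vale.Agent.P284Y.P

open Vale.Agent.P272.K Vale.Agent.P284.H894 Vale.Agent.P284.H894.V Vale.Agent.P284.H409.K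
  Vale.Agent.P284Z Vale.Agent.P284Z.A Vale.Agent.P284Z.J

variable {N : ℕ} {Γ M : Type} [Group Γ] [TopologicalSpace M] [MulAction Γ M] [T2Space M]
  [ConnectedSpace M] (C : Cov N Γ M)

omit [ConnectedSpace M] in
theorem exists_M : ∃ B : ℝ, 1 ≤ B ∧ ∀ a b, ∀ z ∈ cO C a b, ‖fderiv ℂ (T C a b) z‖ ≤ B := by
  have h2 : ∀ a b, ∃ B : ℝ, ∀ z ∈ cO C a b, ‖fderiv ℂ (T C a b) z‖ ≤ B := fun a b =>
    (cO_compact a b).exists_bound_of_continuousOn fun z hz =>
      (T_an hz.2.1).fderiv.continuousAt.continuousWithinAt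
  choose B hB using h2
  obtain ⟨B', hB'⟩ := (finite_range fun q : C.I × C.I => B q.1 q.2).bddAbove
  exact ⟨max 1 B', le_max_left _ _, fun a b z hz =>
    (hB a b z hz).trans ((hB' ⟨(a, b), rfl⟩).trans (le_max_right _ _))⟩

/-- the data `Coc` of the covering -/
@[reducible] def coc : Coc N Γ where
  I := C.I
  fin := C.fin
  ne := by
    obtain ⟨-, a, -⟩ := C.cover (Classical.arbitrary M)
    exact ⟨a⟩
  c := C.c
  r := C.r
  r_pos := C.r_pos
  O := O C
  T := T C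
  g _ _ _ := 1
  κ a b z := (kp C a b z)⁻¹
  O_open := O_open
  O_sub _ _ _ hz := O_B hz
  O_self a := Subset.antisymm (fun _ hz => O_B hz) fun _ hz => ⟨1, (ov_self hz).1⟩
  T_self a z hz := by rw [T_eq (ov_self (O_B hz)).1, (ov_self (O_B hz)).2]
  g_self _ _ _ := rfl
  κ_self a z hz := by rw [kp_eq (ov_self (O_B hz)).1, inv_one]
  T_mem _ _ _ hz := T_mem hz
  trans_mem _ _ _ _ hz h := (trans_all hz h).1
  trans_T _ _ _ _ hz h := (trans_all hz h).2.1
  trans_g _ _ _ _ _ _ := (one_mul _).symm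
  trans_κ a b d z hz h := by rw [(trans_all hz h).2.2, mul_inv_rev]
  T_holo _ _ _ hz := (T_an hz).differentiableAt.differentiableWithinAt
  g_holo _ _ := differentiableOn_const _
  g_ne _ _ _ _ := one_ne_zero
  κ_loc a b z hz := (kp_ev hz).mono fun w hw => by rw [hw.2]
  cover _ _ hz := cover' hz
  closed a b _ hQ hQs _ hz h := closed' a b hQ hQs hz h
  N := (exists_N C).choose
  κ_mem a b z hz h1 h2 := (exists_N C).choose_spec a b z (mem_cO hz h1 h2)
  M := (exists_M C).choose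
  M_one := (exists_M C).choose_spec.1
  g_le _ _ _ _ _ _ := by rw [norm_one]; exact (exists_M C).choose_spec.1
  T_le a b z hz h1 h2 := (exists_M C).choose_spec.2 a b z (mem_cO hz h1 h2)
  conn := conn'

theorem quad_re (H : Mx N) (v : Cm N) :
    (∑ j, ∑ k, H j k * v j * conj (v k)).re = (quad H v).re := by
  simp only [quad, cj, mul_assoc]

theorem quad_c (c : ℝ) (v : Cm N) : (quad ((c : ℂ) • (1 : Mx N)) v).re = c * ∑ j, ‖v j‖ ^ 2 := by
  rw [EST.quad_smulM, Complex.re_ofReal_mul]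
  congr 1
  rw [quad, Complex.re_sum]
  refine Finset.sum_congr rfl fun i _ => ?_
  rw [Finset.sum_eq_single i (fun j _ hj => by simp [Matrix.one_apply_ne hj.symm]) (by simp)]
  simp [cj, Complex.mul_conj, Complex.normSq_eq_norm_sq, -Complex.ofReal_pow]

theorem det_c (c : ℝ) : ((c : ℂ) • (1 : Mx N)).det.re = c ^ N := by
  rw [Matrix.det_smul, Matrix.det_one, mul_one, Fintype.card_fin, ← Complex.ofReal_pow,
    Complex.ofReal_re]

theorem exists_km (h : Bdd C) : ∃ K : KM (coc C), ∀ a, K.w a = cHess (C.ρ a) := by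
  obtain ⟨lam, hl, Lam, h⟩ := h
  have q1 : ∀ v : Cm N, (0 : ℝ) ≤ ∑ j, ‖v j‖ ^ 2 := fun v => by positivity
  refine ⟨⟨fun a => cHess (C.ρ a), fun a => ⟨isOpen_ball,
    fun z hz => INT.smooth_cHess (C.ρ_sm a z hz), C.ρ_pos a,
    fun z hz i j k => INT.cHess_closed (C.ρ_sm a z hz) k i j⟩, fun a b z hz => ?_,
    min lam (lam ^ N), by positivity, max Lam (Lam ^ N), fun a z hz v => ?_, fun a z hz v => ?_,
    fun a z hz => ?_, fun a z hz => ?_⟩, fun _ => rfl⟩
  · have e : jac (coc C) a b z = jm (C.tr (kp C a b z) a b) z := by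
      rw [← JGx.jm_congr (T_ev (kp_ov hz))]
      ext p i
      have d := (T_an hz).differentiableAt
      exact (dz_of_holo (differentiableAt_pi.1 d p)).trans (by
        rw [jm_apply, fderiv_apply d p]; rfl)
    rw [e]
    exact JGx.rho_ch jb (kp_ov hz)
  · have := quad_nonneg (h a z hz).1 v
    rw [EST.quad_sub, Complex.sub_re, quad_c] at this
    rw [quad_re]
    nlinarith [min_le_left lam (lam ^ N), q1 v]
  · have := quad_nonneg (h a z hz).2 v
    rw [EST.quad_sub, Complex.sub_re, quad_c] at this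
    rw [quad_re]
    nlinarith [le_max_left Lam (Lam ^ N), q1 v]
  · exact ((P272.K.N.det_re_le (C.ρ_pos a z hz) (h a z hz).2).trans_eq (det_c Lam)).trans
      (le_max_right _ _)
  · exact (min_le_right _ _).trans ((det_c lam).ge.trans (P272.K.N.det_re_le
      (Matrix.PosDef.one.smul (by exact_mod_cast hl)) (h a z hz).1))

theorem pt_coc {a b : C.I} {z : Cm N} (hz : z ∈ O C a b) (γ : Γ) :
    C.pt (γ * (coc C).κ a b z) b ((coc C).T a b z) = C.pt γ a z := by
  have := C.pt_tr (kp_ov hz) (γ * (kp C a b z)⁻¹)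
  rwa [inv_mul_cancel_right] at this

theorem smF {f : M → ℝ} (h : ∀ y, C.SmAt f y) : SmF (coc C) fun γ a z => f (C.pt γ a z) :=
  ⟨fun γ a z hz => h _ γ a z hz rfl, fun γ a b z hz => by rw [pt_coc C hz]⟩

/-- the function on the covering given by a family -/
theorem exists_fun {f : Γ → C.I → Cm N → ℝ} (h : SmF (coc C) f) :
    ∃ u : M → ℝ, ∀ γ a, ∀ z ∈ C.B 4 a, u (C.pt γ a z) = f γ a z := by
  refine ⟨fun y => f (C.ch₀ y).1 (C.ch₀ y).2.1 (C.ch₀ y).2.2, fun γ a z hz => ?_⟩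
  obtain ⟨h1, h2⟩ := JGx.ch₀_spec (C := C) (C.pt γ a z)
  obtain ⟨h3, h4⟩ := C.Ov_of_eq hz h1 h2.symm
  rw [h.compat γ a _ z ⟨_, h3⟩]
  have e1 : (coc C).κ a _ z = _ := congrArg Inv.inv (kp_eq h3)
  have e2 : (coc C).T a _ z = _ := (T_eq h3).trans h4
  rw [e1, e2, mul_inv_rev, inv_inv, mul_inv_cancel_left]

open Vale.Agent.P284.H639.CY Vale.Agent.P272.K.C2 in
/-- The `C²` estimate, uniform in the right hand side. -/
theorem c2_unif {n : ℕ} [NeZero n] (D : Coc n Γ) (K : KM D) (B : ℝ) (hB : 0 ≤ B) :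
    ∃ L : ℝ, 0 < L ∧ ∀ F φ : Γ → D.I → Cm n → ℝ, SmF D F →
      (∀ γ a, ∀ z ∈ D.Ω a, |F γ a z| ≤ B) →
      (∀ γ a, ∀ z ∈ D.V a, ∀ i j, ‖cHess (F γ a) z i j‖ ≤ B) →
      MAF D K (fun γ a z => 1 * F γ a z) φ → (∀ γ a, ∀ z ∈ D.Ω a, |φ γ a z| ≤ B) →
      (∃ c : ℝ, 0 < c ∧ ∀ γ a, ∀ z ∈ D.Ω a,
        (K.w a z + cHess (φ γ a) z - (c : ℂ) • K.w a z).PosSemidef) →
      ∀ γ a, ∀ z ∈ D.Ω a,
        ((L : ℂ) • (K.w a z + cHess (φ γ a) z) - K.w a z).PosSemidef ∧
        ((L : ℂ) • K.w a z - (K.w a z + cHess (φ γ a) z)).PosSemidef := by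
  choose Ma hMa0 hMa using fun a : D.I => exists_bdL (K.ku a) (isCompact_closedBall _ _)
    (closedBall_subset_ball (by linarith [D.r_pos a]) : closedBall (D.c a) (3 * D.r a) ⊆ D.Ω a)
  set m : ℝ := (∑ a, Ma a) + B with hm
  have hm0 : 0 ≤ m := add_nonneg (Finset.sum_nonneg fun a _ => hMa0 a) hB
  set A : ℝ := n ^ 4 * m ^ 3 * (1 + m) with hA
  have hA0 : 0 ≤ A := by positivity
  set C1 : ℝ := 2 * (1 + (A + 1) * n) * Real.exp ((A + 1) * (2 * B) + 1) with hC1
  have hC1pos : 0 < C1 := by positivity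
  have hC2 : 0 ≤ n * (C1 ^ (n - 1) * Real.exp (B + B)) := by positivity
  refine ⟨C1 + n * (C1 ^ (n - 1) * Real.exp (B + B)), by linarith,
    fun F φ hF hFB hFH h hφM hc γ a z hz => ?_⟩
  have hb : ∀ γ a, ∀ z ∈ D.V a, BdL (K.w a) (F γ a) m z := by
    intro γ a z hz
    have h1 := hMa a (F γ a) B hB z (ball_subset_closedBall hz) (hFH γ a z hz)
    have h2 : Ma a + B ≤ m := by
      have := Finset.single_le_sum (f := Ma) (fun a _ => hMa0 a) (Finset.mem_univ a)
      rw [hm]; linarith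
    exact ⟨fun k l i j => (h1.rm k l i j).trans h2, fun s h0 h1' i j =>
      (h1.th s h0 h1' i j).trans h2, fun i j => (h1.met i j).trans h2, h1.inv.trans h2⟩
  have hGp : (K.w a z + cHess (φ γ a) z).PosDef := h.pos γ a z hz
  have hHp := (K.ku a).pos z hz
  have ht : tauF K φ γ a z ≤ C1 := tauF_le hF hm0 le_rfl hb zero_le_one le_rfl h hφM hc γ a z hz
  have htx : tauF K φ γ a z = ((K.w a z + cHess (φ γ a) z)⁻¹ * K.w a z).trace.re := rfl
  have hS1 : (((tauF K φ γ a z : ℝ) : ℂ) • (K.w a z + cHess (φ γ a) z) - K.w a z).PosSemidef := by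
    rw [htx, trace_re_eq hGp hHp]
    exact trace_smul_sub_posSemidef hGp hHp.posSemidef
  have hS1' := psd_mono hGp ht hS1
  refine ⟨psd_mono hGp (by linarith) hS1', ?_⟩
  have hdet : (K.w a z + cHess (φ γ a) z).det.re ≤ Real.exp (B + B) * (K.w a z).det.re := by
    have h1 := h.eq γ a z hz
    have h2 := abs_le.1 (hφM γ a z hz)
    have h4 := abs_le.1 (hFB γ a z hz)
    have h6 := Real.exp_le_exp.2 (show Real.log (K.w a z + cHess (φ γ a) z).det.re ≤
        B + B + Real.log (K.w a z).det.re by linarith)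
    rwa [Real.exp_log (det_re_pos hGp), Real.exp_add, Real.exp_log (det_re_pos hHp)] at h6
  have h7 := trace_inv_mul_le hGp hHp hC1pos hS1' hdet
  rw [Fintype.card_fin] at h7
  have hS2 : (((((K.w a z)⁻¹ * (K.w a z + cHess (φ γ a) z)).trace.re : ℝ) : ℂ) • K.w a z -
      (K.w a z + cHess (φ γ a) z)).PosSemidef := by
    rw [trace_re_eq hHp hGp]
    exact trace_smul_sub_posSemidef hHp hGp.posSemidef
  exact psd_mono hHp (by linarith) hS2

end Vale.Agent.P284Y.P
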