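import Vale.Agent.P284Z.L.Gc
import Vale.Agent.P284Y.GenSpec

/-!
# P284Y, block P: the equation `MA(φ) = exp φ (1 + ν)` on a covering. Definitions.

See notes/P284_helper87.md, section P.
-/

open scoped ContDiff Topology ComplexOrder ENNReal Matrix
open Filter Set Function Metric MeasureTheory Real

noncomputable section

namespace Vale.Agent.P284Y.P

open Vale.Agent.P272.K Vale.Agent.P284.H650 Vale.Agent.P284Z J L

variable {N : ℕ} {Γ M : Type} [Group Γ] [TopologicalSpace M] [MulAction Γ M] (C : Cov N Γ M)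

/-- the Kähler form is uniformly equivalent to the euclidean form in the charts -/
def Bdd : Prop := ∃ lam > (0 : ℝ), ∃ Lam : ℝ, ∀ a, ∀ z ∈ C.B 4 a,
  (cHess (C.ρ a) z - (lam : ℂ) • (1 : Mx N)).PosSemidef ∧
    ((Lam : ℂ) • (1 : Mx N) - cHess (C.ρ a) z).PosSemidef

/-- the Monge-Ampère operator `det (Ω + i∂∂̄u) / det Ω` -/
def ma (u : M → ℝ) (y : M) : ℝ :=
  (C.om 1 u (C.ch₀ y).1 (C.ch₀ y).2.1 (C.ch₀ y).2.2).det.re /
    (cHess (C.ρ (C.ch₀ y).2.1) (C.ch₀ y).2.2).det.re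

/-- `u` is smooth at `y` and `Ω + i∂∂̄u ≥ 0` at `y` -/
def OP (u : M → ℝ) (y : M) : Prop := C.SmAt u y ∧ Psd C (C.om 1 u) {y}

/-- smooth nonnegative densities with compact support -/
structure Dens (ν : M → ℝ) : Prop where
  sm : ∀ y, C.SmAt ν y
  nonneg : ∀ y, 0 ≤ ν y
  cpt : ∃ K, IsCompact K ∧ ∀ y ∉ K, ν y = 0

/-- bound of the derivatives of order at most two in the charts -/
def B2 (k : ℝ) (u : M → ℝ) (B : ℝ) : Prop := ∀ γ a, ∀ z ∈ C.B k a, |u (C.pt γ a z)| ≤ B ∧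
  ‖fderiv ℝ (fun w => u (C.pt γ a w)) z‖ ≤ B ∧
  ‖fderiv ℝ (fderiv ℝ fun w => u (C.pt γ a w)) z‖ ≤ B

/-- `φ` solves the equation -/
structure Sol (ν φ : M → ℝ) : Prop where
  sm : ∀ y, C.SmAt φ y
  pos : ∃ c > (0 : ℝ), Psd C (C.om 1 φ - (c : ℂ) • C.om 1 fun _ => 0) univ
  eq : ∀ y, ma C φ y = exp (φ y) * (1 + ν y)
  nonpos : ∀ y, φ y ≤ 0
  decay : ∀ ε > (0 : ℝ), ∃ K, IsCompact K ∧ ∀ y ∉ K, -ε ≤ φ y
  bd : ∃ B, B2 C 3 φ B

open Classical in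
/-- the solution -/
def phi (ν : M → ℝ) : M → ℝ := if h : ∃ φ, Sol C ν φ then h.choose else 0

/-- a smooth exhaustion with bounded derivatives and exponential growth -/
structure Slow (l : M → ℝ) : Prop where
  sm : ∀ y, C.SmAt l y
  nonneg : ∀ y, 0 ≤ l y
  cpt : ∀ c, IsCompact {y | l y ≤ c}
  bd : ∃ B, ∀ γ a, ∀ z ∈ C.B 3 a, ‖fderiv ℝ (fun w => l (C.pt γ a w)) z‖ ≤ B ∧
    ‖fderiv ℝ (fderiv ℝ fun w => l (C.pt γ a w)) z‖ ≤ B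
  form : ∃ B ≥ (0 : ℝ), Psd C ((B : ℂ) • C.om 1 (fun _ => 0) - C.gg l l) univ ∧
    Psd C ((B : ℂ) • C.om 1 (fun _ => 0) - C.om 0 l) univ ∧
    Psd C ((B : ℂ) • C.om 1 (fun _ => 0) + C.om 0 l) univ
  card : ∃ B ≥ (0 : ℝ), ∀ R ≥ (0 : ℝ), ∃ S : Finset Γ, (S.card : ℝ) ≤ exp (B * (R + 1)) ∧
    ∀ γ a, ∀ z ∈ C.B 3 a, l (C.pt γ a z) ≤ R → γ ∈ S

variable [MeasurableSpace M] (μ : Measure M)

/-- the relative Monge-Ampère energy -/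
def En (u v : M → ℝ) : ℝ := ∫ r in (0 : ℝ)..1,
  ∫ y, (v y - u y) * ma C (fun x => u x + r * (v x - u x)) y ∂μ

/-- the energy of `ν` -/
def GG (ν : M → ℝ) : ℝ := -En C μ (fun _ => 0) (phi C ν)

/-- pointwise facts -/
structure PA : Prop where
  ma_pt : ∀ u γ a, ∀ z ∈ C.B 4 a, C.SmAt u (C.pt γ a z) →
    ma C u (C.pt γ a z) = (C.om 1 u γ a z).det.re / (cHess (C.ρ a) z).det.re
  ma_mD : ∀ u y, ma C u y = (C.mD (fun _ => C.om 1 u) y).re / N.factorial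
  ma_cont : ∀ u D, IsOpen D → (∀ y ∈ D, C.SmAt u y) → ContinuousOn (ma C u) D
  ma_congr : ∀ u v y c, (∀ᶠ x in 𝓝 y, u x = v x + c) → ma C u y = ma C v y
  ma_zero : ∀ c y, ma C (fun _ => c) y = 1
  ma_nonneg : ∀ u y, OP C u y → 0 ≤ ma C u y
  op_chart : ∀ u γ a, ∀ z ∈ C.B 4 a, ContDiffAt ℝ ∞ (fun w => u (C.pt γ a w)) z →
    (C.om 1 u γ a z).PosSemidef → OP C u (C.pt γ a z)
  op_congr : ∀ u v y c, (∀ᶠ x in 𝓝 y, u x = v x + c) → OP C v y → OP C u y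
  op_const : ∀ c y, OP C (fun _ => c) y
  op_sol : ∀ ν φ y, Sol C ν φ → OP C φ y
  ma_mono : ∀ u v y, OP C u y → C.SmAt v y → Psd C (C.om 1 v - C.om 1 u) {y} →
    OP C v y ∧ ma C u y ≤ ma C v y
  ma_max : ∀ u v y, OP C u y → C.SmAt v y → IsLocalMax (fun x => u x - v x) y →
    OP C v y ∧ ma C u y ≤ ma C v y
  /-- the regularised maximum -/
  op_glue : ∀ u v y, ∀ e > (0 : ℝ), OP C u y → OP C v y →
    OP C (fun x => u x + e * Gc ((v x - u x) / e)) y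
  tele : ∀ u v y, C.SmAt u y → C.SmAt v y → N.factorial * (ma C v y - ma C u y) =
    ∑ k, (C.mD (update (fun i => if i < k then C.om 1 v else C.om 1 u) k
      (C.om 0 fun x => v x - u x)) y).re
  /-- the maximum principle -/
  mp : ∀ (D : Set M) (ψ v : M → ℝ), IsOpen D →
    UpperSemicontinuousOn (fun y => ψ y - v y) (closure D) → (∀ y ∈ frontier D, ψ y ≤ v y) →
    (∀ ε > (0 : ℝ), ∃ K, IsCompact K ∧ ∀ y ∈ D, y ∉ K → ψ y ≤ v y + ε) →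
    (∀ y ∈ D, v y < ψ y → C.SmAt v y ∧ ∃ u, OP C u y ∧ u y = ψ y ∧ (∀ᶠ x in 𝓝 y, u x ≤ ψ x) ∧
      ma C v y < ma C u y) → ∀ y ∈ D, ψ y ≤ v y
  dens_add : ∀ ν ν', Dens C ν → Dens C ν' → Dens C (ν + ν')
  dens_smul : ∀ ν, ∀ c ≥ (0 : ℝ), Dens C ν → Dens C (c • ν)
  dens_zero : Dens C 0
  dens_bd : ∀ ν, Dens C ν → Continuous ν ∧ ∃ A ≥ (0 : ℝ), ∀ y, ν y ≤ A
  int_cpt : ∀ (K : Set M) (f : M → ℝ), IsCompact K → ContinuousOn f K → IntegrableOn f K μ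
  dens_int : ∀ ν, Dens C ν → ∀ f : M → ℝ, Continuous f → Integrable (fun y => f y * ν y) μ

/-- cut-off functions -/
structure PC : Prop where
  cut : ∀ K D : Set M, IsCompact K → IsOpen D → K ⊆ D → ∃ χ : M → ℝ, (∀ y, C.SmAt χ y) ∧
    (∀ y, χ y ∈ Icc (0 : ℝ) 1) ∧ (∀ᶠ y in 𝓝ˢ K, χ y = 1) ∧
    ∃ K', IsCompact K' ∧ K' ⊆ D ∧ ∀ y ∉ K', χ y = 0
  slow : ∃ l, Slow C l

/-- Stokes and the comparison of the masses -/
structure PM : Prop where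
  stokes : ∀ (D K : Set M) (u v : M → ℝ), IsOpen D → IsCompact K → K ⊆ D →
    (∀ y ∈ D, C.SmAt u y ∧ C.SmAt v y) → (∀ y ∈ D, y ∉ K → u y = v y) →
    ∫ y in K, ma C u y ∂μ = ∫ y in K, ma C v y ∂μ
  mc : ∀ (D K : Set M) (a b : M → ℝ), IsOpen D → IsCompact K → K ⊆ D →
    (∀ y ∈ D, OP C a y ∧ OP C b y) → (∀ y ∈ D, b y < a y → y ∈ K) →
    MeasurableSet {y ∈ D | b y < a y} ∧ IntegrableOn (ma C a) {y ∈ D | b y < a y} μ ∧
    IntegrableOn (ma C b) {y ∈ D | b y < a y} μ ∧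
    ∫ y in {y ∈ D | b y < a y}, ma C a y ∂μ ≤ ∫ y in {y ∈ D | b y < a y}, ma C b y ∂μ

/-- the same in `ℂ^k` -/
structure PL : Prop where
  stokes : ∀ (k : ℕ) (D K : Set (Cm k)) (u v : Cm k → ℝ), IsOpen D → IsCompact K → K ⊆ D →
    Sm D u → Sm D v → (∀ z ∈ D, z ∉ K → u z = v z) →
    ∫ z in K, (cHess u z).det.re = ∫ z in K, (cHess v z).det.re
  mc : ∀ (k : ℕ) (D K : Set (Cm k)) (a b : Cm k → ℝ), IsOpen D → IsCompact K → K ⊆ D →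
    Sm D a → Sm D b → (∀ z ∈ D, (cHess a z).PosSemidef ∧ (cHess b z).PosSemidef) →
    (∀ z ∈ D, b z < a z → z ∈ K) →
    MeasurableSet {z ∈ D | b z < a z} ∧
    IntegrableOn (fun z => (cHess a z).det.re) {z ∈ D | b z < a z} ∧
    IntegrableOn (fun z => (cHess b z).det.re) {z ∈ D | b z < a z} ∧
    ∫ z in {z ∈ D | b z < a z}, (cHess a z).det.re ≤ ∫ z in {z ∈ D | b z < a z}, (cHess b z).det.re

end Vale.Agent.P284Y.P
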