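import Vale.Agent.P284Y.P.Sk
import Vale.Agent.P284Z.J.JA
import Vale.Agent.P284Z.J.Cap

/-!
# P284Y, block P, row R: bounds and cut-off functions
-/

open scoped ContDiff Topology ComplexOrder ComplexConjugate ENNReal Matrix
open Filter Set Function Metric MeasureTheory Real

noncomputable section

namespace Vale.Agent.P284Y.P.Gr

open Vale.Agent.P272.K Vale.Agent.P284.H650 Vale.Agent.P284Z J L

section loc
variable {n : ℕ} {z : Cm n} {f h : Cm n → ℝ}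

theorem app_le {F : Type} [NormedAddCommGroup F] [NormedSpace ℝ F] (A : Cm n →L[ℝ] F) (j : Fin n)
    {c : ℂ} (hc : ‖c‖ = 1) : ‖A (Pi.single j c)‖ ≤ ‖A‖ := by
  simpa [Pi.norm_single, hc] using A.le_opNorm (Pi.single j c)

theorem nrm (a b : ℝ) : ‖(a : ℂ) + Complex.I * b‖ ≤ |a| + |b| :=
  (norm_add_le _ _).trans (by simp)

theorem norm_dzbv (f : Cm n → ℝ) (z : Cm n) (j : Fin n) : ‖dzbv f z j‖ ≤ ‖fderiv ℝ f z‖ := by
  have h1 := app_le (fderiv ℝ f z) j (c := 1) norm_one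
  have h2 := app_le (fderiv ℝ f z) j Complex.norm_I
  rw [dzbv, N.dzb_ofReal, norm_div, Complex.norm_two, div_le_iff₀ two_pos]
  refine (nrm _ _).trans ?_
  rw [Real.norm_eq_abs] at h1 h2
  linarith

theorem dzbv_eq (f : Cm n → ℝ) (z : Cm n) : dzbv f z = star (dzv f z) :=
  funext fun j => AMP.dzb_real_eq f z j

theorem norm_gg (f h : Cm n → ℝ) (z : Cm n) (i j : Fin n) :
    ‖gg f h z i j‖ ≤ ‖fderiv ℝ f z‖ * ‖fderiv ℝ h z‖ := by
  have h1 := norm_dzbv f z i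
  rw [dzbv_eq, Pi.star_apply, norm_star] at h1
  exact (norm_mul_le _ _).trans (mul_le_mul h1 (norm_dzbv h z j) (norm_nonneg _) (norm_nonneg _))

theorem norm_cHess (hf : ContDiffAt ℝ 2 f z) (i j : Fin n) :
    ‖cHess f z i j‖ ≤ ‖fderiv ℝ (fderiv ℝ f) z‖ := by
  have k : ∀ c d : ℂ, ‖c‖ = 1 → ‖d‖ = 1 →
      |fderiv ℝ (fderiv ℝ f) z (Pi.single i c) (Pi.single j d)| ≤ ‖fderiv ℝ (fderiv ℝ f) z‖ :=
    fun c d hc hd => (app_le _ j hd).trans (app_le (fderiv ℝ (fderiv ℝ f) z) i hc)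
  rw [N.cHess_eq_lev ((hf.fderiv_right (m := 1) le_rfl).differentiableAt one_ne_zero),
    N.lev_apply, norm_div, div_le_iff₀ (by norm_num)]
  refine (nrm _ _).trans ((add_le_add (abs_add_le _ _) (abs_sub _ _)).trans ?_)
  have := k 1 1 norm_one norm_one
  have := k _ _ Complex.norm_I Complex.norm_I
  have := k 1 _ norm_one Complex.norm_I
  have := k _ 1 Complex.norm_I norm_one
  rw [show ‖(4 : ℂ)‖ = 4 by norm_num]
  linarith

theorem MD_bd (n : ℕ) (B : ℝ) :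
    ∃ K, ∀ X : Fin n → Mx n, (∀ i r s, ‖X i r s‖ ≤ B) → ‖MD X‖ ≤ K := by
  obtain ⟨K, hK⟩ := (isCompact_univ_pi fun _ : Fin n => isCompact_univ_pi fun _ : Fin n =>
    isCompact_univ_pi fun _ : Fin n => isCompact_closedBall (0 : ℂ) B).exists_bound_of_continuousOn
    (f := (MD : (Fin n → Mx n) → ℂ)) JGx.cont_MD.continuousOn
  exact ⟨K, fun X hX => hK X fun i _ r _ s _ => mem_closedBall_zero_iff.2 (hX i r s)⟩

theorem ev_diff (hf : ContDiffAt ℝ ∞ f z) : ∀ᶠ w in 𝓝 z, DifferentiableAt ℝ f w :=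
  (C2.eventually_contDiffAt (m := 1) (hf.of_le (by norm_cast))).mono fun _ hw =>
    hw.differentiableAt (by simp)

theorem diff2 (hf : ContDiffAt ℝ ∞ f z) : DifferentiableAt ℝ (fderiv ℝ f) z :=
  ((hf.of_le two_le).fderiv_right (m := 1) le_rfl).differentiableAt one_ne_zero

theorem lin_bd (hf : ContDiffAt ℝ ∞ f z) (hh : ContDiffAt ℝ ∞ h z) (s t : ℝ) :
    fderiv ℝ (fun w => s * f w + t * h w) z = s • fderiv ℝ f z + t • fderiv ℝ h z ∧
    fderiv ℝ (fderiv ℝ fun w => s * f w + t * h w) z =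
      s • fderiv ℝ (fderiv ℝ f) z + t • fderiv ℝ (fderiv ℝ h) z := by
  have e : fderiv ℝ (fun w => s * f w + t * h w) =ᶠ[𝓝 z]
      fun w => s • fderiv ℝ f w + t • fderiv ℝ h w := by
    filter_upwards [ev_diff hf, ev_diff hh] with w h1 h2
    exact ((h1.hasFDerivAt.const_mul s).add (h2.hasFDerivAt.const_mul t)).fderiv
  exact ⟨e.self_of_nhds, e.fderiv_eq.trans (((diff2 hf).hasFDerivAt.const_smul s).add
    ((diff2 hh).hasFDerivAt.const_smul t)).fderiv⟩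

theorem comp_bd {φ : ℝ → ℝ} (hφ : ContDiff ℝ ∞ φ) {A B : ℝ} (h1 : ∀ t, ‖deriv φ t‖ ≤ A)
    (h2 : ∀ t, ‖deriv (deriv φ) t‖ ≤ A) (hf : ContDiffAt ℝ ∞ f z) (b1 : ‖fderiv ℝ f z‖ ≤ B)
    (b2 : ‖fderiv ℝ (fderiv ℝ f) z‖ ≤ B) : ‖fderiv ℝ (fun w => φ (f w)) z‖ ≤ A * B ∧
      ‖fderiv ℝ (fderiv ℝ fun w => φ (f w)) z‖ ≤ A * B + A * B * B := by
  have hA := (norm_nonneg _).trans (h1 0)
  have hB := (norm_nonneg _).trans b1
  obtain ⟨d1, d2⟩ := contDiff_infty_iff_deriv.1 hφ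
  have e : fderiv ℝ (fun w => φ (f w)) =ᶠ[𝓝 z] fun w => deriv φ (f w) • fderiv ℝ f w := by
    filter_upwards [ev_diff hf] with w hw
    exact ((d1 _).hasDerivAt.comp_hasFDerivAt w hw.hasFDerivAt).fderiv
  have k : HasFDerivAt (fun w => deriv φ (f w)) (deriv (deriv φ) (f z) • fderiv ℝ f z) z :=
    (d2.differentiable (by simp) _).hasDerivAt.comp_hasFDerivAt z
      (ev_diff hf).self_of_nhds.hasFDerivAt
  refine ⟨?_, ?_⟩
  · rw [e.self_of_nhds, norm_smul]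
    exact mul_le_mul (h1 _) b1 (norm_nonneg _) hA
  · rw [e.fderiv_eq, (k.fun_smul (diff2 hf).hasFDerivAt).fderiv]
    refine (ContinuousLinearMap.opNorm_add_le _ _).trans (add_le_add ?_ ?_)
    · exact (ContinuousLinearMap.opNorm_smul_le _ _).trans
        (mul_le_mul (h1 _) b2 (ContinuousLinearMap.opNorm_nonneg _) hA)
    · rw [ContinuousLinearMap.norm_smulRight_apply, norm_smul]
      exact mul_le_mul (mul_le_mul (h2 _) b1 (norm_nonneg _) hA) b1 (norm_nonneg _)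
        (mul_nonneg hA hB)

theorem st_bd : ∃ A, ∀ a t : ℝ, ‖deriv (fun x => smoothTransition (a - x)) t‖ ≤ A ∧
    ‖deriv (deriv fun x => smoothTransition (a - x)) t‖ ≤ A := by
  have hs : HasCompactSupport (deriv smoothTransition) :=
    HasCompactSupport.intro isCompact_Icc fun x hx => st'_zero hx
  have hd := (contDiff_infty_iff_deriv.1 (smoothTransition.contDiff (n := ⊤))).2
  obtain ⟨A, hA⟩ := hd.continuous.bounded_above_of_compact_support hs
  obtain ⟨A', hA'⟩ := (hd.continuous_deriv (by simp)).bounded_above_of_compact_support hs.deriv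
  refine ⟨max A A', fun a t => ?_⟩
  rw [funext fun x => deriv_comp_const_sub smoothTransition a x, deriv.fun_neg,
    deriv_comp_const_sub, norm_neg, norm_neg, norm_neg]
  exact ⟨(hA _).trans (le_max_left _ _), (hA' _).trans (le_max_right _ _)⟩

end loc

variable {N : ℕ} {Γ M : Type} [Group Γ] [TopologicalSpace M] [MulAction Γ M] {C : Cov N Γ M}
  {X : Fin N → C.Fm} {k : Fin N} {H : C.Fm} {f h u : M → ℝ} {y : M} {B B' : ℝ}

theorem ch1 (y : M) : (C.ch₀ y).2.2 ∈ C.B 1 (C.ch₀ y).2.1 := by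
  rw [Cov.B, one_mul]
  exact (C.cover y).choose_spec.choose_spec.choose_spec.1

theorem bd_cB {V : Type} [NormedAddCommGroup V] {F : C.I → Cm N → V}
    (hF : ∀ a, ∀ z ∈ C.B 4 a, ContinuousAt (F a) z) : ∃ D, ∀ a, ∀ z ∈ C.B 1 a, ‖F a z‖ ≤ D := by
  choose D hD using fun a => (C.isCompact_cB 1 a).exists_bound_of_continuousOn (f := F a)
    fun z hz => (hF a z (C.cB_sub_B (by norm_num) a hz)).continuousWithinAt
  obtain ⟨D', hD'⟩ := Finite.exists_le D
  exact ⟨D', fun a z hz => (hD a z (C.B_sub_cB 1 a hz)).trans (hD' a)⟩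

variable (C) in
/-- the coefficients of `H` are at most `B` -/
def Bn (H : C.Fm) (B : ℝ) : Prop := ∀ γ a, ∀ z ∈ C.B 1 a, ∀ i j, ‖H γ a z i j‖ ≤ B

variable (C) in
/-- smooth forms -/
def Fs (H : C.Fm) : Prop :=
  (∀ y ∈ univ, C.FmAt H y) ∧ ∀ γ a, SmM {z ∈ C.B 4 a | C.pt γ a z ∈ univ} (H γ a)

theorem upd_bd (hX : ∀ i, i ≠ k → CB C (X i)) (B : ℝ) :
    ∃ K, ∀ H, Bn C H B → ∀ y, ‖C.mD (update X k H) y‖ ≤ K := by
  have h1 : ∀ i, ∃ b, i ≠ k → Bn C (X i) b := fun i => by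
    by_cases hi : i = k
    · exact ⟨0, fun h => (h hi).elim⟩
    · exact (hX i hi).2.imp fun b hb _ => hb
  choose b hb using h1
  obtain ⟨b', hb'⟩ := Finite.exists_le b
  obtain ⟨K, hK⟩ := MD_bd N (max b' B)
  obtain ⟨D, hD⟩ := bd_cB (C := C) (F := fun a z => (cHess (C.ρ a) z).det⁻¹)
    fun a z hz => (JGx.det_cont hz).inv₀ (JGx.det_ne hz)
  refine ⟨K * D, fun H hH y => ?_⟩
  have h2 := hK (fun i => update X k H i (C.ch₀ y).1 (C.ch₀ y).2.1 (C.ch₀ y).2.2) fun i =>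
    JGx.all_upd (P := fun H => Bn C H (max b' B))
      (fun i hi γ a z hz r s => (hb i hi γ a z hz r s).trans ((hb' i).trans (le_max_left _ _)))
      (fun γ a z hz r s => (hH γ a z hz r s).trans (le_max_right _ _)) i _ _ _ (ch1 y)
  rw [Cov.mD, div_eq_mul_inv, norm_mul]
  exact mul_le_mul h2 (hD _ _ (ch1 y)) (norm_nonneg _) ((norm_nonneg _).trans h2)

theorem fs_cf (h : C.CFOn H univ) : Fs C H := ⟨h.1, fun γ a => (h.2 γ a).sm⟩

theorem fs_gg [T2Space M] [MeasurableSpace M] [BorelSpace M] (hf : ∀ y, C.SmAt f y)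
    (hh : ∀ y, C.SmAt h y) : Fs C (C.gg f h) :=
  ⟨fun y _ => JGx.gg_eq (C := C) f h ▸
      JGx.fm_dc jb (JGx.sm_ofReal (hf y)) (JGx.sm_ofReal (hh y)),
    fun γ a z hz => smooth_gg (hf _ γ a z hz.1 rfl) (hh _ γ a z hz.1 rfl)⟩

theorem cont_upd [T2Space M] [MeasurableSpace M] [BorelSpace M] (hX : ∀ i, i ≠ k → CB C (X i))
    (hH : Fs C H) : Continuous (C.mD (update X k H)) :=
  continuousOn_univ.1 (JGx.cont_upd jb isOpen_univ (fun i hi => (hX i hi).1) hH.1 hH.2)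

theorem bn_gg (hf : B2 C 1 f B) (hh : B2 C 1 h B') : Bn C (C.gg f h) (B * B') :=
  fun γ a z hz i j => (norm_gg _ _ z i j).trans (mul_le_mul (hf γ a z hz).2.1 (hh γ a z hz).2.1
    (norm_nonneg _) ((norm_nonneg _).trans (hf γ a z hz).2.1))

theorem bn_om (c B : ℝ) : ∃ D, ∀ u, (∀ y, C.SmAt u y) → B2 C 1 u B → Bn C (C.om c u) D := by
  obtain ⟨D, hD⟩ := bd_cB (C := C) (F := fun a => fderiv ℝ (fderiv ℝ (C.ρ a)))
    fun a z hz => (((C.ρ_sm a z hz).of_le two_le).fderiv_right (m := 1) le_rfl).continuousAt_fderiv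
      one_ne_zero
  refine ⟨|c| * D + B, fun u hu hB γ a z hz i j => ?_⟩
  rw [om_eq c (C.B14 hz) (hu _), Matrix.add_apply, Matrix.smul_apply, smul_eq_mul]
  refine (norm_add_le _ _).trans (add_le_add ?_ ((norm_cHess
    ((hu _ γ a z (C.B14 hz) rfl).of_le two_le) i j).trans (hB γ a z hz).2.2))
  rw [norm_mul, Complex.norm_real, Real.norm_eq_abs]
  exact mul_le_mul_of_nonneg_left ((norm_cHess ((C.ρ_sm a z (C.B14 hz)).of_le two_le) i j).trans
    (hD a z hz)) (abs_nonneg c)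

variable (C) in
/-- a sequence of cut-off functions -/
structure Cut (χ : ℕ → M → ℝ) : Prop where
  sm : ∀ j y, C.SmAt (χ j) y
  mem : ∀ j y, χ j y ∈ Icc (0 : ℝ) 1
  cpt : ∀ j, ∃ K, IsCompact K ∧ ∀ y ∉ K, χ j y = 0
  one : ∀ y, ∀ᶠ j in atTop, χ j =ᶠ[𝓝 y] fun _ => 1
  bd : ∃ B, ∀ j, B2 C 1 (χ j) B

theorem cut (hC : PC C) : ∃ χ, Cut C χ := by
  obtain ⟨l, hl⟩ := hC.slow
  obtain ⟨A, hA⟩ := st_bd
  obtain ⟨B, hB⟩ := hl.bd
  have hφ : ∀ a : ℝ, ContDiff ℝ ∞ fun x => smoothTransition (a - x) := fun a =>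
    smoothTransition.contDiff.comp (contDiff_const.sub contDiff_id)
  refine ⟨fun j y => smoothTransition (j + 1 - l y),
    fun j y => sm_comp (φ := fun x => smoothTransition (j + 1 - x)) (hφ _).contDiffAt (hl.sm y),
    fun j y => ⟨smoothTransition.nonneg _, smoothTransition.le_one _⟩,
    fun j => ⟨_, hl.cpt (j + 1), fun y hy => smoothTransition.zero_of_nonpos
      (sub_nonpos.2 (not_le.1 hy).le)⟩, fun y => ?_,
    max 1 (max (A * B) (A * B + A * B * B)), fun j γ a z hz => ?_⟩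
  · filter_upwards [tendsto_natCast_atTop_atTop.eventually (eventually_gt_atTop (l y))] with j hj
    filter_upwards [(JGx.sm_cont (hl.sm y)).eventually (gt_mem_nhds hj)] with x hx
    exact smoothTransition.one_of_one_le (by linarith)
  · obtain ⟨b1, b2⟩ := hB γ a z (C.B_mono (by norm_num) a hz)
    obtain ⟨c1, c2⟩ := comp_bd (hφ (j + 1)) (fun t => (hA _ t).1) (fun t => (hA _ t).2)
      (hl.sm _ γ a z (C.B14 hz) rfl) b1 b2
    exact ⟨le_max_of_le_left ((abs_of_nonneg (smoothTransition.nonneg _)).trans_le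
      (smoothTransition.le_one _)), le_max_of_le_right (le_max_of_le_left c1),
      le_max_of_le_right (le_max_of_le_right c2)⟩

end Vale.Agent.P284Y.P.Gr
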