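import Vale.Agent.P284Y.P.PshT
import Vale.Agent.P284Z.J.JA

/-!
# P284Y, block P, PSH: pointwise algebra
-/

set_option maxSynthPendingDepth 3
set_option linter.all false

open scoped Topology ComplexOrder ComplexConjugate
open Filter Set Metric Function Matrix

noncomputable section

namespace Vale.Agent.P284Y.Ps

open Vale.Agent.P272.K Vale.Agent.P284.H650 Vale.Agent.P284Z Vale.Agent.P284Z.J

variable {n : ℕ}

/-- the value of the form `G` on the vector `v` -/
def qf (G : Mx n) (v : Cm n) : ℝ := (v ⬝ᵥ G *ᵥ star v).re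

theorem qf_add (G H : Mx n) (v : Cm n) : qf (G + H) v = qf G v + qf H v := by
  simp [qf, add_mulVec]

theorem qf_nonneg {G : Mx n} (hG : G.PosSemidef) (v : Cm n) : 0 ≤ qf G v := by
  simpa only [star_star, qf] using (Complex.nonneg_iff.1 (hG.dotProduct_mulVec_nonneg (star v))).1

theorem qf_cHess {u : Cm n → ℝ} {z : Cm n} (hu : ContDiffAt ℝ 2 u z) (v : Cm n) :
    qf (cHess u z) v = levi u z v / 4 := by
  have := cHess_quad hu (star v)
  rw [star_star] at this
  rw [qf, this, Complex.ofReal_re]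

theorem MD_slot {G : Mx n} (hG : G.PosDef) (k : Fin n) (H : Mx n) :
    (n : ℂ) * MD (update (fun _ => G) k H) = n.factorial * G.det * (G⁻¹ * H).trace := by
  have h1 : update (fun _ => G) k H = fun i => G * update (fun _ => (1 : Mx n)) k (G⁻¹ * H) i := by
    funext i
    by_cases h : i = k
    · subst h
      rw [update_self, update_self, mul_nonsing_inv_cancel_left _ _ (hG.isUnit.map detMonoidHom)]
    · rw [update_of_ne h, update_of_ne h, mul_one]
  rw [h1, MD_mul_left, mul_left_comm, JAx.MD_trace]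
  ring

/-- completing the square -/
theorem sq_slot {G : Mx n} (hG : G.PosDef) (k : Fin n) (ξ v : Cm n) (a : ℝ) (ζ : ℂ) :
    0 ≤ a ^ 2 * (n * sl (fun _ => G) k (rk1 ξ (star ξ))) +
      n.factorial * G.det.re * (2 * a * (ζ * (v ⬝ᵥ ξ)).re + ‖ζ‖ ^ 2 * qf G v) := by
  have hu : IsUnit G.det := hG.isUnit.map detMonoidHom
  obtain ⟨y, rfl⟩ : ∃ y, ξ = G *ᵥ y := ⟨G⁻¹ *ᵥ ξ, by rw [mulVec_mulVec, mul_nonsing_inv _ hu, one_mulVec]⟩
  have hd : (G.det.re : ℂ) = G.det := by
    have := Complex.nonneg_iff.1 hG.det_pos.le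
    exact Complex.ext rfl (by rw [Complex.ofReal_im, this.2])
  have hs : ∀ p q : Cm n, star p ⬝ᵥ G *ᵥ q = conj (star q ⬝ᵥ G *ᵥ p) := fun p q => by
    rw [← RCLike.star_def, ← star_dotProduct_star, star_star, star_mulVec, hG.isHermitian.eq,
      ← dotProduct_mulVec]
  have h1 : (G⁻¹ * rk1 (G *ᵥ y) (star (G *ᵥ y))).trace = star y ⬝ᵥ G *ᵥ y := by
    rw [show rk1 (G *ᵥ y) (star (G *ᵥ y)) = vecMulVec (G *ᵥ y) (star (G *ᵥ y)) from rfl,
      mul_vecMulVec, mulVec_mulVec, nonsing_inv_mul _ hu, one_mulVec, trace_vecMulVec,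
      dotProduct_comm, star_mulVec, hG.isHermitian.eq, ← dotProduct_mulVec]
  have h2 : n * sl (fun _ => G) k (rk1 (G *ᵥ y) (star (G *ᵥ y))) =
      n.factorial * G.det.re * (star y ⬝ᵥ G *ᵥ y).re := by
    have := congrArg Complex.re (MD_slot hG k (rk1 (G *ᵥ y) (star (G *ᵥ y))))
    rw [h1, ← hd, ← Complex.ofReal_natCast, ← Complex.ofReal_natCast, ← Complex.ofReal_mul,
      Complex.re_ofReal_mul, Complex.re_ofReal_mul] at this
    exact this
  have h3 := (Complex.nonneg_iff.1 (hG.posSemidef.dotProduct_mulVec_nonneg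
    ((a : ℂ) • y + conj ζ • star v))).1
  have h4 := hs y (star v)
  simp only [star_add, star_smul, star_star, mulVec_add, mulVec_smul, add_dotProduct, dotProduct_add,
    smul_dotProduct, dotProduct_smul, smul_eq_mul, RCLike.star_def, Complex.conj_conj,
    Complex.conj_ofReal] at h3 h4
  rw [h4] at h3
  have h5 : 0 ≤ a ^ 2 * (star y ⬝ᵥ G *ᵥ y).re +
      (2 * a * (ζ * (v ⬝ᵥ G *ᵥ y)).re + ‖ζ‖ ^ 2 * qf G v) := by
    refine h3.trans_eq ?_
    rw [qf, Complex.sq_norm, Complex.normSq_apply]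
    simp only [Complex.add_re, Complex.add_im, Complex.mul_re, Complex.mul_im, Complex.ofReal_re, Complex.ofReal_im,
      Complex.conj_re, Complex.conj_im]
    ring
  have h6 : 0 ≤ (n.factorial : ℝ) * G.det.re :=
    mul_nonneg (Nat.cast_nonneg _) (Complex.nonneg_iff.1 hG.det_pos.le).1
  rw [h2]
  nlinarith [mul_nonneg h6 h5]

/-- the real differential in terms of `∂` -/
theorem fderiv_eq_dz {g : Cm n → ℝ} {z : Cm n} (hg : DifferentiableAt ℝ g z) (w : Cm n) :
    fderiv ℝ g z w = 2 * (w ⬝ᵥ dzv g z).re := by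
  have h1 : w = ∑ j, ((w j).re • (Pi.single j 1 : Cm n) + (w j).im • (Pi.single j Complex.I : Cm n)) := by
    funext i
    simp only [Finset.sum_apply, Pi.add_apply, Pi.smul_apply, Pi.single_apply, smul_ite, smul_zero]
    rw [Finset.sum_eq_single i (fun j _ h => by simp [Ne.symm h]) (by simp)]
    simp
  conv_lhs => rw [h1]
  simp only [map_sum, map_add, map_smul, smul_eq_mul, dotProduct, dzv, dz, AMP.fderiv_ofReal' hg,
    Complex.re_sum, Finset.mul_sum]
  refine Finset.sum_congr rfl fun j _ => ?_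
  rw [← mul_div_assoc, Complex.div_ofNat_re]
  simp
  ring

end Vale.Agent.P284Y.Ps
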