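import Vale.Agent.P284Y.P.Defs

/-!
# P284Y, block P: the rows and the assembly
-/

open scoped ContDiff Topology ComplexOrder ENNReal Matrix
open Filter Set Function Metric MeasureTheory Real

noncomputable section

namespace Vale.Agent.P284Y.P

open Vale.Agent.P272.K Vale.Agent.P284.H650 Vale.Agent.P284Z J L

variable {N : ℕ} {Γ M : Type} [Group Γ] [TopologicalSpace M] [MulAction Γ M] (C : Cov N Γ M)

/-- closed real forms with bounded coefficients -/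
def CB (H : C.Fm) : Prop :=
  C.CFOn H univ ∧ ∃ B : ℝ, ∀ γ a, ∀ z ∈ C.B 1 a, ∀ i j, ‖H γ a z i j‖ ≤ B

/-- existence, and the uniform Hölder estimate of the second derivatives -/
structure EX : Prop where
  ex : ∀ ν, Dens C ν → ∃ φ, Sol C ν φ
  ue : ∀ A : ℝ, ∃ B : ℝ, ∀ ν φ, Dens C ν → Sol C ν φ →
    (∀ γ a, ∀ z ∈ C.cB (15 / 4) a, ∀ k ≤ 3,
      ‖iteratedFDeriv ℝ k (fun w => log (1 + ν (C.pt γ a w))) z‖ ≤ A) →
    ∀ γ a, ∀ z ∈ C.cB (7 / 2) a, ∀ z' ∈ C.cB (7 / 2) a,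
      ‖fderiv ℝ (fderiv ℝ fun w => φ (C.pt γ a w)) z -
        fderiv ℝ (fderiv ℝ fun w => φ (C.pt γ a w)) z'‖ ≤ B * ‖z - z'‖ ^ (1 / 2 : ℝ)

/-- stability of the solution in `C²` -/
def ST : Prop := ∀ (W : Type) [NormedAddCommGroup W] [NormedSpace ℝ W] (ν : W → M → ℝ) (q₀ : W)
  (K : Set M), IsCompact K → Dens C (ν q₀) → (∀ᶠ q in 𝓝 q₀, Dens C (ν q) ∧ ∀ y ∉ K, ν q y = 0) →
  (∀ γ a, ∀ z ∈ C.B 4 a, ContDiffAt ℝ ∞ (fun x : W × Cm N => ν x.1 (C.pt γ a x.2)) (q₀, z)) →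
  ∀ δ > (0 : ℝ), ∀ᶠ q in 𝓝 q₀, B2 C 3 (fun y => phi C (ν q) y - phi C (ν q₀) y) δ

variable [MeasurableSpace M] (μ : Measure M)

/-- smooth integrable functions with bounded derivatives -/
structure Gd (u : M → ℝ) : Prop where
  sm : ∀ y, C.SmAt u y
  int : Integrable u μ
  bd : ∃ B, B2 C 1 u B

/-- the formula of Green without compact supports -/
structure GR : Prop where
  zero : Gd C μ fun _ => 0
  lin : ∀ u v (s t : ℝ), Gd C μ u → Gd C μ v → Gd C μ fun y => s * u y + t * v y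
  cb : ∀ u (c : ℝ), Gd C μ u → CB C (C.om c u)
  int : ∀ (X : Fin N → C.Fm) (f : M → ℝ), (∀ i, CB C (X i)) → Integrable f μ →
    Integrable (fun y => f y * (C.mD X y).re) μ
  green : ∀ (X : Fin N → C.Fm) k f h, (∀ i, i ≠ k → CB C (X i)) → Gd C μ f → Gd C μ h →
    ∫ y, f y * (C.mD (update X k (C.om 0 h)) y).re ∂μ =
      ∫ y, h y * (C.mD (update X k (C.om 0 f)) y).re ∂μ
  grad : ∀ (X : Fin N → C.Fm) k f h, (∀ i, i ≠ k → CB C (X i) ∧ Psd C (X i) univ) →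
    Gd C μ f → Gd C μ h → Integrable (C.mD (update X k (C.gg f h))) μ ∧
    ∫ y, C.mD (update X k (C.gg f h)) y ∂μ =
      -((∫ y, f y * (C.mD (update X k (C.om 0 h)) y).re ∂μ : ℝ) : ℂ)
  tot : ∀ u, Gd C μ u → Integrable (fun y => ma C u y - 1) μ → ∫ y, (ma C u y - 1) ∂μ = 0

/-- the energy -/
structure EN : Prop where
  int : ∀ u f, Gd C μ u → Integrable f μ → Integrable (fun y => f y * ma C u y) μ
  coc : ∀ u v, Gd C μ u → Gd C μ v →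
    En C μ (fun _ => 0) v = En C μ (fun _ => 0) u + En C μ u v
  up : ∀ u v, Gd C μ u → Gd C μ v → (∀ y, OP C u y) → (∀ y, OP C v y) →
    En C μ u v ≤ ∫ y, (v y - u y) * ma C u y ∂μ
  two : ∀ u v, Gd C μ u → Gd C μ v → (∀ y, OP C u y) → ∀ θ ∈ Icc (0 : ℝ) 1,
    Psd C (C.om 1 v - (θ : ℂ) • C.om 1 u) univ → ∀ k : Fin N,
    En C μ u v ≤ ∫ y, (v y - u y) * ma C u y ∂μ - θ ^ (N - 1) * N / (2 * N.factorial) *
      ∫ y, (C.mD (update (fun _ => C.om 1 u) k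
        (C.gg (fun x => v x - u x) fun x => v x - u x)) y).re ∂μ

/-- the solution and the comparison principle -/
structure PV : Prop where
  sol : ∀ ν, Dens C ν → Sol C ν (phi C ν)
  cont : ∀ ν, Dens C ν → Continuous (phi C ν)
  cmp : ∀ ν ν', Dens C ν → Dens C ν' → ∀ c ≥ (0 : ℝ), (∀ y, 1 + ν' y ≤ exp c * (1 + ν y)) →
    ∀ y, phi C ν y - c ≤ phi C ν' y
  zero : phi C 0 = fun _ => 0
  lip : ∀ ν ν', Dens C ν → Dens C ν' → ∀ c : ℝ, (∀ y, |ν y - ν' y| ≤ c) →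
    ∀ y, |phi C ν y - phi C ν' y| ≤ c

/-- the total mass -/
structure PN : Prop where
  gd : ∀ ν, Dens C ν → Gd C μ (phi C ν)
  int : ∀ ν, Dens C ν → Integrable (fun y => 1 - exp (phi C ν y)) μ
  mi : ∀ ν, Dens C ν → ∫ y, (1 - exp (phi C ν y)) ∂μ = ∫ y, exp (phi C ν y) * ν y ∂μ

/-- the increments of the energy -/
structure PE : Prop where
  zero : GG C μ 0 = 0
  star : ∀ ν ν', Dens C ν → Dens C ν' →
    GG C μ ν' - GG C μ ν ≤ ∫ y, exp (phi C ν y) * (ν' y - ν y) ∂μ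
  two : ∀ ν ν', Dens C ν → Dens C ν' →
    ∫ y, exp (phi C (ν + ν') y) * ν' y ∂μ ≤ GG C μ (ν + ν') - GG C μ ν ∧
    GG C μ (ν + ν') - GG C μ ν ≤ ∫ y, exp (phi C ν y) * ν' y ∂μ
  lip : ∀ ν ν', Dens C ν → Dens C ν' → |GG C μ ν' - GG C μ ν| ≤ ∫ y, |ν' y - ν y| ∂μ

/-- transfer from the charts of `C` to the patches `Q` -/
structure TQ (Q : Pat N M) : Prop where
  chart : ∀ i, ∀ z ∈ Q.U i, ∃ (γ : Γ) (a : C.I) (T : Cm N → Cm N), AnalyticAt ℂ T z ∧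
    T z ∈ C.B 1 a ∧ (jm T z).det ≠ 0 ∧ (∀ᶠ w in 𝓝 z, C.pt γ a (T w) = Q.pt i w) ∧
    (∀ u, C.SmAt u (Q.pt i z) → Q.om u i z = pb (jm T z) (C.om 1 u γ a (T z))) ∧
    cHess (Q.ρ i) z = pb (jm T z) (cHess (C.ρ a) (T z))
  chart' : ∀ γ a, ∀ z ∈ C.B 4 a, ∀ i, ∀ z' ∈ Q.U i, C.pt γ a z = Q.pt i z' →
    ∃ T : Cm N → Cm N, AnalyticAt ℂ T z ∧ T z = z' ∧ ∀ᶠ w in 𝓝 z, Q.pt i (T w) = C.pt γ a w
  sm : ∀ (f : M → ℝ) y, Q.SmAt f y ↔ C.SmAt f y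
  dens : ∀ ν, Q.Dens ν ↔ Dens C ν
  psd : ∀ u y, C.SmAt u y → (Q.PsdAt u y ↔ Psd C (C.om 1 u) {y})
  ma : ∀ u y, C.SmAt u y → Q.MA u y = ma C u y
  pos : ∀ ν φ, Sol C ν φ → ∀ i, ∀ z ∈ Q.U i, (Q.om φ i z).PosDef
  b2 : ∀ i (K : Set (Cm N)), IsCompact K → K ⊆ Q.U i → ∃ L ≥ (0 : ℝ), ∀ ψ δ,
    (∀ y, C.SmAt ψ y) → B2 C 1 ψ δ → ∀ z ∈ K, |ψ (Q.pt i z)| ≤ δ ∧
      ‖fderiv ℝ (fun w => ψ (Q.pt i w)) z‖ ≤ L * δ ∧
      ‖fderiv ℝ (fderiv ℝ fun w => ψ (Q.pt i w)) z‖ ≤ L * δ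

/-- the field `psh` of `MAS` -/
def PS (Q : Pat N M) : Prop :=
  ∀ (W : Type) [NormedAddCommGroup W] [NormedSpace ℂ W] [FiniteDimensional ℂ W] (O : Set W)
    (J : Type) [Fintype J] (ν₀ : M → ℝ) (i : J → Q.ι) (k : J → Cm N → ℝ) (c : J → W → Cm N)
    (A : J → W → Mx N) (h : J → W → ℂ) (Λ : J → Fin N → ℝ) (m : J → ℝ) (t : J → W → M → ℝ)
    (ν : W → M → ℝ), IsOpen O → Q.Dens ν₀ → (∀ j, Ker (k j)) →
    (∀ j, AnalyticOnNhd ℂ (c j) O ∧ (∀ a b, AnalyticOnNhd ℂ (fun θ => A j θ a b) O) ∧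
      AnalyticOnNhd ℂ (h j) O) →
    (∀ j, ∀ θ ∈ O, Q.In (i j) (c j θ) (A j θ) ∧ ∀ u : Cm N, ‖u‖ ≤ 1 →
      (Matrix.diagonal (fun a => (Λ j a : ℂ)) -
        cHess (Q.ρ (i j)) (c j θ + A j θ *ᵥ u)).PosSemidef) →
    (∀ j θ, t j θ = Real.exp (2 * (h j θ).re) • Q.pm (i j) (c j θ) (A j θ) (k j)) →
    (∀ θ, ν θ = ν₀ + ∑ j, t j θ) →
    (∀ j, ∀ θ ∈ O, ∫ y, Real.exp (phi C (ν θ) y) * t j θ y ∂μ ≤ m j) →
    ContinuousOn (fun θ => GG C μ (ν θ)) O ∧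
    Psh (fun θ => GG C μ (ν θ) + ∑ j, m j * ∑ a, Λ j a * (N + 1) *
      (‖c j θ a‖ ^ 2 + ∑ b, ‖A j θ a b‖ ^ 2)) O

/-- a statement about all the coverings -/
def All (R : ∀ {N : ℕ} {Γ M : Type} [Group Γ] [TopologicalSpace M] [MulAction Γ M]
    (_ : Cov N Γ M) [MeasurableSpace M] (_ : Measure M), Prop) : Prop :=
  ∀ (N : ℕ) (Γ M : Type) [Group Γ] [Countable Γ] [TopologicalSpace M] [T2Space M]
    [ConnectedSpace M] [MulAction Γ M] [MeasurableSpace M] [BorelSpace M] (C : Cov N Γ M)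
    (μ : Measure M), 0 < N → Bdd C → C.Vol μ → R C μ

/-- row **A** -/
def StA : Prop := All fun C _ μ => PA C μ
/-- row **C** -/
def StC : Prop := All fun C _ _ => PC C
/-- row **M** -/
def StM : Prop := All fun C _ μ => PA C μ → PC C → PM C μ
/-- row **E** -/
def StE : Prop := All fun C _ μ => PA C μ → EX C
/-- row **V** -/
def StV : Prop := All fun C _ μ => PA C μ → EX C → PV C
/-- row **R** -/
def StR : Prop := All fun C _ μ => PA C μ → PC C → GR C μ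
/-- row **N** -/
def StN : Prop := All fun C _ μ => PA C μ → PM C μ → PV C → GR C μ → PN C μ
/-- row **En** -/
def StEn : Prop := All fun C _ μ => PA C μ → GR C μ → EN C μ
/-- row **G** -/
def StG : Prop := All fun C _ μ => PA C μ → PV C → PN C μ → EN C μ → PE C μ
/-- row **St** -/
def StSt : Prop := All fun C _ μ => PA C μ → EX C → PV C → ST C
/-- row **T** -/
def StT : Prop := All fun C _ μ => PA C μ → ∀ Q, Q.Ok → (QE C).Tr Q → Q.Tr (QE C) →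
  PG Q μ → TQ C Q
/-- row **S** -/
def StS : Prop := All fun C _ μ => PA C μ → PV C → PN C μ → GR C μ → EN C μ → PE C μ → ST C →
  ∀ Q, Q.Ok → PG Q μ → TQ C Q → PS C μ Q

/-- row **H**: smaller charts, and the volume -/
def StH : Prop :=
  ∀ (N : ℕ) (Γ M : Type) [Group Γ] [Countable Γ] [TopologicalSpace M] [T2Space M]
    [MulAction Γ M] [MeasurableSpace M] [BorelSpace M] (C : Cov N Γ M) (Q : Pat N M)
    (μ : Measure M), Q.Ok → (QE C).Tr Q → Q.Tr (QE C) → Q.Vol μ →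
    ∃ C' : Cov N Γ M, Bdd C' ∧ C'.Vol μ ∧ (QE C').Tr Q ∧ Q.Tr (QE C')

theorem stP_of (hPG : StPG) (hH : StH) (hA : StA) (hC : StC) (hM : StM) (hE : StE) (hV : StV)
    (hR : StR) (hN : StN) (hEn : StEn) (hG : StG) (hSt : StSt) (hT : StT) (hS : StS) : StP := by
  intro N Γ M _ _ _ _ _ _ _ _ C₀ Q μ h0 hQ t1 t2 hv
  obtain ⟨C, hB, hμ, t3, t4⟩ := hH N Γ M C₀ Q μ hQ t1 t2 hv
  have pg := hPG N M Q μ hQ hv
  have a := hA N Γ M C μ h0 hB hμ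
  have c := hC N Γ M C μ h0 hB hμ
  have m := hM N Γ M C μ h0 hB hμ a c
  have e := hE N Γ M C μ h0 hB hμ a
  have v := hV N Γ M C μ h0 hB hμ a e
  have r := hR N Γ M C μ h0 hB hμ a c
  have n := hN N Γ M C μ h0 hB hμ a m v r
  have en := hEn N Γ M C μ h0 hB hμ a r
  have g := hG N Γ M C μ h0 hB hμ a v n en
  have st := hSt N Γ M C μ h0 hB hμ a e v
  have t := hT N Γ M C μ h0 hB hμ a Q hQ t3 t4 pg
  have s := hS N Γ M C μ h0 hB hμ a v n r en g st Q hQ pg t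
  have so := fun ν hν => v.sol ν ((t.dens ν).1 hν)
  refine ⟨⟨hQ, hv, phi C, GG C μ, fun ν hν y => (t.sm _ y).2 ((so ν hν).sm y),
    fun ν hν => t.pos ν _ (so ν hν), fun ν hν i z hz => ?_, fun ν hν => (so ν hν).nonpos,
    fun ν hν => ?_, fun D K u w hD hK hKD hu hw hs => ?_,
    fun ν hν => ⟨n.int ν ((t.dens ν).1 hν), n.mi ν ((t.dens ν).1 hν)⟩, g.zero,
    fun ν ν' hν hν' => g.two ν ν' ((t.dens ν).1 hν) ((t.dens ν').1 hν'), s⟩⟩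
  · have h1 := (so ν hν).sm (Q.pt i z)
    have h2 := pg.ma_pt _ i z hz (((t.sm _ _).2 h1 i z hz rfl).of_le two_le)
    rw [t.ma _ _ h1, (so ν hν).eq, eq_div_iff (pg.vol_pos i z hz).1.ne'] at h2
    exact h2.symm
  · refine Metric.tendsto_nhds.2 fun ε hε => ?_
    obtain ⟨K, hK, h⟩ := (so ν hν).decay (ε / 2) (half_pos hε)
    filter_upwards [hK.compl_mem_cocompact] with y hy
    rw [Real.dist_eq, sub_zero, abs_of_nonpos ((so ν hν).nonpos y)]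
    linarith [h y hy]
  · have op : ∀ f, Q.SP f D → ∀ y ∈ D, OP C f y := fun f hf y hy =>
      ⟨(t.sm f y).1 (hf y hy).1, (t.psd f y ((t.sm f y).1 (hf y hy).1)).1 (hf y hy).2⟩
    obtain ⟨m1, m2, m3, m4⟩ := m.mc D K u w hD hK hKD (fun y hy => ⟨op u hu y hy, op w hw y hy⟩)
      fun y hy h => hs ⟨hy, h⟩
    have key : ∀ f, Q.SP f D → IntegrableOn (ma C f) {y ∈ D | w y < u y} μ →
        ∫⁻ y in {y ∈ D | w y < u y}, ENNReal.ofReal (Q.MA f y) ∂μ =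
          ENNReal.ofReal (∫ y in {y ∈ D | w y < u y}, ma C f y ∂μ) := fun f hf hi => by
      rw [ofReal_integral_eq_lintegral_ofReal hi ((ae_restrict_iff' m1).2
        (Eventually.of_forall fun y hy => a.ma_nonneg f y (op f hf y hy.1)))]
      exact setLIntegral_congr_fun m1 fun y hy => by
        simp only [t.ma f y (op f hf y hy.1).1]
    rw [key u hu m2, key w hw m3]
    exact ENNReal.ofReal_le_ofReal m4

end Vale.Agent.P284Y.P
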