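import Vale.Agent.P284Y.P.PshB
import Vale.Agent.P284Y.P.Sk

/-!
# P284Y, block P, PSH: the second order lower bound for the energy
-/

set_option maxSynthPendingDepth 3
set_option linter.all false

open scoped ContDiff Topology ComplexOrder ComplexConjugate
open Filter Set Metric Function Matrix MeasureTheory Real

noncomputable section

namespace Vale.Agent.P284Y.Ps

open Vale.Agent.P272.K Vale.Agent.P284.H650 Vale.Agent.P284Z J L P

section loc
variable {n : ℕ} {z : Cm n} {f h : Cm n → ℝ}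

theorem gg_rk1 (f h : Cm n → ℝ) (z : Cm n) : gg f h z = rk1 (dzv f z) (star (dzv h z)) := by
  ext i j
  simp [gg, rk1, dzv, dzbv, AMP.dzb_real_eq]

theorem dzv_lin (hf : DifferentiableAt ℝ f z) (hh : DifferentiableAt ℝ h z) (s t : ℝ) :
    dzv (fun w => s * f w + t * h w) z = (s : ℂ) • dzv f z + (t : ℂ) • dzv h z := by
  have a := Complex.ofRealCLM.differentiableAt.comp z hf
  have b := Complex.ofRealCLM.differentiableAt.comp z hh
  funext j
  simp only [dzv, Complex.ofReal_add, Complex.ofReal_mul, Pi.add_apply, Pi.smul_apply, smul_eq_mul]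
  exact (INT.dz_add (a.const_mul _) (b.const_mul _)).trans
    (congrArg₂ _ (INT.dz_const_mul _ a) (INT.dz_const_mul _ b))

theorem xi_eq {g : Fin 4 → Cm n → ℝ} (hg : ∀ k, DifferentiableAt ℝ (g k) z) {p r : Cm n → ℝ}
    (hp : p = fun w => 1 / 4 * g 0 w + -1 / 4 * g 2 w)
    (hr : r = fun w => 1 / 4 * g 1 w + -1 / 4 * g 3 w) :
    gg p p z + gg r r z - Complex.I • gg p r z + Complex.I • gg r p z =
      rk1 (xi4 g z) (star (xi4 g z)) := by
  simp only [gg_rk1, hp, hr, dzv_lin (hg _) (hg _)]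
  ext i j
  simp [rk1, xi4, Fin.sum_univ_four, e4]
  ring_nf
  simp only [Complex.I_sq]
  ring

theorem par_psd (hf : DifferentiableAt ℝ f z) (hh : DifferentiableAt ℝ h z) {p : Cm n → ℝ}
    (hp : p = fun w => 1 / 4 * f w + -1 / 4 * h w) :
    (gg f f z + gg h h z - ((8 : ℝ) : ℂ) • gg p p z).PosSemidef := by
  have := psd_smul (posSemidef_vecMulVec_self_star (dzv f z + dzv h z)) (c := 1 / 2) (by norm_num)
  convert this using 1
  simp only [gg_rk1, hp, dzv_lin hf hh]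
  ext i j
  simp [rk1, vecMulVec_apply]
  ring

theorem gg_pb {T : Cm n → Cm n} (hT : AnalyticAt ℂ T z) (hf : DifferentiableAt ℝ f (T z))
    (hh : DifferentiableAt ℝ h (T z)) {f' h' : Cm n → ℝ} (e : f' =ᶠ[𝓝 z] fun w => f (T w))
    (e' : h' =ᶠ[𝓝 z] fun w => h (T w)) : pb (jm T z) (gg f h (T z)) = gg f' h' z := by
  have a : ∀ (f h : Cm n → ℝ) z, gg f h z = dc (fun w => (f w : ℂ)) (fun w => (h w : ℂ)) z :=
    fun _ _ _ => rfl
  rw [a, a, JGx.dc_congr (v := fun w => (f (T w) : ℂ)) (χ := fun w => (h (T w) : ℂ))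
    (e.mono fun w hw => congrArg Complex.ofReal hw) (e'.mono fun w hw => congrArg Complex.ofReal hw)]
  exact (JGx.dc_comp jb (u := fun w => (f w : ℂ)) (ψ := fun w => (h w : ℂ)) hT
    (Complex.ofRealCLM.differentiableAt.comp _ hf)
    (Complex.ofRealCLM.differentiableAt.comp _ hh)).symm

theorem qf_diag (Λ : Fin n → ℝ) (v : Cm n) :
    qf (Matrix.diagonal fun a => (Λ a : ℂ)) v = ∑ a, Λ a * ‖v a‖ ^ 2 := by
  simp only [qf, dotProduct, mulVec_diagonal, Complex.re_sum, Pi.star_apply, RCLike.star_def]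
  refine Finset.sum_congr rfl fun a _ => ?_
  rw [mul_left_comm, Complex.mul_conj, Complex.normSq_eq_norm_sq, ← Complex.ofReal_mul,
    Complex.ofReal_re]

theorem hess_psd (hf : ContDiffAt ℝ 2 f z) {δ : ℝ} (h : ‖fderiv ℝ (fderiv ℝ f) z‖ ≤ δ) :
    (cHess f z + (δ : ℂ) • (1 : Mx n)).PosSemidef := by
  have h0 : 0 ≤ δ := (norm_nonneg _).trans h
  have h1 : (cHess f z + (δ : ℂ) • (1 : Mx n)).IsHermitian :=
    (cHess_isHermitian hf).add (psd_smul PosSemidef.one h0).isHermitian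
  refine .of_dotProduct_mulVec_nonneg h1 fun x => Complex.nonneg_iff.2 ⟨?_, ?_⟩
  · have h2 : (δ : ℂ) • (1 : Mx n) = Matrix.diagonal fun _ => (δ : ℂ) :=
      smul_one_eq_diagonal _
    have h3 := qf_add (cHess f z) ((δ : ℂ) • (1 : Mx n)) (star x)
    rw [qf, star_star] at h3
    rw [h3, h2, qf_diag, qf_cHess hf, ← Finset.mul_sum]
    have h4 : ‖star x‖ ^ 2 ≤ ∑ a, ‖star x a‖ ^ 2 := by
      rw [← Real.le_sqrt (norm_nonneg _) (by positivity), pi_norm_le_iff_of_nonneg (sqrt_nonneg _)]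
      exact fun a => Real.le_sqrt_of_sq_le (Finset.single_le_sum (f := fun a => ‖star x a‖ ^ 2)
        (fun _ _ => sq_nonneg _) (Finset.mem_univ a))
    nlinarith [(abs_le.1 (levi_le h (star x))).1, mul_le_mul_of_nonneg_left h4 h0,
      mul_nonneg h0 (sq_nonneg ‖star x‖)]
  · exact (h1.im_star_dotProduct_mulVec_self x).symm

end loc

variable {N : ℕ} {Γ M : Type} [Group Γ] [TopologicalSpace M] [T2Space M] [MulAction Γ M]
  [MeasurableSpace M] [BorelSpace M] {C : Cov N Γ M}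

theorem near_psd (hB : Bdd C) {ν φ : M → ℝ} (h : Sol C ν φ) {θ : ℝ} (hθ : θ < 1) :
    ∃ δ > (0 : ℝ), ∀ φ', (∀ y, C.SmAt φ' y) → B2 C 3 (fun y => φ' y - φ y) δ →
      Psd C (C.om 1 φ' - (θ : ℂ) • C.om 1 φ) univ := by
  obtain ⟨lam, h1, Lam, h2⟩ := hB
  obtain ⟨c, h3, h4⟩ := h.pos
  have h5 : 0 < 1 - θ := sub_pos.2 hθ
  refine ⟨(1 - θ) * c * lam, by positivity, fun φ' hs hb => psd_of_B1
    (fun y _ => fm_sub (JGx.fm_om jb 1 (hs y)) (fm_smul _ (JGx.fm_om jb 1 (h.sm y))))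
    fun γ a z hz _ => ?_⟩
  have hz4 := C.B14 hz
  have a1 := (hs _ γ a z hz4 rfl).of_le two_le
  have a2 := (h.sm _ γ a z hz4 rfl).of_le two_le
  have := ((psd_smul (h4 γ a z hz4 trivial) h5.le).add (psd_smul (h2 a z hz4).1
    (mul_pos h5 h3).le)).add (hess_psd (a1.sub a2) (hb γ a z (C.B_mono (by norm_num) a hz)).2.2)
  convert this using 1
  simp only [Pi.sub_apply, Pi.smul_apply, om_eq 1 hz4 (hs _), om_eq 1 hz4 (h.sm _),
    om_eq 1 hz4 (sm_const (0 : ℝ)), L.hs, C2.cHess_sub a1 a2, C2.cHess_const]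
  push_cast
  module

variable (C) in
/-- the form `i ∂B ∧ ∂̄B̄` -/
def Xi (ψ : Fin 4 → M → ℝ) : C.Fm :=
  C.gg (fun y => 1 / 4 * ψ 0 y + -1 / 4 * ψ 2 y) (fun y => 1 / 4 * ψ 0 y + -1 / 4 * ψ 2 y) +
    C.gg (fun y => 1 / 4 * ψ 1 y + -1 / 4 * ψ 3 y) (fun y => 1 / 4 * ψ 1 y + -1 / 4 * ψ 3 y) -
    Complex.I • C.gg (fun y => 1 / 4 * ψ 0 y + -1 / 4 * ψ 2 y)
      (fun y => 1 / 4 * ψ 1 y + -1 / 4 * ψ 3 y) +
    Complex.I • C.gg (fun y => 1 / 4 * ψ 1 y + -1 / 4 * ψ 3 y)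
      fun y => 1 / 4 * ψ 0 y + -1 / 4 * ψ 2 y

variable (C) in
/-- the density of the Dirichlet term -/
def qq (φ : M → ℝ) (ψ : Fin 4 → M → ℝ) (k : Fin N) (y : M) : ℝ :=
  (C.mD (update (fun _ => C.om 1 φ) k (Xi C ψ)) y).re

theorem re_mD (X : Fin N → C.Fm) (k : Fin N) (H : C.Fm) (y : M) :
    (C.mD (update X k H) y).re = sl (fun i => X i (C.ch₀ y).1 (C.ch₀ y).2.1 (C.ch₀ y).2.2) k
      (H (C.ch₀ y).1 (C.ch₀ y).2.1 (C.ch₀ y).2.2) /
      (cHess (C.ρ (C.ch₀ y).2.1) (C.ch₀ y).2.2).det.re := by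
  rw [Cov.mD, JGx.upd, ← (JGx.det_re (JGx.ch₀_spec y).1).2, Complex.div_ofReal_re]
  rfl

theorem sm_lin {u v : M → ℝ} {y : M} (hu : C.SmAt u y) (hv : C.SmAt v y) (s t : ℝ) :
    C.SmAt (fun y => s * u y + t * v y) y :=
  sm_add (sm_mul (sm_const s) hu) (sm_mul (sm_const t) hv)

theorem fm_gg {u v : M → ℝ} {y : M} (hu : C.SmAt u y) (hv : C.SmAt v y) : C.FmAt (C.gg u v) y :=
  JGx.gg_eq (C := C) u v ▸ JGx.fm_dc jb (JGx.sm_ofReal hu) (JGx.sm_ofReal hv)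

variable {φ : M → ℝ} {ψ : Fin 4 → M → ℝ} (hψ : ∀ k y, C.SmAt (ψ k) y)
include hψ

theorem fm_Xi (y : M) : C.FmAt (Xi C ψ) y := by
  have a := sm_lin (hψ 0 y) (hψ 2 y) (1 / 4) (-1 / 4)
  have b := sm_lin (hψ 1 y) (hψ 3 y) (1 / 4) (-1 / 4)
  exact fm_add (fm_sub (fm_add (fm_gg a a) (fm_gg b b)) (fm_smul _ (fm_gg a b)))
    (fm_smul _ (fm_gg b a))

theorem qq_nonneg (hφ : ∀ y, OP C φ y) (k : Fin N) (y : M) : 0 ≤ qq C φ ψ k y := by
  obtain ⟨h1, h2⟩ := JGx.ch₀_spec (C := C) y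
  rw [qq, re_mD]
  refine div_nonneg (sl_nonneg (fun _ _ => (hφ y).2 _ _ _ h1 h2) ?_) (JGx.det_re h1).1.le
  have := xi_eq (g := fun k w => ψ k (C.pt (C.ch₀ y).1 (C.ch₀ y).2.1 w))
    (fun k => (hψ k y _ _ _ h1 h2).differentiableAt (by simp)) rfl rfl
  exact (congrArg PosSemidef this).mpr (posSemidef_vecMulVec_self_star _)

theorem qq_cont (hφ : ∀ y, C.SmAt φ y) (k : Fin N) : Continuous (qq C φ ψ k) := by
  refine Complex.continuous_re.comp (continuousOn_univ.1 (JGx.cont_upd jb isOpen_univ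
    (fun _ _ => JGx.cf_om jb 1 φ univ fun y _ => hφ y) (fun y _ => fm_Xi hψ y)
    fun γ a z hz i j => ?_))
  have a := sm_lin (hψ 0 _) (hψ 2 _) (1 / 4) (-1 / 4) γ a z hz.1 rfl
  have b := sm_lin (hψ 1 _) (hψ 3 _) (1 / 4) (-1 / 4) γ _ z hz.1 rfl
  exact (((smooth_gg a a i j).add (smooth_gg b b i j)).sub
    (contDiffAt_const.mul (smooth_gg a b i j))).add (contDiffAt_const.mul (smooth_gg b a i j))

theorem qq_patch {Q : Pat N M} (hT : TQ C Q) (hφ : ∀ y, C.SmAt φ y) (k : Fin N) (i : Q.ι)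
    {z : Cm N} (hz : z ∈ Q.U i) : qq C φ ψ k (Q.pt i z) = sl (fun _ => Q.om φ i z) k
      (rk1 (xi4 (fun k w => ψ k (Q.pt i w)) z) (star (xi4 (fun k w => ψ k (Q.pt i w)) z))) /
      Q.vol i z := by
  obtain ⟨γ, a, T, h1, h2, h3, h4, h5, h6⟩ := hT.chart i z hz
  have h7 := C.B14 h2
  have d : ∀ {u : M → ℝ}, (∀ y, C.SmAt u y) → DifferentiableAt ℝ (fun w => u (C.pt γ a w)) (T z) :=
    fun hu => (hu _ γ a _ h7 rfl).differentiableAt (by simp)
  have g : ∀ {u v : M → ℝ}, (∀ y, C.SmAt u y) → (∀ y, C.SmAt v y) →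
      pb (jm T z) (C.gg u v γ a (T z)) = gg (fun w => u (Q.pt i w)) (fun w => v (Q.pt i w)) z :=
    fun hu hv => gg_pb h1 (d hu) (d hv) (h4.mono fun w hw => congrArg _ hw.symm)
      (h4.mono fun w hw => congrArg _ hw.symm)
  have a0 := fun y => sm_lin (hψ 0 y) (hψ 2 y) (1 / 4) (-1 / 4)
  have b0 := fun y => sm_lin (hψ 1 y) (hψ 3 y) (1 / 4) (-1 / 4)
  have e : rk1 (xi4 (fun k w => ψ k (Q.pt i w)) z) (star (xi4 (fun k w => ψ k (Q.pt i w)) z)) =
      pb (jm T z) (Xi C ψ γ a (T z)) := by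
    rw [← xi_eq (fun k => (((hT.sm _ _).2 (hψ k _)) i z hz rfl).differentiableAt (by simp)) rfl rfl,
      ← g a0 a0, ← g b0 b0, ← g a0 b0, ← g b0 a0]
    simp only [Xi, Pi.add_apply, Pi.sub_apply, Pi.smul_apply, pb, Matrix.mul_add, Matrix.add_mul,
      Matrix.mul_sub, Matrix.sub_mul, Matrix.mul_smul, Matrix.smul_mul]
  have h8 : (0 : ℝ) < ‖(jm T z).det‖ ^ 2 := by positivity
  rw [e, h5 φ (hφ _), Pat.vol, h6, JGx.det_pb, Complex.re_ofReal_mul, sl_apply,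
    ← funext (apply_update (fun _ H => pb (jm T z) H) (fun _ => C.om 1 φ γ a (T z)) k _), md,
    JGx.MD_pb, Complex.re_ofReal_mul, mul_div_mul_left _ _ h8.ne', qq, ← h4.self_of_nhds,
    JGx.mD_pt jb _ γ a _ h7 (JGx.all_upd (P := fun H => C.FmAt H _)
      (fun _ _ => JGx.fm_om jb 1 (hφ _)) (fm_Xi hψ _)), JGx.upd, ← (JGx.det_re h7).2,
    Complex.div_ofReal_re, Complex.ofReal_re]

omit hψ

variable {μ : Measure M}

theorem qq_int (hR : GR C μ) (hφ : Gd C μ φ) (hp : ∀ y, OP C φ y) (hψ : ∀ k, Gd C μ (ψ k))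
    (k : Fin N) : Integrable (qq C φ ψ k) μ ∧ 8 * ∫ y, qq C φ ψ k y ∂μ ≤
      ∑ l, ∫ y, (C.mD (update (fun _ => C.om 1 φ) k (C.gg (ψ l) (ψ l))) y).re ∂μ := by
  have g := fun {u v} hu hv => hR.grad (fun _ => C.om 1 φ) k u v
    (fun _ _ => ⟨hR.cb φ 1 hφ, fun γ a z hz _ => (hp _).2 γ a z hz rfl⟩) hu hv
  have a := hR.lin _ _ (1 / 4) (-1 / 4) (hψ 0) (hψ 2)
  have b := hR.lin _ _ (1 / 4) (-1 / 4) (hψ 1) (hψ 3)
  set p := fun y => 1 / 4 * ψ 0 y + -1 / 4 * ψ 2 y with hp'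
  set r := fun y => 1 / 4 * ψ 1 y + -1 / 4 * ψ 3 y with hr'
  set D := fun u v => C.mD (update (fun _ => C.om 1 φ) k (C.gg u v)) with hD
  have e : qq C φ ψ k = fun y => ((D p p y).re + (D r r y).re) + ((D p r y).im - (D r p y).im) := by
    funext y
    have : C.mD (update (fun _ => C.om 1 φ) k (Xi C ψ)) y =
        D p p y + D r r y + (-Complex.I) * D p r y + Complex.I * D r p y := by
      simp only [hD, Cov.mD, JGx.upd, Xi, Pi.add_apply, Pi.smul_apply, sub_eq_add_neg,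
        ← neg_smul, MD_update_add, MD_update_smul]
      ring
    rw [qq, this]
    simp
    ring
  have gr : ∀ {u v}, Gd C μ u → Gd C μ v → Integrable (fun y => (D u v y).re) μ :=
    fun hu hv => (g hu hv).1.re
  have gi : ∀ {u v}, Gd C μ u → Gd C μ v → Integrable (fun y => (D u v y).im) μ :=
    fun hu hv => (g hu hv).1.im
  have i0 : ∀ {u v}, Gd C μ u → Gd C μ v → ∫ y, (D u v y).im ∂μ = 0 := fun hu hv => by
    have := integral_im (g hu hv).1
    rw [(g hu hv).2] at this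
    simpa using this
  have i1 : ∀ {u v : M → ℝ} {q}, Gd C μ u → Gd C μ v → Gd C μ q →
      (q = fun y => 1 / 4 * u y + -1 / 4 * v y) →
      8 * ∫ y, (D q q y).re ∂μ ≤ ∫ y, (D u u y).re ∂μ + ∫ y, (D v v y).re ∂μ :=
    fun {u v q} hu hv hq e => by
      rw [← integral_const_mul, ← integral_add (gr hu hu) (gr hv hv)]
      refine integral_mono ((gr hq hq).const_mul _) ((gr hu hu).add (gr hv hv)) fun y => ?_
      obtain ⟨h1, h2⟩ := JGx.ch₀_spec (C := C) y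
      have := sl_nonneg (X := fun _ => C.om 1 φ _ _ _) (k := k) (fun _ _ => (hp y).2 _ _ _ h1 h2)
        (par_psd ((hu.sm y _ _ _ h1 h2).differentiableAt (by simp))
          ((hv.sm y _ _ _ h1 h2).differentiableAt (by simp)) rfl)
      rw [map_sub, map_add, sl_csmul] at this
      simp only [hD, RCLike.re_to_complex, re_mD, ← add_div, ← mul_div_assoc]
      subst e
      exact div_le_div_of_nonneg_right (sub_nonneg.1 this) (JGx.det_re h1).1.le
  have j1 : Integrable (fun y => (D p p y).re + (D r r y).re) μ := (gr a a).add (gr b b)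
  have j2 : Integrable (fun y => (D p r y).im - (D r p y).im) μ := (gi a b).sub (gi b a)
  rw [e]
  refine ⟨j1.add j2, ?_⟩
  rw [integral_add j1 j2, integral_add (gr a a) (gr b b), integral_sub (gi a b) (gi b a),
    Fin.sum_univ_four]
  linarith [i0 a b, i0 b a, i1 (hψ 0) (hψ 2) a rfl, i1 (hψ 1) (hψ 3) b rfl]

theorem g_one (hA : PA C μ) (hV : PV C) (hN : PN C μ) (hE : EN C μ) {ν ν' : M → ℝ}
    (h : Dens C ν) (h' : Dens C ν') {θ : ℝ} (hθ : θ ∈ Icc (0 : ℝ) 1)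
    (hp : Psd C (C.om 1 (phi C ν') - (θ : ℂ) • C.om 1 (phi C ν)) univ) (k : Fin N) :
    GG C μ ν + ∫ y, exp (phi C ν' y) * ν' y ∂μ -
      ∫ y, (1 + (phi C ν' y - phi C ν y)) * exp (phi C ν y) * ν y ∂μ +
      θ ^ (N - 1) * N / (2 * N.factorial) * ∫ y, (C.mD (update (fun _ => C.om 1 (phi C ν)) k
        (C.gg (fun x => phi C ν' x - phi C ν x) fun x => phi C ν' x - phi C ν x)) y).re ∂μ ≤
      GG C μ ν' := by
  have g := hN.gd ν h
  have g' := hN.gd ν' h'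
  have c := hV.cont ν h
  have c' := hV.cont ν' h'
  have a1 := hE.coc _ _ g g'
  have a2 := hE.two _ _ g g' (fun y => hA.op_sol ν _ y (hV.sol ν h)) θ hθ hp k
  have i1 := hA.dens_int ν h (fun y => exp (phi C ν y)) (by fun_prop)
  have i2 := hA.dens_int ν h (fun y => (1 + (phi C ν' y - phi C ν y)) * exp (phi C ν y))
    (by fun_prop)
  have i3 := (hN.int ν h).sub (hN.int ν' h')
  have a3 := integral_mono (hE.int _ _ g (g'.int.sub g.int)) (i3.add (i2.sub i1)) fun y => by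
    have := add_one_le_exp (phi C ν' y - phi C ν y)
    rw [exp_sub, le_div_iff₀ (exp_pos _)] at this
    simp only [Pi.add_apply, Pi.sub_apply, (hV.sol ν h).eq]
    linarith
  rw [integral_add' i3 (i2.sub i1), integral_sub' (hN.int ν h) (hN.int ν' h'), integral_sub' i2 i1,
    hN.mi ν h, hN.mi ν' h'] at a3
  simp only [GG, Pi.sub_apply] at a3 ⊢
  linarith

theorem g_four (hA : PA C μ) (hV : PV C) (hN : PN C μ) (hR : GR C μ) (hE : EN C μ) {ν : M → ℝ}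
    {ν' : Fin 4 → M → ℝ} (h : Dens C ν) (h' : ∀ l, Dens C (ν' l)) {θ c : ℝ} (hθ : θ ∈ Icc (0 : ℝ) 1)
    (hc : c ≤ θ ^ (N - 1))
    (hp : ∀ l, Psd C (C.om 1 (phi C (ν' l)) - (θ : ℂ) • C.om 1 (phi C ν)) univ) (k : Fin N) :
    Integrable (qq C (phi C ν) (fun l y => phi C (ν' l) y - phi C ν y) k) μ ∧
    GG C μ ν + (∑ l, ∫ y, exp (phi C (ν' l) y) * ν' l y ∂μ) / 4 -
      ∫ y, (1 + (∑ l, (phi C (ν' l) y - phi C ν y)) / 4) * exp (phi C ν y) * ν y ∂μ +
      c * (N / N.factorial) * ∫ y, qq C (phi C ν) (fun l y => phi C (ν' l) y - phi C ν y) k y ∂μ ≤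
      (∑ l, GG C μ (ν' l)) / 4 := by
  have g : ∀ l, Gd C μ fun y => phi C (ν' l) y - phi C ν y := fun l => by
    simpa only [one_mul, neg_mul, ← sub_eq_add_neg] using
      hR.lin _ _ 1 (-1) (hN.gd _ (h' l)) (hN.gd ν h)
  have op := fun y => hA.op_sol ν _ y (hV.sol ν h)
  obtain ⟨a1, a2⟩ := qq_int hR (hN.gd ν h) op g k
  have a3 := Finset.sum_le_sum fun l (_ : l ∈ Finset.univ) =>
    g_one hA hV hN hE h (h' l) hθ (hp l) k
  have a4 : 0 ≤ ∫ y, qq C (phi C ν) (fun l y => phi C (ν' l) y - phi C ν y) k y ∂μ :=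
    integral_nonneg (qq_nonneg (fun l => (g l).sm) op k)
  have c0 := hV.cont ν h
  have c1 := fun l => hV.cont _ (h' l)
  have a5 : ∫ y, (1 + (∑ l, (phi C (ν' l) y - phi C ν y)) / 4) * exp (phi C ν y) * ν y ∂μ =
      (∑ l, ∫ y, (1 + (phi C (ν' l) y - phi C ν y)) * exp (phi C ν y) * ν y ∂μ) / 4 := by
    rw [← integral_finsetSum _ fun l _ => hA.dens_int ν h _ (by fun_prop), ← integral_div]
    congr 1
    funext y
    simp only [Fin.sum_univ_four]
    ring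
  refine ⟨a1, ?_⟩
  rw [Finset.sum_add_distrib, Finset.sum_sub_distrib, Finset.sum_add_distrib, ← Finset.mul_sum]
    at a3
  have a6 : 0 ≤ θ ^ (N - 1) * N / (2 * N.factorial) := by have := hθ.1; positivity
  have a7 := mul_le_mul_of_nonneg_left a2 a6
  have a8 := mul_le_mul_of_nonneg_right hc (mul_nonneg
    (show (0 : ℝ) ≤ N / N.factorial by positivity) a4)
  simp only [Finset.sum_const, Finset.card_univ, Fintype.card_fin, nsmul_eq_mul, Nat.cast_ofNat]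
    at a3
  rw [a5]
  have a9 : θ ^ (N - 1) * N / (2 * N.factorial) * 8 = 4 * (θ ^ (N - 1) * (N / N.factorial)) := by
    ring
  rw [← mul_assoc, a9] at a7
  rw [← mul_assoc, ← mul_assoc] at a8
  linarith

end Vale.Agent.P284Y.Ps
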