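import Vale.Agent.P284Y.P.PshG
import Vale.Agent.P284Y.P.St

/-!
# P284Y, block P, PSH: holomorphic families of densities
-/

set_option maxSynthPendingDepth 3
set_option linter.all false

open scoped ContDiff Topology ComplexOrder ComplexConjugate
open Filter Set Metric Function Matrix MeasureTheory Real

noncomputable section

namespace Vale.Agent.P284Y.Ps

open Vale.Agent.P272.K Vale.Agent.P284.H650 Vale.Agent.P284Z J L P

variable {N : ℕ} {W : Type} [NormedAddCommGroup W] [NormedSpace ℂ W] {x : W} {c : W → Cm N}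
  {A : W → Mx N} {h : W → ℂ}

theorem an_det (hA : ∀ a b, AnalyticAt ℂ (fun θ => A θ a b) x) :
    AnalyticAt ℂ (fun θ => (A θ).det) x := by
  simp only [Matrix.det_apply']
  exact Finset.analyticAt_fun_sum _ fun σ _ =>
    analyticAt_const.mul (Finset.analyticAt_fun_prod _ fun i _ => hA _ _)

theorem an_inv (hA : ∀ a b, AnalyticAt ℂ (fun θ => A θ a b) x) (h0 : (A x).det ≠ 0) (i j : Fin N) :
    AnalyticAt ℂ (fun θ => (A θ)⁻¹ i j) x := by
  simp only [Matrix.inv_def, Ring.inverse_eq_inv', Matrix.smul_apply, smul_eq_mul,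
    Matrix.adjugate_apply]
  refine ((an_det hA).inv h0).mul (an_det fun k l => ?_)
  by_cases hk : k = j
  · subst hk
    simp only [Matrix.updateRow_self]
    exact analyticAt_const
  · simp only [Matrix.updateRow_ne hk]
    exact hA k l

theorem an_mulVec {v : W → Cm N} (hA : ∀ a b, AnalyticAt ℂ (fun θ => A θ a b) x)
    (hv : AnalyticAt ℂ v x) : AnalyticAt ℂ (fun θ => A θ *ᵥ v θ) x := by
  refine analyticAt_pi_iff.2 fun a => ?_
  simp only [mulVec, dotProduct]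
  exact Finset.analyticAt_fun_sum _ fun b _ => (hA a b).mul (analyticAt_pi_iff.1 hv b)

theorem an_fst {V V' : Type} [NormedAddCommGroup V] [NormedSpace ℂ V] [NormedAddCommGroup V']
    [NormedSpace ℂ V'] {f : W → V'} (hf : AnalyticAt ℂ f x) (u : V) :
    AnalyticAt ℂ (fun p : W × V => f p.1) (x, u) := AnalyticAt.comp (g := f) hf analyticAt_fst

/-- the family of affine maps -/
def TT (c : W → Cm N) (A : W → Mx N) (p : W × Cm N) : Cm N := c p.1 + A p.1 *ᵥ p.2

/-- the correction term -/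
def cor (Λ : Fin N → ℝ) (c : W → Cm N) (A : W → Mx N) (θ : W) : ℝ :=
  ∑ a, Λ a * (N + 1) * (‖c θ a‖ ^ 2 + ∑ b, ‖A θ a b‖ ^ 2)

variable (hc : AnalyticAt ℂ c x) (hA : ∀ a b, AnalyticAt ℂ (fun θ => A θ a b) x)
include hc hA

theorem an_TT (u : Cm N) : AnalyticAt ℂ (TT c A) (x, u) :=
  (an_fst hc u).add (an_mulVec (A := fun p : W × Cm N => A p.1) (fun a b => an_fst (hA a b) u)
    analyticAt_snd)

theorem d_TT (u : Cm N) (w : W) (a : Fin N) : fderiv ℂ (TT c A) (x, u) (w, 0) a =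
    fderiv ℂ (fun θ => c θ a) x w + ∑ b, fderiv ℂ (fun θ => A θ a b) x w * u b := by
  have h1 := HasFDerivAt.comp x (f := fun θ => (θ, u)) (an_TT hc hA u).differentiableAt.hasFDerivAt
    (hasFDerivAt_prodMk_left x u)
  have h2 := (hasFDerivAt_pi'.1 h1 a).unique
    ((analyticAt_pi_iff.1 hc a).differentiableAt.hasFDerivAt.fun_add (HasFDerivAt.fun_sum
      fun b (_ : b ∈ Finset.univ) => (hA a b).differentiableAt.hasFDerivAt.mul_const (u b)))
  simpa [mul_comm] using congrArg (fun L => L w) h2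

variable [NormedSpace ℝ W] [IsScalarTower ℝ ℂ W]

theorem cor_levi (Λ : Fin N → ℝ) : ContDiffAt ℝ 2 (cor Λ c A) x ∧ ∀ w, levi (cor Λ c A) x w =
    4 * ∑ a, Λ a * (N + 1) * (‖fderiv ℂ (fun θ => c θ a) x w‖ ^ 2 +
      ∑ b, ‖fderiv ℂ (fun θ => A θ a b) x w‖ ^ 2) := by
  have h1 := fun a => (an_two (analyticAt_pi_iff.1 hc a)).norm_sq ℝ
  have h2 := fun a b => (an_two (hA a b)).norm_sq ℝ
  have h3 := fun a => ContDiffAt.sum fun b (_ : b ∈ Finset.univ) => h2 a b
  have h4 := fun a => (contDiffAt_const (c := Λ a * (N + 1))).mul ((h1 a).add (h3 a))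
  refine ⟨ContDiffAt.sum fun a _ => h4 a, fun w => ?_⟩
  unfold cor
  rw [Lib.levi_sum _ fun a _ => h4 a, Finset.mul_sum]
  refine Finset.sum_congr rfl fun a _ => ?_
  rw [Lib.levi_const_mul ((h1 a).add (h3 a)), Lib.levi_add (h1 a) (h3 a),
    Lib.levi_sum _ fun b _ => h2 a b, levi_nsq (analyticAt_pi_iff.1 hc a)]
  simp only [levi_nsq (hA a _), ← Finset.mul_sum]
  ring

theorem qf_le_cor {Λ : Fin N → ℝ} {G : Mx N} (hG : G.PosSemidef)
    (hΛ : (Matrix.diagonal (fun a => (Λ a : ℂ)) - G).PosSemidef) {u : Cm N} (hu : ‖u‖ ≤ 1) (w : W) :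
    qf G (fderiv ℂ (TT c A) (x, u) (w, 0)) ≤ levi (cor Λ c A) x w / 4 := by
  have h1 := qf_add (Matrix.diagonal (fun a => (Λ a : ℂ)) - G) G
  have h2 : ∀ a, 0 ≤ Λ a := fun a => by
    have := hΛ.add hG
    rw [sub_add_cancel] at this
    exact Complex.zero_le_real.1 (posSemidef_diagonal_iff.1 this a)
  simp only [sub_add_cancel, qf_diag] at h1
  rw [(cor_levi hc hA Λ).2, mul_div_cancel_left₀ _ four_ne_zero]
  refine (le_add_of_nonneg_left (qf_nonneg hΛ _)).trans ((h1 _).symm.trans_le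
    (Finset.sum_le_sum fun a _ => ?_))
  rw [mul_assoc, d_TT hc hA]
  refine mul_le_mul_of_nonneg_left ?_ (h2 a)
  have h3 := sq_sum_le_card_mul_sum_sq (s := Finset.univ) (f := (Fin.cons
    ‖fderiv ℂ (fun θ => c θ a) x w‖ fun b => ‖fderiv ℂ (fun θ => A θ a b) x w‖ : Fin (N + 1) → ℝ))
  simp only [Fin.sum_univ_succ, Fin.cons_zero, Fin.cons_succ, Finset.card_univ, Fintype.card_fin,
    Nat.cast_add, Nat.cast_one] at h3
  refine (pow_le_pow_left₀ (norm_nonneg _) ((norm_add_le _ _).trans (add_le_add le_rfl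
    ((norm_sum_le _ _).trans (Finset.sum_le_sum fun b _ => ?_)))) 2).trans h3
  rw [norm_mul]
  exact mul_le_of_le_one_right (norm_nonneg _) ((norm_le_pi_norm u b).trans hu)

theorem tube {U : Set (Cm N)} (hU : IsOpen U) (h : ∀ u : Cm N, ‖u‖ ≤ 1 → TT c A (x, u) ∈ U) :
    ∃ δ > (0 : ℝ), ∃ K, IsCompact K ∧ K ⊆ U ∧
      (∀ u : Cm N, ‖u‖ ≤ 1 → ball (TT c A (x, u)) δ ⊆ K) ∧
      ∀ᶠ θ in 𝓝 x, ∀ u : Cm N, ‖u‖ ≤ 1 → TT c A (θ, u) ∈ K := by
  have h1 : IsCompact ((fun u => TT c A (x, u)) '' closedBall 0 1) :=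
    (isCompact_closedBall _ _).image (continuous_iff_continuousAt.2 fun u =>
      ContinuousAt.comp (g := TT c A) (f := fun u => (x, u)) (an_TT hc hA u).continuousAt
        (by fun_prop))
  obtain ⟨δ, h2, h3⟩ := h1.exists_cthickening_subset_open hU (by
    rintro _ ⟨u, hu, rfl⟩
    exact h u (mem_closedBall_zero_iff.1 hu))
  have h4 : ∀ u : Cm N, ‖u‖ ≤ 1 → ball (TT c A (x, u)) δ ⊆
      cthickening δ ((fun u => TT c A (x, u)) '' closedBall 0 1) := fun u hu =>
    ball_subset_closedBall.trans (closedBall_subset_cthickening (mem_image_of_mem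
      (fun u => TT c A (x, u)) (mem_closedBall_zero_iff.2 hu)) δ)
  refine ⟨δ, h2, _, h1.cthickening, h3, h4, ?_⟩
  simp only [← mem_closedBall_zero_iff]
  exact (isCompact_closedBall _ _).eventually_forall_of_forall_eventually fun u hu =>
    ((an_TT hc hA u).continuousAt.eventually (ball_mem_nhds _ h2)).mono fun p hp =>
      h4 u (mem_closedBall_zero_iff.1 hu) hp

variable {Γ M : Type} [Group Γ] [TopologicalSpace M] [T2Space M] [MulAction Γ M]
  [MeasurableSpace M] [BorelSpace M] {C : Cov N Γ M} {μ : Measure M} {Q : Pat N M} {i : Q.ι}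
  {k : Cm N → ℝ}

omit hc hA in
theorem cont_pt (pg : PG Q μ) {z : Cm N} (hz : z ∈ Q.U i) : ContinuousAt (Q.pt i) z :=
  (pg.map_pt i z hz).le

theorem joint (hQ : Q.Ok) (pg : PG Q μ) (hT : TQ C Q) (hk : Ker k) (hh : AnalyticAt ℂ h x)
    (hI : ∀ᶠ θ in 𝓝 x, Q.In i (c θ) (A θ)) : ∃ K, IsCompact K ∧
    (∀ᶠ θ in 𝓝 x, ∀ y ∉ K, Q.pm i (c θ) (A θ) k y = 0) ∧ ∀ γ a, ∀ z ∈ C.B 4 a, ContDiffAt ℝ ∞
      (fun p : W × Cm N => exp (2 * (h p.1).re) * Q.pm i (c p.1) (A p.1) k (C.pt γ a p.2))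
      (x, z) := by
  obtain ⟨δ, -, K, h1, h2, -, h3⟩ := tube hc hA (hQ.opn i) hI.self_of_nhds.2
  have h4 : IsCompact (Q.pt i '' K) :=
    h1.image_of_continuousOn fun z hz => (cont_pt pg (h2 hz)).continuousWithinAt
  have h5 : ∀ᶠ θ in 𝓝 x, ∀ y ∉ Q.pt i '' K, Q.pm i (c θ) (A θ) k y = 0 := by
    filter_upwards [hI, h3] with θ a1 a2 y hy
    by_contra h0
    obtain ⟨u, a3, rfl⟩ := pg.pm_ne i _ _ k y hk a1 h0
    exact hy ⟨_, a2 u (hk.2.2 u a3), rfl⟩
  refine ⟨_, h4, h5, fun γ a z hz => ContDiffAt.mul ?_ ?_⟩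
  · exact (contDiffAt_const.mul (Complex.reCLM.contDiff.contDiffAt.comp _
      ((an_fst hh z).contDiffAt.restrict_scalars ℝ))).exp
  by_cases hy : C.pt γ a z ∈ Q.pt i '' K
  · obtain ⟨z', a1, a2⟩ := hy
    obtain ⟨T, a3, a4, a5⟩ := hT.chart' γ a z hz i z' (h2 a1) a2.symm
    have a6 : AnalyticAt ℂ (fun p : W × Cm N => T p.2) (x, z) :=
      AnalyticAt.comp (g := T) a3 analyticAt_snd
    have a7 := pg.vol_pos i z' (h2 a1)
    have a8 := hI.self_of_nhds.1
    refine ContDiffAt.congr_of_eventuallyEq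
      (f := fun p : W × Cm N => mv (c p.1) (A p.1) k (T p.2) / Q.vol i (T p.2)) ?_ ?_
    · refine ContDiffAt.div (ContDiffAt.div (hk.1.contDiffAt.comp _ ?_) ?_ (by positivity))
        (ContDiffAt.comp _ (g := Q.vol i) (by rw [a4]; exact a7.2)
          (a6.contDiffAt.restrict_scalars ℝ)) (by rw [a4]; exact a7.1.ne')
      · exact (an_mulVec (A := fun p : W × Cm N => (A p.1)⁻¹) (fun a b => an_fst (an_inv hA a8 a b) z)
          (a6.sub (an_fst hc z))).contDiffAt.restrict_scalars ℝ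
      · exact ((an_fst (an_det hA) z).contDiffAt.restrict_scalars ℝ).norm_sq ℝ
    · filter_upwards [continuousAt_snd.eventually a5, a6.continuousAt.eventually
        ((hQ.opn i).mem_nhds (show T z ∈ Q.U i from a4 ▸ h2 a1))] with p b1 b2
      rw [← b1]
      exact pg.push_pt i _ _ b2
  · refine contDiffAt_const.congr_of_eventuallyEq (f := fun _ => 0) ?_
    filter_upwards [continuousAt_fst.eventually h5, continuousAt_snd.eventually
      ((C.continuousAt_pt hz γ).eventually (h4.isClosed.isOpen_compl.mem_nhds hy))] with p b1 b2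
    exact b1 _ b2

omit hc hA

theorem pm_intg (pg : PG Q μ) (hk : Ker k) {c : Cm N} {A : Mx N} (hI : Q.In i c A) {F : M → ℝ}
    (hF : Continuous F) : Integrable fun u => F (Q.pt i (c + A *ᵥ u)) * k u := by
  refine IntegrableOn.integrable_of_forall_notMem_eq_zero (s := closedBall 0 1)
    (ContinuousOn.integrableOn_compact (isCompact_closedBall _ _) fun u hu => ?_) fun u hu => ?_
  · exact (ContinuousAt.mul (hF.continuousAt.comp (ContinuousAt.comp (g := Q.pt i)
      (f := fun u => c + A *ᵥ u) (cont_pt pg (hI.2 u (mem_closedBall_zero_iff.1 hu)))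
      (continuous_const.add (continuous_const.matrix_mulVec continuous_id)).continuousAt))
      hk.1.continuous.continuousAt).continuousWithinAt
  · rw [of_not_not fun h0 => hu (mem_closedBall_zero_iff.2 (hk.2.2 u h0)), mul_zero]

theorem int_small (pg : PG Q μ) {ν : W → M → ℝ} {K : Set M} (hK : IsCompact K)
    (hν : ∀ᶠ q in 𝓝 x, ∀ y ∉ K, ν q y = 0) (hs : ∀ γ a, ∀ z ∈ C.B 4 a,
      ContinuousAt (fun p : W × Cm N => ν p.1 (C.pt γ a p.2)) (x, z)) :
    Tendsto (fun q => ∫ y, |ν q y - ν x y| ∂μ) (𝓝 x) (𝓝 0) := by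
  obtain ⟨S, hS⟩ := fin_cB (C := C) hK (k := 1) (by norm_num)
  have b4 : ∀ e > (0 : ℝ), ∀ᶠ q in 𝓝 x, ∀ y ∈ K, |ν q y - ν x y| ≤ e := fun e he => by
    have b5 : ∀ p : S × C.I, ∀ᶠ q in 𝓝 x, ∀ z ∈ C.cB 1 p.2,
        |ν q (C.pt p.1 p.2 z) - ν x (C.pt p.1 p.2 z)| ≤ e := fun p =>
      (C.isCompact_cB _ _).eventually_forall_of_forall_eventually fun z hz => by
        have c1 := hs p.1 p.2 z (C.cB_sub_B (by norm_num) _ hz)
        have c2 : ContinuousAt (fun q : W × Cm N => ν x (C.pt p.1 p.2 q.2)) (x, z) :=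
          ContinuousAt.comp (f := fun q : W × Cm N => (x, q.2)) (x := (x, z)) c1 (by fun_prop)
        exact (c1.sub c2).abs.eventually (ge_mem_nhds (by simpa using he))
    filter_upwards [eventually_all.2 b5] with q h2 y hy
    obtain ⟨γ, a, z, hz, rfl⟩ := C.exists_pt y
    exact h2 (⟨γ, by_contra fun hγ => hS γ hγ a z (C.B_sub_cB _ _ hz) hy⟩, a) z
      (C.B_sub_cB _ _ hz)
  refine Metric.tendsto_nhds.2 fun e he => ?_
  have h0 : 0 ≤ μ.real K := measureReal_nonneg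
  filter_upwards [hν, b4 (e / (μ.real K + 1)) (by positivity)] with q h1 h2
  rw [dist_zero_right, ← setIntegral_eq_integral_of_forall_compl_eq_zero (s := K) fun y hy => by
    rw [h1 y hy, hν.self_of_nhds y hy, sub_zero, abs_zero]]
  refine (norm_setIntegral_le_of_norm_le_const (pg.fin K hK) fun y hy =>
    (by rw [norm_eq_abs, abs_abs]; exact h2 y hy : ‖|ν q y - ν x y|‖ ≤ e / (μ.real K + 1))).trans_lt
    ?_
  rw [div_mul_eq_mul_div, div_lt_iff₀ (by positivity)]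
  linarith

end Vale.Agent.P284Y.Ps
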